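import Vale.Agent.P214.WSEQ.Props

/-!
# P214, target B, block [B1]: windows sequence at a point with power decay, exact statements

At a point where `V` is flat at a power rate (dilated to radius `3/8`, structure `LocB`) STEP-R is
iterated WITHOUT translations: `u (j+1)` is the output of STEP-R at the radius `r j` for the
reference `u j`.  The next radius is the first drop radius of the height, but at least
`r * h ^ c₅`.  The references are small in scaled norms only (`RefS`), their curvature is a power: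
`r ^ (k-1) |D^k u| ≤ 2 r ^ (β/4)`.
-/

open Set Filter Topology MeasureTheory Metric
open scoped RealInnerProductSpace ENNReal ContDiff

namespace Vale.Agent.P214.BSEQ

open WIN STR WSEQ

noncomputable section

variable {m n : ℕ} {E : Type*} [NormedAddCommGroup E] [InnerProductSpace ℝ E]
  [FiniteDimensional ℝ E] [MeasurableSpace E] [BorelSpace E]

/-- the local situation at a point with power decay, dilated to radius `3/8`; the point is `0`,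
`T` the tangent plane -/
structure LocB (m Q : ℕ) (T : Submodule ℝ E) (ν : Measure E) (P : E → E →L[ℝ] E) (β τ : ℝ) :
    Prop where
  int : ∀ r, 0 < r → r ≤ 3 / 8 →
    Skel.IntCyl m Q T 0 r (τ * r * r ^ β) (τ * r ^ β) ν P
  exc : ∀ r, 0 < r → r ≤ 3 / 8 → Skel.exc T ν P 0 r ≤ τ * r ^ m * r ^ β
  high : HighD m Q T ν (3 / 16) 0
  zero_supp : (0:E) ∈ ν.support

/-- an admissible reference in scaled norms at the radius `r` -/
structure RefS (ε r : ℝ) (u : Fin n → REF.E m → ℝ) : Prop where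
  smooth : ∀ a, ContDiff ℝ ∞ (u a)
  supp : ∀ a x, 3 / 8 ≤ ‖x‖ → u a x = 0
  val : ∀ a, |u a 0| ≤ ε * r
  small : ∀ a k, 1 ≤ k → k ≤ sW m → ∀ x, ‖iteratedFDeriv ℝ k (u a) x‖ ≤ ε * (r * r⁻¹ ^ k)
  exact : ∀ a x, ‖x‖ < r → REF.Mop u a x = 0

/-- **[B-STEPS]** (helper571): STEP-R for references in scaled norms; same output as in STR -/
def StepSStmt (E : Type*) [NormedAddCommGroup E] [InnerProductSpace ℝ E] [FiniteDimensional ℝ E]
    [MeasurableSpace E] [BorelSpace E] (m n Q : ℕ) : Prop :=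
  ∃ c₀ : ℝ, 0 < c₀ ∧ c₀ ≤ 1 / 8 ∧ ∀ c₁ : ℝ, 0 < c₁ → c₁ ≤ c₀ ^ 2 → ∀ τ : ℝ, 0 < τ →
    ∃ ε : ℝ, 0 < ε ∧ ε ≤ 1 ∧
    ∀ (T : Submodule ℝ E) (F : Frame m n T) (u : Fin n → REF.E m → ℝ) (r h θ : ℝ)
      (ν : Measure E) (P : E → E →L[ℝ] E),
    RefS ε r u → 0 < r → r ≤ 3 / 16 →
    Skel.IntCyl m Q T 0 (2 * r) (ε * r) ε ν P → Skel.exc T ν P 0 (2 * r) ≤ ε * r ^ m →
    h = hN m T (F.lift u) ν r → 0 < h → h ≤ ε → h ^ c₁ ≤ θ → θ ≤ 1 / 120 →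
    (∀ (ψ : REF.E m → ℝ) (M : ℝ), Continuous ψ → (∀ x, r * (1 - 5 * θ) ≤ ‖x‖ → ψ x = 0) →
      (∀ x, |ψ x| ≤ M) → |∫ y, ψ (F.xc y) ∂ν - Q * ∫ x, ψ x * √(REF.gm u x).det ∂μH[m]|
        ≤ r ^ m * h ^ (1 / 2 - c₁ / c₀) * M) ∧
    ∃ u' : Fin n → REF.E m → ℝ, StepOut m n Q T F u u' c₀ c₁ τ r h θ ν P

/-- exponents: `β` the power of the heights (`h j ≤ r j ^ β`), `c₀, c₁` from STEP, `c` the gain of a
drop, `c₅` the maximal length of a window, `e` the loss in the size of the increments, `e'` the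
loss of the heights inside a window -/
structure Exps where
  (β c₀ c₁ c c₅ e e' : ℝ)

/-- relations between the exponents -/
structure Exps.OK (X : Exps) (m : ℕ) : Prop where
  β_pos : 0 < X.β
  β_le : X.β ≤ 1 / 2
  c₀_pos : 0 < X.c₀
  c₀_le : X.c₀ ≤ 1 / 8
  c₁_pos : 0 < X.c₁
  c₁_le : X.c₁ ≤ X.c₀ ^ 2
  e_c₁ : X.e = 2 * (X.c₁ / X.c₀)
  c_pos : 0 < X.c
  c_le : X.c ≤ 1 / 100
  c₅_pos : 0 < X.c₅
  /-- heights inside a window: `h ^ (1 - e')` -/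
  e'_eq : X.e' = X.e + (m + 3) * X.c₅
  e'_le : X.e' ≤ X.c / 8
  /-- weak smallness at the lower end of a window -/
  c₅_small : (5 * m + 20) * X.c₅ + X.e ≤ 1 / 8
  e_pos : 0 < X.e
  e_le : X.e ≤ X.β * X.c₅ / 16

/-- One window: from the reference `u` at the radius `r` (height `h`) to the reference `u'` (output
of STEP-R), which is active below `r`, and the next radius `r'`. -/
structure Nxt (m n Q : ℕ) (T : Submodule ℝ E) (F : Frame m n T) (ν : Measure E)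
    (X : Exps) (ε : ℝ) (u : Fin n → REF.E m → ℝ) (r h : ℝ) (u' : Fin n → REF.E m → ℝ)
    (r' : ℝ) : Prop where
  smooth : ∀ a, ContDiff ℝ ∞ (u' a)
  outside : ∀ a x, r ≤ ‖x‖ → u' a x = u a x
  exact : ∀ a x, ‖x‖ < r * (1 - 5 * th h) → REF.Mop u' a x = 0
  /-- the new reference is small at the scale `r`, too -/
  val : ∀ a, |u' a 0| ≤ ε * r
  small : ∀ a k, 1 ≤ k → k ≤ sW m → ∀ x, ‖iteratedFDeriv ℝ k (u' a) x‖ ≤ ε * (r * r⁻¹ ^ k)
  size : ∀ a, ∀ k ≤ sW m, ∀ x, ‖iteratedFDeriv ℝ k (fun x => u' a x - u a x) x‖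
    ≤ r * r⁻¹ ^ k * h ^ (1 / 2 - X.e)
  /-- weak smallness of the height -/
  weak : ∀ (φ : Fin n → REF.E m → ℝ) (M : ℝ), TstR (sW m) r (r * (1 - 5 * th h)) M φ →
    |∫ y, ∑ a, φ a (F.xc y) * F.ht u' a y ∂ν| ≤ r ^ (m + 1) * h ^ (1 - X.e) * M
  /-- mass against the area of the old reference -/
  mass : ∀ (ψ : REF.E m → ℝ) (M : ℝ), Continuous ψ →
    (∀ x, r * (1 - 5 * th h) ≤ ‖x‖ → ψ x = 0) → (∀ x, |ψ x| ≤ M) →
    |∫ y, ψ (F.xc y) ∂ν - Q * ∫ x, ψ x * √(REF.gm u x).det ∂μH[m]|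
      ≤ r ^ m * h ^ (1 / 2 - X.e) * M
  /-- the next radius -/
  r_ge : r * h ^ X.c₅ ≤ r'
  r_le : r' ≤ r * (1 - 12 * th h)
  /-- drop, or maximal length -/
  h_next : hN m T (F.lift u') ν r' ≤ h ^ (1 + X.c) ∨ r' = r * h ^ X.c₅
  h_gt : ∀ t, r' < t → t ≤ r * (1 - 12 * th h) → h ^ (1 + X.c) < hN m T (F.lift u') ν t
  /-- heights (trivial bound) -/
  top : ∀ t, r * h ^ X.c₅ ≤ t → t ≤ r * (1 - 8 * th h) → hN m T (F.lift u') ν t ≤ h ^ (1 - X.e')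

/-- **the windows sequence at a point with power decay** -/
structure WSeq (m n Q : ℕ) (T : Submodule ℝ E) (F : Frame m n T) (ν : Measure E)
    (X : Exps) (C ε : ℝ) where
  /-- references: `u (k+1)` is the one of window `k` -/
  u : ℕ → Fin n → REF.E m → ℝ
  /-- radii -/
  r : ℕ → ℝ
  /-- heights -/
  h : ℕ → ℝ
  u_zero : u 0 = 0
  r_zero : r 0 = 3 / 16
  r_pos : ∀ j, 0 < r j
  h_eq : ∀ j, h j = hN m T (F.lift (u j)) ν (r j)
  h_pos : ∀ j, 0 < h j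
  h_le : ∀ j, h j ≤ ε
  h_pow : ∀ j, h j ≤ r j ^ X.β
  th_le : ∀ j, th (h j) ≤ 1 / 120
  refe : ∀ j, RefS ε (r j) (u j)
  nxt : ∀ j, Nxt m n Q T F ν X ε (u j) (r j) (h j) (u (j + 1)) (r (j + 1))
  /-- power bound of the curvature (and of the higher derivatives) -/
  pw : ∀ j a k, 2 ≤ k → k ≤ sW m → ∀ x,
    ‖iteratedFDeriv ℝ k (u (j + 1) a) x‖ ≤ 2 * (r j * (r j)⁻¹ ^ k * r j ^ (X.β / 4))
  /-- value and slope at the centre -/
  cen : ∀ j a, |u (j + 1) a 0| ≤ C * (r (j + 1) * r (j + 1) ^ (X.β / 4))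
  cen' : ∀ j a, ‖fderiv ℝ (u (j + 1) a) 0‖ ≤ C * r (j + 1) ^ (X.β / 4)
  /-- accuracy of the references (W6) -/
  acc : ∀ j a, ∀ k ≤ 3, ∀ x, ‖x‖ < r (j + 1) * (1 - 8 * th (h (j + 1))) →
    ‖iteratedFDeriv ℝ k (fun x => u (j + 2) a x - u (j + 1) a x) x‖
      ≤ r (j + 1) * (r (j + 1))⁻¹ ^ k * h j ^ (1 / 2 + 2 * X.c)
  /-- superexponential decrease of the heights at the radii `r j` -/
  grow : ∃ g > 0, ∀ j : ℕ, h j ≤ Real.exp (-(g * (1 + g) ^ j))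
  r_lim : Tendsto r atTop (𝓝 0)

/-- **[B-WINDOWS]** (helper241) -/
def WindowsStmt (E : Type*) [NormedAddCommGroup E] [InnerProductSpace ℝ E] [FiniteDimensional ℝ E]
    [MeasurableSpace E] [BorelSpace E] (m n Q : ℕ) : Prop :=
  ∀ β : ℝ, 0 < β → β ≤ 1 / 2 → ∃ X : Exps, X.OK m ∧ X.β = β ∧ ∃ C : ℝ, 1 ≤ C ∧
    ∀ ε : ℝ, 0 < ε → ∃ τ : ℝ, 0 < τ ∧ τ ≤ ε ∧
    ∀ (T : Submodule ℝ E) (F : Frame m n T) (ν : Measure E) (P : E → E →L[ℝ] E),
      LocB m Q T ν P β τ →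
      (∃ ρ > 0, ∃ w : E → E, ALL.OnGraph T ν ρ w) ∨ Nonempty (WSeq m n Q T F ν X C ε)

/-- **[B-ACC]**: accuracy of the references from two consecutive windows -/
def AccStmt (E : Type*) [NormedAddCommGroup E] [InnerProductSpace ℝ E] [FiniteDimensional ℝ E]
    [MeasurableSpace E] [BorelSpace E] (m n Q : ℕ) (X : Exps) : Prop :=
  ∃ ε₀ : ℝ, 0 < ε₀ ∧ ∀ (T : Submodule ℝ E) (F : Frame m n T) (ν : Measure E)
    (P : E → E →L[ℝ] E) (ε : ℝ) (u u' u'' : Fin n → REF.E m → ℝ) (r h r' h' r'' : ℝ),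
    (∃ H δ', Skel.IntCyl m Q T 0 (3 / 8) H δ' ν P) → ε ≤ ε₀ → 0 < r → r ≤ 3 / 16 →
    0 < h → h ≤ ε₀ → 0 < h' → h' ≤ h ^ (1 - X.e') → RefS ε r u →
    Nxt m n Q T F ν X ε u r h u' r' → Nxt m n Q T F ν X ε u' r' h' u'' r'' →
    ∀ a, ∀ k ≤ 3, ∀ x, ‖x‖ < r' * (1 - 8 * th h') →
      ‖iteratedFDeriv ℝ k (fun x => u'' a x - u' a x) x‖ ≤ r' * r'⁻¹ ^ k * h ^ (1 / 2 + 2 * X.c)

end

end Vale.Agent.P214.BSEQ
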