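import Vale.Agent.P214.STR.Main
import Vale.Agent.P214.BSEQ.Props

/-!
# P214, target B, block BSEQ: STEP-R for references which are only small in scaled norms

`RefS ε r u`: `|u(0)| ≤ ε r`, `u` is an exact minimal graph over `|x| < r` and
`r^{k-1} |D^k u| ≤ ε` for `1 ≤ k ≤ sW m`.
-/

open Set Filter Topology MeasureTheory Metric
open scoped RealInnerProductSpace ENNReal ContDiff

set_option linter.all false

namespace Vale.Agent.P214.BSEQ

open WIN STR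

noncomputable section

variable {m n : ℕ}

lemma norm_iter_one {f : REF.E m → ℝ} (x : REF.E m) :
    ‖iteratedFDeriv ℝ 1 f x‖ = ‖fderiv ℝ f x‖ := by
  rw [← norm_iteratedFDeriv_fderiv, norm_iteratedFDeriv_zero]

lemma RefS.fderiv_le {ε r : ℝ} {u : Fin n → REF.E m → ℝ} (hu : RefS ε r u) (hr : 0 < r)
    (a : Fin n) (x : REF.E m) : ‖fderiv ℝ (u a) x‖ ≤ ε := by
  have h1 := hu.small a 1 le_rfl (by unfold sW; omega) x
  rwa [norm_iter_one, pow_one, mul_inv_cancel₀ hr.ne', mul_one] at h1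

lemma RefS.abs_sub_le {ε r : ℝ} {u : Fin n → REF.E m → ℝ} (hu : RefS ε r u) (hr : 0 < r)
    (a : Fin n) (x y : REF.E m) : |u a x - u a y| ≤ ε * ‖x - y‖ :=
  Convex.norm_image_sub_le_of_norm_fderiv_le (𝕜 := ℝ) (s := Set.univ)
    (fun y _ => ((hu.smooth a).differentiable (by simp)) y)
    (fun y _ => hu.fderiv_le hr a y) convex_univ (mem_univ _) (mem_univ _)

lemma RefS.abs_le {ε r : ℝ} {u : Fin n → REF.E m → ℝ} (hu : RefS ε r u) (hr : 0 < r)
    (a : Fin n) (x : REF.E m) : |u a x| ≤ ε * (r + ‖x‖) := by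
  have h1 := hu.abs_sub_le hr a x 0
  have h2 := hu.val a
  rw [sub_zero] at h1
  have h3 : |u a x| ≤ |u a x - u a 0| + |u a 0| := by
    have := abs_add_le (u a x - u a 0) (u a 0)
    rwa [sub_add_cancel] at this
  linarith

lemma RefS.mono {ε ε' r : ℝ} {u : Fin n → REF.E m → ℝ} (hu : RefS ε r u) (hr : 0 < r)
    (h : ε ≤ ε') : RefS ε' r u :=
  ⟨hu.smooth, hu.supp, fun a => (hu.val a).trans (mul_le_mul_of_nonneg_right h hr.le),
    fun a k h1 h2 x => (hu.small a k h1 h2 x).trans (mul_le_mul_of_nonneg_right h (by positivity)),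
    hu.exact⟩

/-- smallness of the dilation -/
lemma sc_smallS {ε t : ℝ} (ht : 0 < t) (hε : 0 ≤ ε) {u : Fin n → REF.E m → ℝ}
    (hu : RefS ε (t * (3 / 16)) u) (a : Fin n) :
    ∀ k ≤ sW m, ∀ x, ‖x‖ ≤ 3 / 8 → ‖iteratedFDeriv ℝ k (sc t (u a)) x‖
      ≤ (16 / 3) ^ sW m * ε := by
  intro k hk x hx
  have hr : 0 < t * (3 / 16) := by positivity
  have h16 : (1:ℝ) ≤ (16 / 3) ^ sW m := one_le_pow₀ (by norm_num)
  rw [norm_iter_sc ht (hu.smooth a)]
  rcases Nat.eq_zero_or_pos k with rfl | hk0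
  · rw [norm_iteratedFDeriv_zero, pow_zero, mul_one, Real.norm_eq_abs]
    have h4 := hu.abs_le hr a (t • x)
    rw [norm_smul, Real.norm_eq_abs t, abs_of_pos ht] at h4
    calc t⁻¹ * |u a (t • x)| ≤ t⁻¹ * (ε * (t * (3 / 16) + t * ‖x‖)) :=
          mul_le_mul_of_nonneg_left h4 (inv_pos.2 ht).le
      _ = ε * (3 / 16 + ‖x‖) * (t⁻¹ * t) := by ring
      _ = ε * (3 / 16 + ‖x‖) := by rw [inv_mul_cancel₀ ht.ne', mul_one]
      _ ≤ ε * 1 := mul_le_mul_of_nonneg_left (by linarith) hε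
      _ ≤ (16 / 3) ^ sW m * ε := by nlinarith
  · have h1 := hu.small a k hk0 hk (t • x)
    have h2 : t⁻¹ * t ^ k * (ε * (t * (3 / 16) * (t * (3 / 16))⁻¹ ^ k))
        = 3 / 16 * (16 / 3) ^ k * ε := by
      rw [mul_inv, mul_pow, show ((3:ℝ) / 16)⁻¹ = 16 / 3 by norm_num]
      have h3 : t ^ k * t⁻¹ ^ k = 1 := by rw [← mul_pow, mul_inv_cancel₀ ht.ne', one_pow]
      have h4 : t⁻¹ * t = 1 := inv_mul_cancel₀ ht.ne'
      calc t⁻¹ * t ^ k * (ε * (t * (3 / 16) * (t⁻¹ ^ k * (16 / 3) ^ k)))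
          = (t⁻¹ * t) * (t ^ k * t⁻¹ ^ k) * (3 / 16 * (16 / 3) ^ k * ε) := by ring
        _ = _ := by rw [h3, h4, one_mul, one_mul]
    calc t⁻¹ * t ^ k * ‖iteratedFDeriv ℝ k (u a) (t • x)‖
        ≤ t⁻¹ * t ^ k * (ε * (t * (3 / 16) * (t * (3 / 16))⁻¹ ^ k)) :=
          mul_le_mul_of_nonneg_left h1 (by positivity)
      _ = 3 / 16 * (16 / 3) ^ k * ε := h2
      _ ≤ 1 * (16 / 3) ^ sW m * ε := by
          refine mul_le_mul_of_nonneg_right ?_ hε
          exact mul_le_mul (by norm_num) (pow_le_pow_right₀ (by norm_num) hk) (by positivity)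
            zero_le_one
      _ = _ := by rw [one_mul]

/-- **the cut-off dilation of a scaled-small reference** -/
theorem refe_scS (m n : ℕ) : ∃ K : ℝ, 1 ≤ K ∧ ∀ (u : Fin n → REF.E m → ℝ) (t ε : ℝ), 0 < t →
    0 ≤ ε → RefS ε (t * (3 / 16)) u →
    Refe (K * ε) (3 / 16) (fun a x => bc m x * sc t (u a) x) := by
  obtain ⟨K, hK1, hK⟩ := bound_cut m
  have h16 : (1:ℝ) ≤ (16 / 3) ^ sW m := one_le_pow₀ (by norm_num)
  refine ⟨K * (16 / 3) ^ sW m, by nlinarith, fun u t ε ht hε hu => ⟨fun a => ?_, fun a x hx => ?_,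
    fun a k hk x => ?_, fun a x hx => ?_⟩⟩
  · exact ((bc m).contDiff (n := (⊤ : ℕ∞))).mul (contDiff_sc (hu.smooth a))
  · rw [bc_zero hx, zero_mul]
  · have h1 := hK _ ((16 / 3) ^ sW m * ε) (contDiff_sc (hu.smooth a)) (by positivity)
      (sc_smallS ht hε hu a) k hk x
    rw [mul_assoc]
    exact h1
  · have h1 : ∀ a, (fun x => bc m x * sc t (u a) x) =ᶠ[𝓝 x] sc t (u a) := fun a => by
      have h2 : ∀ᶠ y in 𝓝 x, ‖y‖ < 9 / 32 := by
        refine (isOpen_lt continuous_norm continuous_const).mem_nhds ?_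
        show ‖x‖ < 9 / 32
        linarith
      filter_upwards [h2] with y hy
      rw [bc_one hy.le, one_mul]
    rw [Mop_congr h1, Mop_sc ht.ne', hu.exact a, mul_zero]
    rw [norm_smul, Real.norm_eq_abs, abs_of_pos ht]
    exact mul_lt_mul_of_pos_left hx ht

variable {E : Type*} [NormedAddCommGroup E] [InnerProductSpace ℝ E] [FiniteDimensional ℝ E]
  {T : Submodule ℝ E} [MeasurableSpace E] [BorelSpace E]

/-- **STEP at every radius, scaled norms** -/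
theorem stepS {Q : ℕ} (hS : StepStmt E m n Q) : StepSStmt E m n Q := by
  obtain ⟨cs, hcs, hcs8, hS⟩ := hS
  obtain ⟨K, hK1, hK⟩ := refe_scS m n
  have hc₀pos : 0 < cs / 4 := by positivity
  refine ⟨cs / 4, hc₀pos, by linarith, fun c₁ hc₁ hc₁' τ hτ => ?_⟩
  set c₀ : ℝ := cs / 4 with hc₀
  have hc₁c : 2 * c₁ ≤ cs ^ 2 := by nlinarith
  obtain ⟨εs, hεs, hS⟩ := hS (2 * c₁) (by positivity) hc₁c τ hτ
  set C : ℝ := (16 / 3) ^ (m + 2 + sW m) with hC
  have hC1 : (1:ℝ) ≤ C := one_le_pow₀ (by norm_num)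
  have hdiv : 2 * c₁ / cs ≤ 1 / 8 := by
    rw [div_le_iff₀ hcs]
    nlinarith
  have hdiv' : c₁ / c₀ = 2 * (2 * c₁ / cs) := by
    rw [hc₀]; field_simp; ring
  have hpos1 : 0 < 2 * c₁ / cs := by positivity
  obtain ⟨e1, he1, h1⟩ := exists_small (C := C) (a := c₁) hc₁
  obtain ⟨e2, he2, h2⟩ := exists_small (C := C) (a := 2 * c₁ / cs) hpos1
  obtain ⟨e3, he3, h3⟩ := exists_small (C := C) (a := cs / 2) (by positivity)
  obtain ⟨ε, hε0, hεe1, hεe2, hεe3, hε1, hεK⟩ : ∃ ε : ℝ, 0 < ε ∧ ε ≤ e1 ∧ ε ≤ e2 ∧ ε ≤ e3 ∧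
      ε ≤ 1 ∧ ε ≤ εs / K := by
    have h0 : 0 < εs / K := by positivity
    refine ⟨min (min (min e1 e2) (min e3 1)) (εs / K), lt_min (lt_min (lt_min he1 he2)
      (lt_min he3 one_pos)) h0, ?_, ?_, ?_, ?_, min_le_right _ _⟩
    · exact (min_le_left _ _).trans ((min_le_left _ _).trans (min_le_left _ _))
    · exact (min_le_left _ _).trans ((min_le_left _ _).trans (min_le_right _ _))
    · exact (min_le_left _ _).trans ((min_le_right _ _).trans (min_le_left _ _))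
    · exact (min_le_left _ _).trans ((min_le_right _ _).trans (min_le_right _ _))
  have hKε : K * ε ≤ εs := by
    rw [le_div_iff₀ (by linarith)] at hεK
    linarith
  have hεεs : ε ≤ εs := by nlinarith
  refine ⟨ε, hε0, hε1, fun T F u r h θ ν P hu hr hr16 hI hexc hh hh0 hhε hθ hθ1 => ?_⟩
  have hh1 : h ≤ 1 := hhε.trans hε1
  -- the scale
  set t : ℝ := 16 / 3 * r with ht
  have ht0 : 0 < t := by positivity
  have htr : t * (3 / 16) = r := by rw [ht]; ring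
  have htr2 : t * (3 / 8) = 2 * r := by rw [ht]; ring
  set v : Fin n → REF.E m → ℝ := fun a x => bc m x * sc t (u a) x with hv
  have hvR : Refe εs (3 / 16) v := by
    have h4 := hK u t ε ht0 hε0.le (by rw [htr]; exact hu)
    exact ⟨h4.smooth, h4.supp, fun a k hk x => (h4.small a k hk x).trans hKε, h4.exact⟩
  have hveq : ∀ a x, ‖x‖ ≤ 9 / 32 → v a x = sc t (u a) x := fun a x hx => by
    simp only [hv]; rw [bc_one hx, one_mul]
  -- the blow-up
  have hIb : Skel.IntCyl m Q T 0 (3 / 8) εs εs (bu m t ν) (buP t P) := by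
    have h4 : Skel.IntCyl m Q T 0 (t * (3 / 8)) (t * (3 / 16 * ε)) ε ν P := by
      rw [htr2, ← mul_assoc, htr, mul_comm r]; exact hI
    exact intCyl_mono (intCyl_bu ht0 h4) (by linarith) hεεs
  have hexcb : Skel.exc T (bu m t ν) (buP t P) 0 (3 / 8) ≤ εs := by
    have h4 := exc_bu (m := m) (T := T) ht0 ν P 0 (3 / 8)
    rw [smul_zero, htr2] at h4
    rw [h4]
    calc t⁻¹ ^ m * Skel.exc T ν P 0 (2 * r) ≤ t⁻¹ ^ m * (ε * r ^ m) :=
          mul_le_mul_of_nonneg_left hexc (pow_nonneg (inv_nonneg.2 ht0.le) m)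
      _ = ε * (t⁻¹ * r) ^ m := by rw [mul_pow]; ring
      _ ≤ ε * 1 := by
          refine mul_le_mul_of_nonneg_left (pow_le_one₀ (by positivity) ?_) hε0.le
          rw [← htr, ← mul_assoc, inv_mul_cancel₀ ht0.ne', one_mul]; norm_num
      _ ≤ εs := by rw [mul_one]; exact hεεs
  set H : ℝ := hE T (F.lift v) (bu m t ν) (3 / 16) with hH
  have hHh : H = (3 / 16) ^ (m + 2) * h := by
    have h4 := hE_bu F ht0 u v ν (R := 3 / 16) fun a x hx => hveq a x (by linarith)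
    rw [hH, h4, htr, hh, hN]
    have h5 : t⁻¹ = 3 / 16 * r⁻¹ := by
      rw [ht, mul_inv]; norm_num
    rw [h5, mul_pow, inv_pow]
    ring
  have hHpos : 0 < H := by rw [hHh]; positivity
  have hHle : H ≤ h := by
    rw [hHh]
    have : (3 / 16 : ℝ) ^ (m + 2) ≤ 1 := pow_le_one₀ (by norm_num) (by norm_num)
    nlinarith
  -- the collars
  have hθ0 : 0 < θ := (Real.rpow_pos_of_pos hh0 _).trans_le hθ
  have hθs : H ^ (2 * c₁) ≤ 3 / 16 * θ := by
    have h4 : C * H ^ (2 * c₁) ≤ h ^ c₁ := by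
      refine pow_cmp' hHpos hHle (by positivity) hh1 (a := c₁) (by linarith) ?_ (by linarith)
      exact h1 h hh0 (hhε.trans hεe1)
    have h5 : (16 / 3 : ℝ) ≤ C := by
      rw [hC, show m + 2 + sW m = 1 + (m + 1 + sW m) by ring, pow_add, pow_one]
      have : (1:ℝ) ≤ (16 / 3) ^ (m + 1 + sW m) := one_le_pow₀ (by norm_num)
      nlinarith
    have h6 : 16 / 3 * H ^ (2 * c₁) ≤ θ :=
      (mul_le_mul_of_nonneg_right h5 (Real.rpow_nonneg hHpos.le _)).trans (h4.trans hθ)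
    linarith
  obtain ⟨hW0, v', hv's, hv'o, hv'd, hv'e, hv'w, hB⟩ := hS T F v (3 / 16) εs H (3 / 16 * θ)
    (bu m t ν) (buP t P) hvR (by norm_num) le_rfl le_rfl hIb hexcb hH hHpos
    (hHle.trans (hhε.trans hεεs)) hθs (by linarith)
  -- powers
  have hp1 : C * H ^ (1 / 2 - 2 * c₁ / cs) ≤ h ^ (1 / 2 - c₁ / c₀) :=
    pow_cmp' hHpos hHle (by linarith) hh1 (a := 2 * c₁ / cs) (by linarith)
      (h2 h hh0 (hhε.trans hεe2)) (by linarith)
  have hp2 : C * H ^ (1 - 2 * c₁ / cs) ≤ h ^ (1 - c₁ / c₀) :=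
    pow_cmp' hHpos hHle (by linarith) hh1 (a := 2 * c₁ / cs) (by linarith)
      (h2 h hh0 (hhε.trans hεe2)) (by linarith)
  have hp3 : C * H ^ cs ≤ h ^ c₀ :=
    pow_cmp' hHpos hHle hcs.le hh1 (a := cs / 2) (by linarith)
      (h3 h hh0 (hhε.trans hεe3)) (by linarith)
  have hp4 : C * H ^ (1 / 2 + cs) ≤ h ^ (1 / 2 + c₀) :=
    pow_cmp' hHpos hHle (by linarith) hh1 (a := cs / 2) (by linarith)
      (h3 h hh0 (hhε.trans hεe3)) (by linarith)
  refine ⟨fun ψ M hψc hψs hψb => ?_, out_of_unit F hr ht rfl hθ0.le hC hHpos hh0.le hu.smooth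
    hvR.smooth hveq hv's hv'o hv'd hv'e hv'w hB hp1 hp2 hp3 hp4⟩
  -- the mass
  have hrad : t * (3 / 16 - 5 * (3 / 16 * θ)) = r * (1 - 5 * θ) := by rw [← htr]; ring
  have h4 := hW0 (fun x => ψ (t • x)) M (hψc.comp (continuous_const_smul t)) (fun x hx => ?_)
    fun x => hψb _
  · have h5 := mass_bu F ht0 ψ ν
    have h6 := area_bu (m := m) (n := n) ht0 (u := u) (v := v) (R := 3 / 16 - 5 * (3 / 16 * θ))
      (fun a x hx => hveq a x hx.le) (by linarith) (ψ := ψ) (by rw [hrad]; exact hψs)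
    rw [h5, h6] at h4
    have h7 : t⁻¹ ^ m * ∫ y, ψ (F.xc y) ∂ν
        - Q * (t⁻¹ ^ m * ∫ x, ψ x * √(REF.gm u x).det ∂μH[m])
        = t⁻¹ ^ m * (∫ y, ψ (F.xc y) ∂ν - Q * ∫ x, ψ x * √(REF.gm u x).det ∂μH[m]) := by ring
    rw [h7, abs_mul, abs_of_pos (pow_pos (inv_pos.2 ht0) m)] at h4
    have hM : 0 ≤ M := (abs_nonneg _).trans (hψb 0)
    have h8 : (16 / 3 : ℝ) ^ m ≤ C := pow_le_pow_right₀ (by norm_num) (by omega)
    calc |∫ y, ψ (F.xc y) ∂ν - Q * ∫ x, ψ x * √(REF.gm u x).det ∂μH[m]|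
        = t ^ m * (t⁻¹ ^ m * |∫ y, ψ (F.xc y) ∂ν
            - Q * ∫ x, ψ x * √(REF.gm u x).det ∂μH[m]|) := by
          rw [← mul_assoc, ← mul_pow, mul_inv_cancel₀ ht0.ne', one_pow, one_mul]
      _ ≤ t ^ m * (H ^ (1 / 2 - 2 * c₁ / cs) * M) :=
          mul_le_mul_of_nonneg_left h4 (pow_nonneg ht0.le m)
      _ = r ^ m * M * ((16 / 3) ^ m * H ^ (1 / 2 - 2 * c₁ / cs)) := by rw [ht, mul_pow]; ring
      _ ≤ r ^ m * M * (C * H ^ (1 / 2 - 2 * c₁ / cs)) := by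
          refine mul_le_mul_of_nonneg_left ?_ (by positivity)
          exact mul_le_mul_of_nonneg_right h8 (Real.rpow_nonneg hHpos.le _)
      _ ≤ r ^ m * M * h ^ (1 / 2 - c₁ / c₀) := mul_le_mul_of_nonneg_left hp1 (by positivity)
      _ = _ := by ring
  · refine hψs _ ?_
    rw [norm_smul, Real.norm_eq_abs, abs_of_pos ht0, ← hrad]
    exact mul_le_mul_of_nonneg_left hx ht0.le

end

end Vale.Agent.P214.BSEQ
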