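import Vale.Agent.P214.BSEQ.One

/-!
# P214, target B, block BSEQ: one step of the windows sequence, assembly
-/

open Set Filter Topology MeasureTheory Metric
open scoped RealInnerProductSpace ENNReal ContDiff

set_option linter.all false

namespace Vale.Agent.P214.BSEQ

open WIN STR WSEQ

variable {m n : ℕ} {E : Type*} [NormedAddCommGroup E] [InnerProductSpace ℝ E]
  [FiniteDimensional ℝ E] [MeasurableSpace E] [BorelSpace E]
  {Q : ℕ} {T : Submodule ℝ E} {ν : Measure E} {P : E → E →L[ℝ] E} {F : Frame m n T}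
  {X : Exps} {η η₁ ε r r' h τ : ℝ} {u u' : Fin n → REF.E m → ℝ}

/-- `r ^ X.b₂ ≤ 1` -/
lemma rb_le_one (hX : X.OK m) (hr : 0 < r) (hr1 : r ≤ 1) : r ^ X.b₂ ≤ 1 :=
  Real.rpow_le_one hr.le hr1 (ox_b₂_pos hX).le

/-- the slope of the new reference -/
lemma slope_all (hX : X.OK m) (hη : 0 < η) (hI : Inv m n T F ν X η ε u r h)
    {τS θ : ℝ} (hO : StepOut m n Q T F u u' X.c₀ X.c₁ τS r h θ ν P) (hh1 : h ≤ 1)
    {D : ℝ} (hD : 0 ≤ D) (hr' : 0 < r') (hr'1 : r' ≤ 1) (hDε : (4 * D + 2) * η ≤ ε) {a : Fin n}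
    (h0 : ‖fderiv ℝ (u' a) 0‖ ≤ 4 * D * η * r' ^ X.b₂) (x : REF.E m) :
    ‖fderiv ℝ (u' a) x‖ ≤ ε := by
  have hr := hI.r_pos
  have hr3 := hI.r_le
  have e3 : r * r⁻¹ ^ 2 = r⁻¹ := by field_simp
  have h1 := rb_le_one hX hr (by linarith : r ≤ 1)
  have h2 := rb_le_one hX hr' hr'1
  refine slope_new hI hO (κ := 2 * (r * r⁻¹ ^ 2 * (η * r ^ X.b₂))) (B := 4 * D * η)
    (fun x => old_curv hX hη hI hO hh1 a le_rfl (by unfold sW; omega) x) (h0.trans ?_) ?_ x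
  · calc 4 * D * η * r' ^ X.b₂ ≤ 4 * D * η * 1 := by gcongr
      _ = _ := mul_one _
  · rw [e3]
    calc 4 * D * η + 2 * (r⁻¹ * (η * r ^ X.b₂)) * r = 4 * D * η + 2 * η * r ^ X.b₂ := by
          field_simp
      _ ≤ 4 * D * η + 2 * η * 1 := by gcongr
      _ = (4 * D + 2) * η := by ring
      _ ≤ ε := hDε

/-- the new reference at the radii `r` and `r'` -/
lemma small_all (hX : X.OK m) (hη : 0 < η) (hη₁ : 0 < η₁) (hη₁1 : η₁ ≤ 1)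
    (hp : η₁ ^ (1 / 2 - 2 * X.e) = η) (hηε : 2 * η ≤ ε) (hI : Inv m n T F ν X η ε u r h) {K : ℝ}
    (hs : SmB X K h) {τS : ℝ} (hO : StepOut m n Q T F u u' X.c₀ X.c₁ τS r h (th h) ν P)
    (hr' : 0 < r') (hle : r' ≤ r * (1 - 12 * th h))
    (hsl : ∀ a x, ‖fderiv ℝ (u' a) x‖ ≤ ε) :
    (∀ a k, 1 ≤ k → k ≤ sW m → ∀ x, ‖iteratedFDeriv ℝ k (u' a) x‖ ≤ ε * (r * r⁻¹ ^ k)) ∧
      ∀ a k, 1 ≤ k → k ≤ sW m → ∀ x, ‖iteratedFDeriv ℝ k (u' a) x‖ ≤ ε * (r' * r'⁻¹ ^ k) := by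
  have hr := hI.r_pos
  have hr3 := hI.r_le
  have hθ0 := hs.th_pos
  have hr'r : r' ≤ r := by nlinarith
  have h1 := rb_le_one hX hr (by linarith : r ≤ 1)
  have h2 := rb_le_one hX hr' (by linarith : r' ≤ 1)
  constructor
  · intro a k hk hks x
    rcases hk.eq_or_lt with h3 | h3
    · rw [← h3, norm_iter_one', pow_one, mul_inv_cancel₀ hr.ne', mul_one]
      exact hsl a x
    · refine (old_curv hX hη hI hO hs.le_one a h3 hks x).trans ?_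
      calc 2 * (r * r⁻¹ ^ k * (η * r ^ X.b₂)) ≤ 2 * (r * r⁻¹ ^ k * (η * 1)) := by gcongr
        _ = 2 * η * (r * r⁻¹ ^ k) := by ring
        _ ≤ ε * (r * r⁻¹ ^ k) := by gcongr
  · intro a k hk hks x
    rcases hk.eq_or_lt with h3 | h3
    · rw [← h3, norm_iter_one', pow_one, mul_inv_cancel₀ hr'.ne', mul_one]
      exact hsl a x
    · refine (next_curv hX hη hη₁ hη₁1 hp hI hs hO hr' hle a h3 hks x).trans ?_
      calc η * (r' * r'⁻¹ ^ k) * r' ^ X.b₂ ≤ η * (r' * r'⁻¹ ^ k) * 1 := by gcongr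
        _ = η * (r' * r'⁻¹ ^ k) := mul_one _
        _ ≤ ε * (r' * r'⁻¹ ^ k) := by gcongr; linarith

/-- the window -/
lemma nxt_ofB (hX : X.OK m) (hI : Inv m n T F ν X η ε u r h) {K : ℝ} (hs : SmB X K h) {τS : ℝ}
    (hO : StepOut m n Q T F u u' X.c₀ X.c₁ τS r h (th h) ν P)
    (hW0 : ∀ (ψ : REF.E m → ℝ) (M : ℝ), Continuous ψ →
      (∀ x, r * (1 - 5 * th h) ≤ ‖x‖ → ψ x = 0) → (∀ x, |ψ x| ≤ M) →
      |∫ y, ψ (F.xc y) ∂ν - Q * ∫ x, ψ x * √(REF.gm u x).det ∂μH[m]|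
        ≤ r ^ m * h ^ (1 / 2 - X.c₁ / X.c₀) * M)
    (hval : ∀ a, |u' a 0| ≤ ε * r)
    (hsm : ∀ a k, 1 ≤ k → k ≤ sW m → ∀ x, ‖iteratedFDeriv ℝ k (u' a) x‖ ≤ ε * (r * r⁻¹ ^ k))
    (b1 : r * h ^ X.c₅ ≤ r') (b2 : r' ≤ r * (1 - 12 * th h))
    (b3 : hN m T (F.lift u') ν r' ≤ h ^ (1 + X.c) ∨ r' = r * h ^ X.c₅)
    (b4 : ∀ t, r' < t → t ≤ r * (1 - 12 * th h) → h ^ (1 + X.c) < hN m T (F.lift u') ν t)
    (htop : ∀ t, r * h ^ X.c₅ ≤ t → t ≤ r → hN m T (F.lift u') ν t ≤ h ^ (1 - X.e')) :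
    Nxt m n Q T F ν X ε u r h u' r' := by
  have hr := hI.r_pos
  have hh := hI.h_pos
  have hh1 := hs.le_one
  have hhalf := ox_half hX
  have hep := hX.e_pos
  have hθ0 := hs.th_pos
  have p1 : h ^ (1 / 2 - X.c₁ / X.c₀) ≤ h ^ (1 / 2 - X.e) := by
    refine Real.rpow_le_rpow_of_exponent_ge hh hh1 ?_
    rw [hhalf]; linarith
  have p2 : h ^ (1 - X.c₁ / X.c₀) ≤ h ^ (1 - X.e) := by
    refine Real.rpow_le_rpow_of_exponent_ge hh hh1 ?_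
    rw [hhalf]; linarith
  refine { smooth := hO.smooth, outside := hO.outside, exact := hO.exact,
           val := hval, small := hsm, size := ?_, weak := ?_,
           mass := ?_, r_ge := b1, r_le := b2, h_next := b3, h_gt := b4, top := ?_ }
  · intro a k hk x
    exact (hO.size a k hk x).trans (mul_le_mul_of_nonneg_left p1 (by positivity))
  · intro φ M hφ
    have hw := hO.weak φ M hφ
    have hM : 0 ≤ M := by
      by_contra hneg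
      have h3 : r ^ (m + 1) * h ^ (1 - X.c₁ / X.c₀) * M < 0 :=
        mul_neg_of_pos_of_neg (by positivity) (not_le.1 hneg)
      have h4 := abs_nonneg (∫ y, ∑ a, φ a (F.xc y) * F.ht u' a y ∂ν)
      linarith
    refine hw.trans (mul_le_mul_of_nonneg_right ?_ hM)
    exact mul_le_mul_of_nonneg_left p2 (by positivity)
  · intro ψ M hψ hψ0 hψM
    have hM : 0 ≤ M := (abs_nonneg _).trans (hψM 0)
    refine (hW0 ψ M hψ hψ0 hψM).trans (mul_le_mul_of_nonneg_right ?_ hM)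
    exact mul_le_mul_of_nonneg_left p1 (by positivity)
  · intro t hat htr
    exact htop t hat (by nlinarith)

/-- the powers -/
lemma pwc_ofB (hX : X.OK m) (hη : 0 < η) (hη1 : η ≤ 1) (hI : Inv m n T F ν X η ε u r h)
    {τS θ : ℝ} (hO : StepOut m n Q T F u u' X.c₀ X.c₁ τS r h θ ν P) (hh1 : h ≤ 1)
    (hr' : 0 < r') (hr'1 : r' ≤ 1) {D : ℝ} (hD : 0 ≤ D)
    (hcen : ∀ a, |u' a 0| ≤ 4 * D * η * (r' * r' ^ X.b₂) ∧
      ‖fderiv ℝ (u' a) 0‖ ≤ 4 * D * η * r' ^ X.b₂) : Pwc (4 * D + 1) X u' r r' := by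
  have hr := hI.r_pos
  have hr3 := hI.r_le
  have hβ4 : r' ^ X.b₂ ≤ r' ^ (X.β / 4) :=
    Real.rpow_le_rpow_of_exponent_ge hr' hr'1 (ox_b₂_ge hX)
  have hβ4r : r ^ X.b₂ ≤ r ^ (X.β / 4) :=
    Real.rpow_le_rpow_of_exponent_ge hr (by linarith) (ox_b₂_ge hX)
  refine ⟨fun a k hk hks x => ?_, fun a => ?_, fun a => ?_⟩
  · refine (old_curv hX hη hI hO hh1 a hk hks x).trans ?_
    calc 2 * (r * r⁻¹ ^ k * (η * r ^ X.b₂)) ≤ 2 * (r * r⁻¹ ^ k * (1 * r ^ (X.β / 4))) := by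
          gcongr
      _ = _ := by rw [one_mul]
  · refine (hcen a).1.trans ?_
    calc 4 * D * η * (r' * r' ^ X.b₂) ≤ 4 * D * 1 * (r' * r' ^ (X.β / 4)) := by
          gcongr
      _ ≤ (4 * D + 1) * (r' * r' ^ (X.β / 4)) := by
          refine mul_le_mul_of_nonneg_right ?_ (by positivity)
          linarith
  · refine (hcen a).2.trans ?_
    calc 4 * D * η * r' ^ X.b₂ ≤ 4 * D * 1 * r' ^ (X.β / 4) := by
          gcongr
      _ ≤ (4 * D + 1) * r' ^ (X.β / 4) := by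
          refine mul_le_mul_of_nonneg_right ?_ (by positivity)
          linarith

/-- the next radius, the window and the next state, from the output of STEP-S -/
theorem state_next (hQ : 1 ≤ Q) (hX : X.OK m) {C₁ K D CL : ℝ} (hC₁ : 1 ≤ C₁)
    (hval : ∀ {T : Submodule ℝ E} (F : Frame m n T) {ν : Measure E} [IsFiniteMeasure ν]
      {u₀ u : Fin n → REF.E m → ℝ} {s κ σ W V Mm : ℝ} {Q : ℕ}, 1 ≤ Q → 0 < s → 0 ≤ σ →
      (∀ a, ContDiff ℝ ∞ (u₀ a)) → (∀ a, ContDiff ℝ ∞ (u a)) →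
      (∀ a x, ‖x‖ < s → ‖iteratedFDeriv ℝ 2 (u a) x‖ ≤ κ) →
      (∀ᵐ y ∂ν, ‖T.starProjection y‖ < s → ‖y - T.starProjection y‖ ≤ σ) →
      (∀ (φ : Fin n → REF.E m → ℝ) (M : ℝ), TstR (sW m) s s M φ →
        |∫ y, ∑ a, φ a (F.xc y) * F.ht u a y ∂ν| ≤ W * M) →
      (∀ (ψ : REF.E m → ℝ) (M : ℝ), Continuous ψ → (∀ x, s ≤ ‖x‖ → ψ x = 0) →
        (∀ x, |ψ x| ≤ M) →
        |∫ y, ψ (F.xc y) ∂ν - Q * ∫ x, ψ x * √(REF.gm u₀ x).det ∂μH[m]| ≤ V * M) →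
      C₁ * V ≤ s ^ m → ν.real (Skel.cylSet T 0 s) ≤ Mm * s ^ m → 0 ≤ W → 0 ≤ Mm →
      ∀ a, an (u a) s ≤ C₁ * (Mm * (σ + κ * s ^ 2) + (s ^ m)⁻¹ * W))
    (hD : D = 2 * C₁ * Mq m Q) (hCL : CL = Mq m Q * (1 + n * (D + 1)) ^ 2)
    (hK1 : C₁ ≤ K) (hK2 : 36 * CL ≤ K) (hK3 : 2 + 2 * Mq m Q * n ^ 2 ≤ K)
    (hη : 0 < η) (hη₁ : 0 < η₁) (hη₁1 : η₁ ≤ 1) (hη1 : η ≤ 1)
    (hp : η₁ ^ (1 / 2 - 2 * X.e) = η) (hDε : (4 * D + 2) * η ≤ ε)
    (hτ : 0 < τ) (hτ1 : τ ≤ 1) (hτ3 : 9 * CL * τ ^ 2 ≤ η₁) (hτ4 : τ ^ 2 ≤ η₁)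
    (hL : LocB m Q T ν P X.β τ) (hI : Inv m n T F ν X η ε u r h) (hs : SmB X K h) {τS : ℝ}
    (hO : StepOut m n Q T F u u' X.c₀ X.c₁ τS r h (th h) ν P)
    (hW0 : ∀ (ψ : REF.E m → ℝ) (M : ℝ), Continuous ψ →
      (∀ x, r * (1 - 5 * th h) ≤ ‖x‖ → ψ x = 0) → (∀ x, |ψ x| ≤ M) →
      |∫ y, ψ (F.xc y) ∂ν - Q * ∫ x, ψ x * √(REF.gm u x).det ∂μH[m]|
        ≤ r ^ m * h ^ (1 / 2 - X.c₁ / X.c₀) * M) :
    ∃ r' : ℝ, Nxt m n Q T F ν X ε u r h u' r' ∧ 0 < r' ∧ Pwc (4 * D + 1) X u' r r' ∧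
      RefS ε r' u' ∧ (hN m T (F.lift u') ν r' = 0 ∨
        Inv m n T F ν X η ε u' r' (hN m T (F.lift u') ν r')) := by
  have hM1 := one_le_Mq m Q
  have hD0 : 0 ≤ D := by rw [hD]; positivity
  have hCL0 : 0 ≤ CL := by rw [hCL]; positivity
  have hη2ε : 2 * η ≤ ε := by nlinarith
  have hr := hI.r_pos
  have hr3 := hI.r_le
  have hh := hI.h_pos
  have hh1 := hs.le_one
  have hθ0 := hs.th_pos
  have hθ1 := hs.th_le
  have hcyl := (hL.int (3 / 8) (by norm_num) le_rfl).cyl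
  obtain ⟨r', b1, b2, b3, b4⟩ := next_rad (g := hN m T (F.lift u') ν) (a := h ^ (1 + X.c))
    (R := r * (1 - 12 * th h)) (t₀ := r * h ^ X.c₅) (by positivity)
    (by have := hs.s3; nlinarith) (fun t ht htR => hN_left hcyl (ball_subset_ball (by nlinarith))
      ht hO.smooth)
  have hr' : 0 < r' := lt_of_lt_of_le (by positivity) b1
  have hr'r : r' ≤ r := by nlinarith
  have hr'5 : r' ≤ r * (1 - 5 * th h) := by nlinarith
  have hr'1 : r' ≤ 1 := by linarith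
  have han := fun a => an_new hX hQ hC₁ hval hL hτ.le hτ1 hη hI hs hK1 hO hW0 b1 b2 a
  rw [← hD] at han
  have hbb := bb_le hX hη hη₁ hη₁1 hp hI hs hτ.le hτ4 b1 hr'r
  have hcen := fun a => cen_new (u' := u') hη hr' hD0 (han a) hbb
  have hsl : ∀ a x, ‖fderiv ℝ (u' a) x‖ ≤ ε := fun a x =>
    slope_all hX hη hI hO hh1 hD0 hr' hr'1 hDε (hcen a).2 x
  obtain ⟨sm1, sm2⟩ := small_all hX hη hη₁ hη₁1 hp hη2ε hI hs hO hr' b2 hsl
  have hb1 := rb_le_one hX hr' hr'1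
  have hval' : ∀ a, |u' a 0| ≤ ε * r' := fun a => by
    refine (hcen a).1.trans ?_
    calc 4 * D * η * (r' * r' ^ X.b₂) ≤ 4 * D * η * (r' * 1) := by gcongr
      _ = 4 * D * η * r' := by ring
      _ ≤ ε * r' := by
          refine mul_le_mul_of_nonneg_right ?_ hr'.le
          linarith
  have hsupp : ∀ a x, 3 / 8 ≤ ‖x‖ → u' a x = 0 := fun a x hx => by
    rw [hO.outside a x (by linarith), hI.supp a x hx]
  have hexact : ∀ a x, ‖x‖ < r' → REF.Mop u' a x = 0 := fun a x hx =>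
    hO.exact a x (by linarith)
  have hε0 : 0 ≤ ε := by linarith
  refine ⟨r', nxt_ofB hX hI hs hO hW0 (fun a => (hval' a).trans (by gcongr)) sm1 b1 b2 b3 b4
    (fun t hat htr => top_new hX hL hτ.le hτ1 hI hs hK3 hO hat htr), hr',
    pwc_ofB hX hη hη1 hI hO hh1 hr' hr'1 hD0 hcen, ⟨hO.smooth, hsupp, hval', sm2, hexact⟩, ?_⟩
  have hnn : 0 ≤ hN m T (F.lift u') ν r' :=
    mul_nonneg (by positivity) (integral_nonneg fun _ => sq_nonneg _)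
  rcases hnn.eq_or_lt with h0 | h0
  · exact Or.inl h0.symm
  · right
    have hlong : hN m T (F.lift u') ν r' ≤ CL * bb X τ η r h r' ^ 2 := by
      rw [hCL]
      exact hN_new hX hL hτ.le hτ1 hη hI hs hO b1 b2 hD0 han
    exact ⟨hO.smooth, hsupp, hexact, hr', by linarith, rfl, h0,
      next_height hX hη hη₁ hη₁1 hp hI hs hτ.le hCL0 hτ3 hK2 b1 hr'r hnn b3 hlong,
      fun a k hk hks x => next_curv hX hη hη₁ hη₁1 hp hI hs hO hr' b2 a hk hks x, hsl, hval'⟩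

/-- **one step of the windows sequence** -/
theorem oneStmt {m n Q : ℕ} (hQ : 1 ≤ Q) {X : Exps} (hX : X.OK m)
    (hSt : StepAt E m n Q X.c₀ X.c₁) : OneStmt E m n Q X := by
  obtain ⟨C₁, hC₁, hval⟩ := val_grad E m n
  obtain ⟨εS, hεS, hεS1, hS⟩ := hSt 1 one_pos
  have hM1 := one_le_Mq m Q
  obtain ⟨D, hD⟩ : ∃ D, D = 2 * C₁ * Mq m Q := ⟨_, rfl⟩
  have hD0 : 0 ≤ D := by rw [hD]; positivity
  obtain ⟨CL, hCL⟩ : ∃ CL, CL = Mq m Q * (1 + n * (D + 1)) ^ 2 := ⟨_, rfl⟩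
  have hCL0 : 0 ≤ CL := by rw [hCL]; positivity
  obtain ⟨K, hK⟩ : ∃ K, K = C₁ + 36 * CL + (2 + 2 * Mq m Q * n ^ 2) := ⟨_, rfl⟩
  have hKt : 0 ≤ 2 + 2 * Mq m Q * n ^ 2 := by positivity
  refine ⟨4 * D + 1, εS, by linarith, hεS, ?_⟩
  intro ε hε hεεS
  have hb : 0 < min (1 / 2) (ε / (4 * D + 2)) := by positivity
  obtain ⟨η, hη, hηb, hsm⟩ := exists_smB hX K hb
  have hη2 : η ≤ 1 / 2 := hηb.trans (min_le_left _ _)
  have hDε : (4 * D + 2) * η ≤ ε := by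
    have h1 := hηb.trans (min_le_right _ _)
    rw [le_div_iff₀ (by positivity)] at h1
    linarith
  have hηε : η ≤ ε := by nlinarith
  obtain ⟨η₁, hη₁, hη₁η, hp⟩ := exists_root (ox_p_pos hX) (by have := hX.e_pos; linarith) hη
    (by linarith : η ≤ 1)
  obtain ⟨τ, hτ, t1, t2, t3, t4⟩ : ∃ τ : ℝ, 0 < τ ∧ τ ≤ ε ∧ τ ≤ 1 ∧ τ ≤ η₁ / (9 * CL + 1) ∧
      τ ≤ εS / 2 ^ (m + 1) :=
    ⟨min (min ε 1) (min (η₁ / (9 * CL + 1)) (εS / 2 ^ (m + 1))), by positivity,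
      (min_le_left _ _).trans (min_le_left _ _), (min_le_left _ _).trans (min_le_right _ _),
      (min_le_right _ _).trans (min_le_left _ _), (min_le_right _ _).trans (min_le_right _ _)⟩
  have hτ2 : (9 * CL + 1) * τ ^ 2 ≤ η₁ := by
    rw [le_div_iff₀ (by positivity)] at t3
    have h1 : τ ^ 2 ≤ τ := by nlinarith
    have h2 : (9 * CL + 1) * τ ^ 2 ≤ (9 * CL + 1) * τ := by gcongr
    linarith
  have hτ3 : 9 * CL * τ ^ 2 ≤ η₁ := by nlinarith [sq_nonneg τ]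
  have hτ4 : τ ^ 2 ≤ η₁ := by
    have : 0 ≤ 9 * CL * τ ^ 2 := by positivity
    linarith
  refine ⟨η, τ, hη, hη2, hηε, hτ, t1, fun h hh hhη => ⟨hhη.trans hηε, (hsm h hh hhη).th_pos,
    (hsm h hh hhη).th_le⟩, ?_⟩
  intro T F ν P hL u r h hI
  have hr := hI.r_pos
  have hr3 := hI.r_le
  have hh := hI.h_pos
  -- the height is small
  have hhη : h ≤ η := by
    refine (le_of_root hX hη₁ hp hr hh.le hI.h_small).trans ?_
    have h1 : r ^ X.β ≤ 1 := Real.rpow_le_one hr.le (by linarith) hX.β_pos.le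
    calc η₁ * r ^ X.β ≤ η₁ * 1 := by gcongr
      _ ≤ η := by rw [mul_one]; exact hη₁η
  have hs := hsm h hh hhη
  have hrefS := hI.refS hX hη hηε
  refine ⟨hrefS, ?_⟩
  obtain ⟨hIC, hEX⟩ := step_hypB hX hL hτ hr hr3 t4
  obtain ⟨hW0, u', hO⟩ := hS T F u r h (th h) ν P
    ⟨hrefS.smooth, hrefS.supp, fun a => (hrefS.val a).trans (by gcongr),
      fun a k h1 h2 x => (hrefS.small a k h1 h2 x).trans (by gcongr), hrefS.exact⟩
    hr hr3 hIC hEX hI.h_eq hh (hhη.trans (hηε.trans hεεS)) hs.th_ge hs.th_le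
  obtain ⟨r', hres⟩ := state_next hQ hX hC₁ hval hD hCL (by linarith) (by linarith) (by linarith)
    hη hη₁ (by linarith) (by linarith) hp hDε hτ t2 hτ3 hτ4 hL hI hs hO hW0
  exact ⟨u', r', hres⟩

end Vale.Agent.P214.BSEQ
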