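import Vale.Agent.P214.BSEQ.WinFin
import Vale.Agent.P214.BSEQ.OneF

/-! # P214, target B, block [B1]: the windows sequence, unconditional -/

set_option linter.all false

namespace Vale.Agent.P214.BSEQ

open MeasureTheory

/-- **[B-WINDOWS]**, unconditional -/
theorem windowsStmt (E : Type*) [NormedAddCommGroup E] [InnerProductSpace ℝ E]
    [FiniteDimensional ℝ E] [MeasurableSpace E] [BorelSpace E] {m : ℕ} (n : ℕ) {Q : ℕ}
    (hm : 1 ≤ m) (hQ : 1 ≤ Q) : WindowsStmt E m n Q :=
  windowsStmt_of_one E n hm hQ fun _ hX hSt => oneStmt hQ hX.ok hSt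

end Vale.Agent.P214.BSEQ
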