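import Vale.Agent.P214.BSEQ.Props
import Vale.Agent.P214.BLOC.Loc

/-! # P214, target B: the local situation of BLOC is the one of BSEQ -/

open Set Filter Topology MeasureTheory Metric
open scoped RealInnerProductSpace ENNReal ContDiff

namespace Vale.Agent.P214.BSEQ

variable {E : Type*} [NormedAddCommGroup E] [InnerProductSpace ℝ E]
  [FiniteDimensional ℝ E] [MeasurableSpace E] [BorelSpace E]

lemma locB_of {m Q : ℕ} {T : Submodule ℝ E} {ν : Measure E} {P : E → E →L[ℝ] E} {b τ : ℝ}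
    (h : BLOC.LocB m Q T ν P b τ) : LocB m Q T ν P b τ :=
  ⟨h.int, h.exc, h.high, h.zero_supp⟩

lemma locB_to {m Q : ℕ} {T : Submodule ℝ E} {ν : Measure E} {P : E → E →L[ℝ] E} {b τ : ℝ}
    (h : LocB m Q T ν P b τ) : BLOC.LocB m Q T ν P b τ :=
  ⟨h.int, h.exc, h.high, h.zero_supp⟩

end Vale.Agent.P214.BSEQ
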