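import Vale.Agent.P214.BSEQ.Props

/-! # P214, target B, block [B1]: choice of the exponents -/

set_option linter.all false

namespace Vale.Agent.P214.BSEQ

open WIN

/-- the relations between the exponents which are used in the proofs -/
structure Exps.Fine (X : Exps) (m : ℕ) : Prop where
  ok : X.OK m
  c_c₀ : 1000 * (m + 1) * X.c ≤ X.c₀
  acc : (5 * m + 17) * (X.c₅ + 10 * X.c) + 12 * X.c + X.e ≤ 1 / 2
  c₅_le : 100 * (m + 3 + sW m) * X.c₅ ≤ X.c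
  e_c : X.e ≤ X.c / 100
  e_c₅ : X.e ≤ X.β * X.c₅ / 16

theorem exists_fine (m : ℕ) {c₀ β : ℝ} (hc₀ : 0 < c₀) (hc₀8 : c₀ ≤ 1 / 8) (hβ : 0 < β)
    (hβ2 : β ≤ 1 / 2) : ∃ X : Exps, X.Fine m ∧ X.c₀ = c₀ ∧ X.β = β := by
  set M : ℝ := m + 1 with hM
  have hm0 : (0:ℝ) ≤ m := Nat.cast_nonneg m
  have hM1 : 1 ≤ M := by rw [hM]; linarith
  set N : ℝ := m + 3 + sW m with hN
  have hs0 : (0:ℝ) ≤ sW m := Nat.cast_nonneg _
  have hN3 : 3 ≤ N := by rw [hN]; linarith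
  have hMN : (m:ℝ) + 3 ≤ N := by rw [hN]; linarith
  set c : ℝ := c₀ / (1000 * M) with hc
  have hcpos : 0 < c := by positivity
  have hMc : 1000 * M * c = c₀ := by rw [hc]; field_simp
  set c₅ : ℝ := c / (100 * N) with hc₅
  have hc₅pos : 0 < c₅ := by positivity
  have hNc : 100 * N * c₅ = c := by rw [hc₅]; field_simp
  set e : ℝ := β * c₅ / 16 with he
  have hepos : 0 < e := by positivity
  have hc1 : c ≤ c₀ / 1000 := by
    have h1 : 1000 * c ≤ 1000 * M * c := by nlinarith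
    linarith
  have hc100 : c ≤ 1 / 100 := by linarith
  have hMc' : M * c = c₀ / 1000 := by linarith
  have hNc' : N * c₅ = c / 100 := by linarith
  have hc₅c : c₅ ≤ c / 300 := by nlinarith
  have he5 : e ≤ c₅ / 32 := by rw [he]; nlinarith
  have hm3 : (m + 3) * c₅ ≤ c / 100 := by rw [← hNc']; gcongr
  have h5m : m * c₅ ≤ c / 100 := by nlinarith
  have hmc : m * c ≤ c₀ / 1000 := by rw [← hMc', hM]; nlinarith
  refine ⟨⟨β, c₀, e * c₀ / 2, c, c₅, e, e + (m + 3) * c₅⟩, ⟨?_, ?_, ?_, ?_, ?_, ?_⟩, rfl, rfl⟩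
  · refine ⟨hβ, hβ2, hc₀, hc₀8, by positivity, ?_, ?_, hcpos, hc100, hc₅pos, rfl, ?_, ?_, hepos,
      le_rfl⟩
    · show e * c₀ / 2 ≤ c₀ ^ 2
      nlinarith
    · show e = 2 * (e * c₀ / 2 / c₀)
      field_simp
    · show e + (m + 3) * c₅ ≤ c / 8
      linarith
    · show (5 * m + 20) * c₅ + e ≤ 1 / 8
      nlinarith
  · show 1000 * (m + 1) * c ≤ c₀
    rw [← hM]; exact hMc.le
  · show (5 * m + 17) * (c₅ + 10 * c) + 12 * c + e ≤ 1 / 2
    nlinarith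
  · show 100 * (m + 3 + sW m) * c₅ ≤ c
    rw [← hN]; exact hNc.le
  · show e ≤ c / 100
    linarith
  · exact le_rfl

end Vale.Agent.P214.BSEQ
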