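import Vale.Agent.P214.BSEQ.AccGen
import Vale.Agent.P214.BSEQ.Fine

/-!
# P214, target B, **[B-ACC]**: accuracy of the references from two consecutive windows
-/

open Set Filter Topology MeasureTheory Metric
open scoped RealInnerProductSpace ENNReal ContDiff

namespace Vale.Agent.P214.BSEQ

open WIN STR WSEQ

variable {m n Q : ℕ} {E : Type*} [NormedAddCommGroup E] [InnerProductSpace ℝ E]
  [FiniteDimensional ℝ E] [MeasurableSpace E] [BorelSpace E] {X : Exps}

/-- **[B-ACC]** -/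
theorem accStmt (hQ : 1 ≤ Q) (hX : X.Fine m) : AccStmt E m n Q X := by
  have hm : (0:ℝ) ≤ m := Nat.cast_nonneg m
  have hok := hX.ok
  have he2 : 0 ≤ X.e' := by
    rw [hok.e'_eq]
    have h1 := hok.e_pos
    have h2 := hok.c₅_pos
    positivity
  have hW : ExpsW m X.c X.c₅ X.e X.e' :=
    ⟨hok.c_pos, hok.c_le, hX.acc, hok.c₅_pos, hok.e_pos, hX.e_c, he2, hok.e'_le⟩
  obtain ⟨ε₀, h1, h2, h3⟩ := acc_gen (m := m) hQ hW
  refine ⟨ε₀, h1, ?_⟩
  intro T F ν P ε u u' u'' r h r' h' r'' hI _ hr hr1 h0 hh h0' hh' _ H1 H2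
  obtain ⟨H, δ', hI⟩ := hI
  have hth : 0 ≤ th h := by
    unfold th
    have : 0 ≤ Real.log h⁻¹ := Real.log_nonneg ((one_le_inv₀ h0).2 (by linarith))
    positivity
  refine h3 E n T F ν H r h r' h' u' u'' hI.cyl.fin hI.cyl.slab hh ?_
  exact ⟨H1.smooth, H2.smooth, H1.weak, H2.weak, H2.size, H2.mass, hr, hr1,
    H1.r_le.trans (mul_le_mul_of_nonneg_left (by linarith) hr.le), H1.r_ge, h0, h0', hh'⟩

end Vale.Agent.P214.BSEQ
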