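import Vale.Agent.P214.WSEQ.W6

/-!
# P214, target B (B-W6): accuracy of a reference from two consecutive steps, general form

No translation, no relation `h' ≤ h ^ (1 + c)`: only `h' ≤ h ^ (1 - e₂)`.
-/

open Set Filter Topology MeasureTheory Metric Matrix
open scoped RealInnerProductSpace ENNReal ContDiff

namespace Vale.Agent.P214.BSEQ

open WIN STR WSEQ

noncomputable section

variable {m n : ℕ}
variable {E : Type*} [NormedAddCommGroup E] [InnerProductSpace ℝ E] [FiniteDimensional ℝ E]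
  [MeasurableSpace E] [BorelSpace E] {T : Submodule ℝ E}

private lemma th_nn {h : ℝ} (h0 : 0 < h) (h1 : h ≤ 1) : 0 ≤ th h := by
  unfold th
  have : 0 ≤ Real.log h⁻¹ := Real.log_nonneg ((one_le_inv₀ h0).2 h1)
  positivity

/-- the facts about two consecutive steps `(r, h) → u'`, `(r', h') → u''` which give the
accuracy -/
structure Two (m n Q : ℕ) (T : Submodule ℝ E) (F : Frame m n T) (ν : Measure E)
    (c₅ e e₂ r h r' h' : ℝ) (u' u'' : Fin n → REF.E m → ℝ) : Prop where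
  smooth' : ∀ a, ContDiff ℝ ∞ (u' a)
  smooth'' : ∀ a, ContDiff ℝ ∞ (u'' a)
  weak' : ∀ (φ : Fin n → REF.E m → ℝ) (M : ℝ), TstR (sW m) r (r * (1 - 5 * th h)) M φ →
    |∫ y, ∑ a, φ a (F.xc y) * F.ht u' a y ∂ν| ≤ r ^ (m + 1) * h ^ (1 - e) * M
  weak'' : ∀ (φ : Fin n → REF.E m → ℝ) (M : ℝ), TstR (sW m) r' (r' * (1 - 5 * th h')) M φ →
    |∫ y, ∑ a, φ a (F.xc y) * F.ht u'' a y ∂ν| ≤ r' ^ (m + 1) * h' ^ (1 - e) * M
  size : ∀ a, ∀ k ≤ sW m, ∀ x, ‖iteratedFDeriv ℝ k (fun x => u'' a x - u' a x) x‖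
    ≤ r' * r'⁻¹ ^ k * h' ^ (1 / 2 - e)
  mass : ∀ (ψ : REF.E m → ℝ) (M : ℝ), Continuous ψ →
    (∀ x, r' * (1 - 5 * th h') ≤ ‖x‖ → ψ x = 0) → (∀ x, |ψ x| ≤ M) →
    |∫ y, ψ (F.xc y) ∂ν - Q * ∫ x, ψ x * √(REF.gm u' x).det ∂μH[m]|
      ≤ r' ^ m * h' ^ (1 / 2 - e) * M
  r_pos : 0 < r
  r_le1 : r ≤ 3 / 16
  r'_le : r' ≤ r * (1 - 5 * th h)
  r'_ge : r * h ^ c₅ ≤ r'
  h_pos : 0 < h
  h'_pos : 0 < h'
  h'_le : h' ≤ h ^ (1 - e₂)

/-- relations of the exponents -/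
structure ExpsW (m : ℕ) (c c₅ e e₂ : ℝ) : Prop where
  c_pos : 0 < c
  c_le : c ≤ 1 / 100
  small : (5 * m + 17) * (c₅ + 10 * c) + 12 * c + e ≤ 1 / 2
  c₅_pos : 0 < c₅
  e_pos : 0 < e
  e_le : e ≤ c / 100
  e₂_nn : 0 ≤ e₂
  e₂_le : e₂ ≤ c / 8

section main

variable {Q : ℕ} {c c₅ e e₂ : ℝ} {F : Frame m n T} {ν : Measure E} {r h r' h' H : ℝ}
  {u' u'' : Fin n → REF.E m → ℝ}

/-- sup bound for the difference of two consecutive outputs -/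
lemma sup_two (hQ : 1 ≤ Q) (hX : ExpsW m c c₅ e e₂) {c₁ C₁ : ℝ} (hc₁ : 0 < c₁) (hC₁ : 1 ≤ C₁)
    (hmass : ∀ (x₀ : REF.E m) (ρ : ℝ), 0 < ρ →
      c₁ * ρ ^ m ≤ ∫ x, eta x₀ ρ x ∂(μH[m] : Measure (REF.E m)))
    (hder : ∀ k ≤ sW m, ∀ (x₀ : REF.E m) (ρ : ℝ), 0 < ρ →
      ∀ x, ‖iteratedFDeriv ℝ k (eta x₀ ρ) x‖ ≤ C₁ * ρ⁻¹ ^ k) [IsFiniteMeasure ν]
    (hslab : ∀ᵐ y ∂ν, T.starProjection y ∈ ball (0 : E) (3 / 8) → ‖y - T.starProjection y‖ ≤ H)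
    (h1 : h ≤ 1) (hT : Two m n Q T F ν c₅ e e₂ r h r' h' u' u'')
    (hsm : h ^ (1 / 2 - c / 10 - 10 * c * m) ≤ c₁ / 2) (a : Fin n) {x₀ : REF.E m}
    (hx₀ : ‖x₀‖ + r' * h ^ (10 * c) ≤ r' * (1 - 5 * th h')) :
    |u'' a x₀ - u' a x₀| ≤ (4 * C₁ / c₁ + 1) * r' * h ^ (1 / 2 + 9 * c) := by
  have hc := hX.c_pos
  have hcl := hX.c_le
  have hec := hX.e_le
  have he := hX.e_pos
  have he2 := hX.e₂_nn
  have he2l := hX.e₂_le
  have hcs := hX.small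
  have hc5 := hX.c₅_pos
  have h0 := hT.h_pos
  have h0' := hT.h'_pos
  have hr := hT.r_pos
  have hh' := hT.h'_le
  have hr' : 0 < r' := lt_of_lt_of_le (mul_pos hr (Real.rpow_pos_of_pos h0 _)) hT.r'_ge
  have h1' : h' ≤ 1 := hh'.trans (Real.rpow_le_one h0.le h1 (by linarith))
  have ht := th_nn h0 h1
  have ht' := th_nn h0' h1'
  set ρ : ℝ := r' * h ^ (10 * c) with hρd
  have hρ : 0 < ρ := mul_pos hr' (Real.rpow_pos_of_pos h0 _)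
  have hpr : h ^ (10 * c) ≤ 1 := Real.rpow_le_one h0.le h1 (by linarith)
  have hρr' : ρ ≤ r' := mul_le_of_le_one_right hr'.le hpr
  have hrr := hT.r'_le
  have hrr' : r' ≤ r := hrr.trans (mul_le_of_le_one_right hr.le (by linarith))
  have hx1 : ‖x₀‖ + ρ ≤ r' := hx₀.trans (mul_le_of_le_one_right hr'.le (by linarith))
  have hr1 := hT.r_le1
  -- powers of `h'`
  have hp1 : h' ^ (1 / 2 - e) ≤ h ^ (1 / 2 - c / 10) := by
    calc h' ^ (1 / 2 - e) ≤ (h ^ (1 - e₂)) ^ (1 / 2 - e) :=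
          Real.rpow_le_rpow h0'.le hh' (by linarith)
      _ = h ^ ((1 - e₂) * (1 / 2 - e)) := (Real.rpow_mul h0.le _ _).symm
      _ ≤ _ := rpow_anti h0 h1 (by nlinarith)
  have hp2 : h' ^ (1 - e) ≤ h ^ (1 - c / 5) := by
    calc h' ^ (1 - e) ≤ (h ^ (1 - e₂)) ^ (1 - e) :=
          Real.rpow_le_rpow h0'.le hh' (by linarith)
      _ = h ^ ((1 - e₂) * (1 - e)) := (Real.rpow_mul h0.le _ _).symm
      _ ≤ _ := rpow_anti h0 h1 (by nlinarith)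
  -- the mass
  have hI : c₁ / 2 * ρ ^ m ≤ ∫ y, eta x₀ ρ (F.xc y) ∂ν := by
    refine mass_bump hT.smooth' hQ hmass (D := r' ^ m * h' ^ (1 / 2 - e)) hT.mass hρ hx₀ hc₁.le ?_
    have e2 : h ^ (1 / 2 - c / 10) = h ^ (1 / 2 - c / 10 - 10 * c * m) * (h ^ (10 * c)) ^ m := by
      rw [← Real.rpow_natCast, ← Real.rpow_mul h0.le, ← Real.rpow_add h0]
      congr 1; ring
    calc r' ^ m * h' ^ (1 / 2 - e) ≤ r' ^ m * (c₁ / 2 * (h ^ (10 * c)) ^ m) := by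
          refine mul_le_mul_of_nonneg_left (hp1.trans ?_) (by positivity)
          rw [e2]
          exact mul_le_mul_of_nonneg_right hsm (by positivity)
      _ = c₁ / 2 * ρ ^ m := by rw [hρd, mul_pow]; ring
  -- oscillation
  have hosc : ∀ x, ‖x - x₀‖ < ρ →
      |(u'' a x - u' a x) - (u'' a x₀ - u' a x₀)| ≤ h' ^ (1 / 2 - e) * ρ := by
    intro x hx
    have e6 := osc_le ((hT.smooth'' a).sub (hT.smooth' a)) (lam := h' ^ (1 / 2 - e)) (fun z => by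
      have := hT.size a 1 (by unfold sW; omega) z
      rwa [pow_one, mul_inv_cancel₀ hr'.ne', one_mul] at this) x x₀
    refine e6.trans ?_
    gcongr
  -- two weak bounds
  have hacc := acc_sup F hslab hT.smooth' hT.smooth'' hder (by linarith) hT.weak' hT.weak'' hρ
    (hρr'.trans hrr') hρr' (hx1.trans hrr) hx₀ (by linarith) a hosc
  -- algebra
  set q : ℝ := h ^ (-(c₅ + 10 * c)) with hqd
  have hq : 1 ≤ q := Real.one_le_rpow_of_pos_of_le_one_of_nonpos h0 h1 (by linarith)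
  have hrq : r ≤ h ^ (-c₅) * r' := by
    have := hT.r'_ge
    rw [Real.rpow_neg h0.le, inv_mul_eq_div, le_div_iff₀ (Real.rpow_pos_of_pos h0 _)]
    exact this
  have hrq1 : r ≤ q * ρ := by
    have : q * ρ = h ^ (-c₅) * r' := by
      rw [hqd, hρd, mul_comm r', ← mul_assoc, ← Real.rpow_add h0]
      congr 2; ring
    rw [this]; exact hrq
  have hrq2 : r ≤ q * r' := by
    refine hrq1.trans (mul_le_mul_of_nonneg_left hρr' (by linarith))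
  have hww0 : h ^ (1 - e) ≤ h ^ (1 - c / 5) := rpow_anti h0 h1 (by linarith)
  have hacc' : |u'' a x₀ - u' a x₀| * ∫ y, eta x₀ ρ (F.xc y) ∂ν
      ≤ r ^ (m + 1) * h ^ (1 - c / 5) * (C₁ * (r / ρ) ^ sW m)
        + r' ^ (m + 1) * h' ^ (1 - e) * (C₁ * (r' / ρ) ^ sW m)
        + h' ^ (1 / 2 - e) * ρ * ∫ y, eta x₀ ρ (F.xc y) ∂ν := by
    refine hacc.trans ?_
    gcongr
  have hfin := alg_sup (K := sW m) (m := m) (C := C₁) hρ hr' hrr' hq hrq1 hrq2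
    (Real.rpow_nonneg h0'.le _) hp2 (by linarith) hc₁ hI hacc'
  -- exponents
  have x1 : h ^ (1 - c / 5) * q ^ (sW m + m + 1) ≤ h ^ (1 / 2 + 9 * c) := by
    rw [hqd, ← Real.rpow_natCast, ← Real.rpow_mul h0.le, ← Real.rpow_add h0]
    refine rpow_anti h0 h1 ?_
    have : ((sW m + m + 1 : ℕ) : ℝ) = 5 * m + 17 := by unfold sW; push_cast; ring
    rw [this]
    linarith
  have x2 : h' ^ (1 / 2 - e) * ρ ≤ r' * h ^ (1 / 2 + 9 * c) := by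
    have y2 : h ^ (1 / 2 - c / 10) * h ^ (10 * c) ≤ h ^ (1 / 2 + 9 * c) := by
      rw [← Real.rpow_add h0]
      exact rpow_anti h0 h1 (by linarith)
    calc h' ^ (1 / 2 - e) * ρ ≤ h ^ (1 / 2 - c / 10) * ρ := by gcongr
      _ = r' * (h ^ (1 / 2 - c / 10) * h ^ (10 * c)) := by rw [hρd]; ring
      _ ≤ _ := by gcongr
  calc |u'' a x₀ - u' a x₀|
      ≤ 4 * C₁ / c₁ * r' * h ^ (1 - c / 5) * q ^ (sW m + m + 1) + h' ^ (1 / 2 - e) * ρ := hfin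
    _ = 4 * C₁ / c₁ * r' * (h ^ (1 - c / 5) * q ^ (sW m + m + 1)) + h' ^ (1 / 2 - e) * ρ := by ring
    _ ≤ 4 * C₁ / c₁ * r' * h ^ (1 / 2 + 9 * c) + r' * h ^ (1 / 2 + 9 * c) := by gcongr
    _ = _ := by ring

/-- derivatives of order `≤ 3`, second window not too small -/
lemma iter_two (hQ : 1 ≤ Q) (hX : ExpsW m c c₅ e e₂) {c₁ C₁ : ℝ} (hc₁ : 0 < c₁) (hC₁ : 1 ≤ C₁)
    (hmass : ∀ (x₀ : REF.E m) (ρ : ℝ), 0 < ρ →
      c₁ * ρ ^ m ≤ ∫ x, eta x₀ ρ x ∂(μH[m] : Measure (REF.E m)))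
    (hder : ∀ k ≤ sW m, ∀ (x₀ : REF.E m) (ρ : ℝ), 0 < ρ →
      ∀ x, ‖iteratedFDeriv ℝ k (eta x₀ ρ) x‖ ≤ C₁ * ρ⁻¹ ^ k)
    (hint : ∀ k < 4, ∀ (f : REF.E m → ℝ) (x : REF.E m) (ρ A B : ℝ), 0 < ρ → ContDiff ℝ ∞ f →
      (∀ y, ‖y - x‖ ≤ ρ → ‖f y‖ ≤ A) →
      (∀ y, ‖y - x‖ ≤ ρ → ‖iteratedFDeriv ℝ (sW m) f y‖ ≤ B) →
      ‖iteratedFDeriv ℝ k f x‖ ≤ C₁ * (A * ρ⁻¹ ^ k + B * ρ ^ (sW m - k))) [IsFiniteMeasure ν]
    (hslab : ∀ᵐ y ∂ν, T.starProjection y ∈ ball (0 : E) (3 / 8) → ‖y - T.starProjection y‖ ≤ H)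
    (h1 : h ≤ 1) (hT : Two m n Q T F ν c₅ e e₂ r h r' h' u' u'')
    (hsm : h ^ (1 / 2 - c / 10 - 10 * c * m) ≤ c₁ / 2)
    (hth : h ^ (2 * c) + h ^ (10 * c) ≤ 3 * th h')
    (habs : C₁ * (4 * C₁ / c₁ + 2) * h ^ (1 / 2 + 3 * c) ≤ h ^ (1 / 2 + 2 * c))
    (a : Fin n) {k : ℕ} (hk3 : k ≤ 3) {x : REF.E m} (hx : ‖x‖ < r' * (1 - 8 * th h')) :
    ‖iteratedFDeriv ℝ k (fun x => u'' a x - u' a x) x‖ ≤ r' * r'⁻¹ ^ k * h ^ (1 / 2 + 2 * c) := by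
  have hc := hX.c_pos
  have hec := hX.e_le
  have he := hX.e_pos
  have he2 := hX.e₂_nn
  have he2l := hX.e₂_le
  have hcl := hX.c_le
  have h0 := hT.h_pos
  have h0' := hT.h'_pos
  have hr := hT.r_pos
  have hh' := hT.h'_le
  have hr' : 0 < r' := lt_of_lt_of_le (mul_pos hr (Real.rpow_pos_of_pos h0 _)) hT.r'_ge
  have hp1 : h' ^ (1 / 2 - e) ≤ h ^ (1 / 2 - c / 10) := by
    calc h' ^ (1 / 2 - e) ≤ (h ^ (1 - e₂)) ^ (1 / 2 - e) :=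
          Real.rpow_le_rpow h0'.le hh' (by linarith)
      _ = h ^ ((1 - e₂) * (1 / 2 - e)) := (Real.rpow_mul h0.le _ _).symm
      _ ≤ _ := rpow_anti h0 h1 (by nlinarith)
  set σ : ℝ := r' * h ^ (2 * c) with hσd
  have hσ : 0 < σ := mul_pos hr' (Real.rpow_pos_of_pos h0 _)
  have hroom : ‖x‖ + σ + r' * h ^ (10 * c) ≤ r' * (1 - 5 * th h') := by
    have := mul_le_mul_of_nonneg_left hth hr'.le
    rw [hσd]
    nlinarith
  refine (hint k (by omega) (fun x => u'' a x - u' a x) x σ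
    ((4 * C₁ / c₁ + 1) * r' * h ^ (1 / 2 + 9 * c))
    (r' * r'⁻¹ ^ sW m * h' ^ (1 / 2 - e)) hσ ((hT.smooth'' a).sub (hT.smooth' a)) ?_ ?_).trans ?_
  · intro y hy
    rw [Real.norm_eq_abs]
    refine sup_two hQ hX hc₁ hC₁ hmass hder hslab h1 hT hsm a ?_
    have := norm_sub_norm_le y x
    linarith
  · intro y _
    exact hT.size a (sW m) le_rfl y
  · -- exponents
    have hsW : k + 13 ≤ sW m := by unfold sW; omega
    have e1 : (4 * C₁ / c₁ + 1) * r' * h ^ (1 / 2 + 9 * c) * σ⁻¹ ^ k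
        ≤ (4 * C₁ / c₁ + 1) * (r' * r'⁻¹ ^ k * h ^ (1 / 2 + 3 * c)) := by
      have y1 : σ⁻¹ ^ k = r'⁻¹ ^ k * h ^ (-(2 * c * k)) := by
        rw [hσd, mul_inv, mul_pow, ← Real.rpow_neg h0.le, ← Real.rpow_natCast (h ^ _),
          ← Real.rpow_mul h0.le]
        congr 2; ring
      have y2 : h ^ (1 / 2 + 9 * c) * h ^ (-(2 * c * k)) ≤ h ^ (1 / 2 + 3 * c) := by
        rw [← Real.rpow_add h0]
        refine rpow_anti h0 h1 ?_
        have : (k : ℝ) ≤ 3 := by exact_mod_cast hk3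
        nlinarith
      rw [y1]
      calc _ = (4 * C₁ / c₁ + 1) * (r' * r'⁻¹ ^ k *
            (h ^ (1 / 2 + 9 * c) * h ^ (-(2 * c * k)))) := by ring
        _ ≤ _ := by gcongr
    have e2 : r' * r'⁻¹ ^ sW m * h' ^ (1 / 2 - e) * σ ^ (sW m - k)
        ≤ r' * r'⁻¹ ^ k * h ^ (1 / 2 + 3 * c) := by
      have y1 : σ ^ (sW m - k) = r' ^ (sW m - k) * h ^ (2 * c * ((sW m - k : ℕ) : ℝ)) := by
        rw [hσd, mul_pow, ← Real.rpow_natCast (h ^ _), ← Real.rpow_mul h0.le]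
      have y2 : r'⁻¹ ^ sW m * r' ^ (sW m - k) = r'⁻¹ ^ k := by
        have : sW m = (sW m - k) + k := by omega
        conv_lhs => rw [this]
        rw [pow_add]
        have : (sW m - k + k - k) = sW m - k := by omega
        rw [this, mul_comm (r'⁻¹ ^ (sW m - k)), mul_assoc, ← mul_pow, inv_mul_cancel₀ hr'.ne',
          one_pow, mul_one]
      have y4 : h ^ (1 / 2 - c / 10) * h ^ (2 * c * ((sW m - k : ℕ) : ℝ))
          ≤ h ^ (1 / 2 + 3 * c) := by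
        rw [← Real.rpow_add h0]
        refine rpow_anti h0 h1 ?_
        have : (13 : ℝ) ≤ ((sW m - k : ℕ) : ℝ) := by
          have : 13 ≤ sW m - k := by omega
          exact_mod_cast this
        nlinarith
      rw [y1]
      calc _ = r' * (r'⁻¹ ^ sW m * r' ^ (sW m - k)) * (h' ^ (1 / 2 - e) *
            h ^ (2 * c * ((sW m - k : ℕ) : ℝ))) := by ring
        _ ≤ r' * r'⁻¹ ^ k * (h ^ (1 / 2 - c / 10) * h ^ (2 * c * ((sW m - k : ℕ) : ℝ))) := by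
            rw [y2]; gcongr
        _ ≤ _ := by gcongr
    calc C₁ * ((4 * C₁ / c₁ + 1) * r' * h ^ (1 / 2 + 9 * c) * σ⁻¹ ^ k
          + r' * r'⁻¹ ^ sW m * h' ^ (1 / 2 - e) * σ ^ (sW m - k))
        ≤ C₁ * ((4 * C₁ / c₁ + 1) * (r' * r'⁻¹ ^ k * h ^ (1 / 2 + 3 * c))
          + r' * r'⁻¹ ^ k * h ^ (1 / 2 + 3 * c)) := by gcongr
      _ = r' * r'⁻¹ ^ k * (C₁ * (4 * C₁ / c₁ + 2) * h ^ (1 / 2 + 3 * c)) := by ring
      _ ≤ _ := by gcongr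

end main

/-- the collar of the next window is not small against powers of `h` if `h^{1+5c} < h'` -/
lemma exists_th_lower {c : ℝ} (hc : 0 < c) (hc1 : c ≤ 1 / 100) : ∃ ε : ℝ, 0 < ε ∧ ε ≤ 1 / 4 ∧
    ∀ h h' : ℝ, 0 < h → h ≤ ε → h' ≤ h ^ (1 / 2 : ℝ) → h ^ (1 + 5 * c) < h' →
      h ^ (2 * c) + h ^ (10 * c) ≤ 3 * th h' := by
  obtain ⟨ε, hε, hε'⟩ := exists_of_ev
    ((ev_absorb (2 / (3 * (c / 14) ^ 7)) (a := 2 * c) (b := c) (by linarith)).and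
      (ev_lt (c := 1 / 4) (by norm_num)))
  refine ⟨min ε (1 / 4), by positivity, min_le_right _ _, fun h h' h0 hh hh' hlt => ?_⟩
  obtain ⟨e1, e2⟩ := hε' h h0 (hh.trans (min_le_left _ _))
  have h1 : h ≤ 1 := by linarith
  have hl : h ^ (2:ℝ) < h' := lt_of_le_of_lt (rpow_anti h0 h1 (by linarith)) hlt
  have h0' : 0 < h' := lt_trans (Real.rpow_pos_of_pos h0 _) hlt
  have h1' : h' ≤ 1 / 2 := by
    refine hh'.trans ?_
    rw [← Real.sqrt_eq_rpow]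
    refine (Real.sqrt_le_sqrt e2).trans (le_of_eq ?_)
    rw [show (1:ℝ) / 4 = (1 / 2) ^ 2 by norm_num, Real.sqrt_sq (by norm_num)]
  -- logarithm
  have l1 : Real.log h'⁻¹ ≤ 2 * Real.log h⁻¹ := by
    rw [Real.log_inv, Real.log_inv]
    have := Real.log_le_log (by positivity) hl.le
    rw [Real.log_rpow h0] at this
    linarith
  have l2 : 0 < Real.log h'⁻¹ := Real.log_pos ((one_lt_inv₀ h0').2 (by linarith))
  have l3 : Real.log h⁻¹ ≤ h ^ (-(c / 7)) / (c / 7) := log_inv_le h0 (by positivity)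
  have l4 : Real.log h'⁻¹ ≤ h ^ (-(c / 7)) * (14 / c) := by
    calc _ ≤ 2 * (h ^ (-(c / 7)) / (c / 7)) := by linarith
      _ = _ := by field_simp; norm_num
  have l5 : (c / 14) ^ 7 * h ^ c ≤ th h' := by
    unfold th
    have : (c / 14) ^ 7 * h ^ c = ((h ^ (-(c / 7)) * (14 / c))⁻¹) ^ 7 := by
      rw [mul_inv, ← Real.rpow_neg h0.le, neg_neg, mul_pow, ← Real.rpow_natCast (h ^ (c / 7)),
        ← Real.rpow_mul h0.le]
      have : c / 7 * ((7 : ℕ) : ℝ) = c := by push_cast; ring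
      rw [this, inv_div]; ring
    rw [this]
    gcongr
  have l6 : h ^ (10 * c) ≤ h ^ (2 * c) := rpow_anti h0 h1 (by linarith)
  have l7 : 2 * h ^ (2 * c) ≤ 3 * ((c / 14) ^ 7 * h ^ c) := by
    have h3 : (0:ℝ) < 3 * (c / 14) ^ 7 := by positivity
    calc 2 * h ^ (2 * c)
        = 3 * (c / 14) ^ 7 * (2 / (3 * (c / 14) ^ 7) * h ^ (2 * c)) := by field_simp
      _ ≤ 3 * (c / 14) ^ 7 * h ^ c := by gcongr
      _ = _ := by ring
  linarith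

/-- **[B-W6]** accuracy of a reference from two consecutive steps -/
theorem acc_gen {Q : ℕ} {c c₅ e e₂ : ℝ} (hQ : 1 ≤ Q) (hX : ExpsW m c c₅ e e₂) :
    ∃ ε₀ : ℝ, 0 < ε₀ ∧ ε₀ ≤ 1 / 4 ∧ ∀ (E : Type*) [NormedAddCommGroup E] [InnerProductSpace ℝ E]
      [FiniteDimensional ℝ E] [MeasurableSpace E] [BorelSpace E] (n : ℕ) (T : Submodule ℝ E)
      (F : Frame m n T) (ν : Measure E) (H r h r' h' : ℝ) (u' u'' : Fin n → REF.E m → ℝ),
      IsFiniteMeasure ν →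
      (∀ᵐ y ∂ν, T.starProjection y ∈ ball (0 : E) (3 / 8) → ‖y - T.starProjection y‖ ≤ H) →
      h ≤ ε₀ → Two m n Q T F ν c₅ e e₂ r h r' h' u' u'' → ∀ a, ∀ k ≤ 3, ∀ x,
        ‖x‖ < r' * (1 - 8 * th h') →
        ‖iteratedFDeriv ℝ k (fun x => u'' a x - u' a x) x‖
          ≤ r' * r'⁻¹ ^ k * h ^ (1 / 2 + 2 * c) := by
  obtain ⟨c₁, C₁, hc₁, hC₁, hmass, hder, hint⟩ := exists_consts m
  have hc := hX.c_pos
  have hec := hX.e_le
  have he := hX.e_pos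
  have he2 := hX.e₂_nn
  have he2l := hX.e₂_le
  have hcl := hX.c_le
  have hcs := hX.small
  have hc5 := hX.c₅_pos
  have hm0 : (0:ℝ) ≤ m := Nat.cast_nonneg m
  obtain ⟨ε₁, hε₁, hε₁', hth⟩ := exists_th_lower hc hcl
  obtain ⟨ε₂, hε₂, hε₂'⟩ := exists_of_ev
    ((ev_small (a := 1 / 2 - c / 10 - 10 * c * m) (c := c₁ / 2) (by nlinarith) (by positivity)).and
      (ev_absorb (C₁ * (4 * C₁ / c₁ + 2)) (a := 1 / 2 + 3 * c) (b := 1 / 2 + 2 * c)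
        (by linarith)))
  refine ⟨min ε₁ ε₂, lt_min hε₁ hε₂, (min_le_left _ _).trans hε₁', ?_⟩
  intro E _ _ _ _ _ n T F ν H r h r' h' u' u'' hfin hslab hh hT a k hk3 x hx
  have hh1 : h ≤ ε₁ := hh.trans (min_le_left _ _)
  have h0 := hT.h_pos
  have h0' := hT.h'_pos
  have h1 : h ≤ 1 := by linarith
  obtain ⟨e1, e2⟩ := hε₂' h h0 (hh.trans (min_le_right _ _))
  have hr' : 0 < r' :=
    lt_of_lt_of_le (mul_pos hT.r_pos (Real.rpow_pos_of_pos h0 _)) hT.r'_ge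
  rcases le_or_gt h' (h ^ (1 + 5 * c)) with hs | hs
  · refine (hT.size a k (by unfold sW; omega) x).trans ?_
    have e1 : h' ^ (1 / 2 - e) ≤ h ^ (1 / 2 + 2 * c) := by
      calc h' ^ (1 / 2 - e) ≤ (h ^ (1 + 5 * c)) ^ (1 / 2 - e) :=
            Real.rpow_le_rpow h0'.le hs (by linarith)
        _ = h ^ ((1 + 5 * c) * (1 / 2 - e)) := (Real.rpow_mul h0.le _ _).symm
        _ ≤ _ := rpow_anti h0 h1 (by nlinarith)
    gcongr
  · refine iter_two hQ hX hc₁ hC₁ hmass hder hint hslab h1 hT e1 (hth h h' h0 hh1 ?_ hs) e2 a hk3 hx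
    exact hT.h'_le.trans (rpow_anti h0 h1 (by linarith))

end

end Vale.Agent.P214.BSEQ
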