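import Mathlib.Analysis.SpecialFunctions.Pow.Real
import Mathlib.Analysis.Convex.SpecificFunctions.Basic
import Mathlib.Analysis.Convex.SpecificFunctions.Pow
import Mathlib.Analysis.SpecialFunctions.Pow.NNReal

/-!
# P214, target B, block BSEQ: arithmetic of one step

`ρ = η r ^ b₁`, `ρ' = η r' ^ b₁`; the height satisfies `h ≤ ρ`, the derivatives of the reference are
at most `ρ ^ p` in scaled norms, `p = 1/2 - 2 e`.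
-/

set_option linter.all false

namespace Vale.Agent.P214.BSEQ

open Real

/-- `(1 + 6 θ) ≤ q^{-1/2}` -/
lemma one_add_le_sqrt {q θ : ℝ} (hq : 0 < q) (hθ : 0 ≤ θ) (hqθ : q ≤ 1 - 12 * θ) :
    (1 + 6 * θ) * q ^ (1 / 2 : ℝ) ≤ 1 := by
  have h1 : q ^ (1 / 2 : ℝ) = √q := (Real.sqrt_eq_rpow q).symm
  rw [h1]
  have h2 : ((1 + 6 * θ) * √q) ^ 2 ≤ 1 := by
    rw [mul_pow, Real.sq_sqrt hq.le]
    have h3 : (1 + 6 * θ) ^ 2 * q ≤ (1 + 6 * θ) ^ 2 * (1 - 12 * θ) := by gcongr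
    have h4 : (1 + 6 * θ) ^ 2 * (1 - 12 * θ) = 1 - 108 * θ ^ 2 - 432 * θ ^ 3 := by ring
    have h5 : 0 ≤ θ ^ 3 := by positivity
    nlinarith [sq_nonneg θ]
  have h3 : 0 ≤ (1 + 6 * θ) * √q := by positivity
  nlinarith

section

variable {η b₁ r r' h θ e p : ℝ}

/-- the new bound `ρ'` in terms of the old one -/
lemma rho_eq (hr : 0 < r) (hr' : 0 < r') : η * r' ^ b₁ = η * r ^ b₁ * (r' / r) ^ b₁ := by
  rw [mul_assoc, ← Real.mul_rpow hr.le (by positivity), mul_div_cancel₀ _ hr.ne']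

/-- closing of the derivative bounds of order at least two -/
theorem close_K (hη : 0 < η) (hr : 0 < r) (hr' : 0 < r') (hrr : r' ≤ r * (1 - 12 * θ))
    (hθ : 0 < θ) (hθ1 : θ ≤ 1 / 120) (hb : 0 < b₁) (hb1 : b₁ ≤ 1) (he : 0 < e)
    (hp : p = 1 / 2 - 2 * e) (hp0 : 0 ≤ p) (hh : 0 < h) (hh1 : h ≤ 1) (hhρ : h ≤ η * r ^ b₁)
    (heθ : h ^ e ≤ θ) {k : ℕ} (hk : 2 ≤ k) :
    r * r⁻¹ ^ k * (η * r ^ b₁) ^ p + r * r⁻¹ ^ k * h ^ (1 / 2 - e)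
      ≤ r' * r'⁻¹ ^ k * (η * r' ^ b₁) ^ p := by
  obtain ⟨q, hq⟩ : ∃ q, q = r' / r := ⟨_, rfl⟩
  have hq0 : 0 < q := by rw [hq]; positivity
  have hqθ : q ≤ 1 - 12 * θ := by rw [hq, div_le_iff₀ hr]; linarith
  have hq1 : q ≤ 1 := by linarith
  obtain ⟨ρ, hρ⟩ : ∃ ρ, ρ = η * r ^ b₁ := ⟨_, rfl⟩
  have hρ0 : 0 < ρ := by rw [hρ]; positivity
  have hr'q : r' = r * q := by rw [hq]; field_simp
  rw [rho_eq hr hr', ← hq, ← hρ]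
  rw [← hρ] at hhρ
  have e1 : (ρ * q ^ b₁) ^ p = ρ ^ p * q ^ (b₁ * p) := by
    rw [Real.mul_rpow hρ0.le (by positivity), ← Real.rpow_mul hq0.le]
  have e2 : h ^ (1 / 2 - e) ≤ ρ ^ p * θ := by
    calc h ^ (1 / 2 - e) = h ^ p * h ^ e := by
          rw [← Real.rpow_add hh]; congr 1; rw [hp]; ring
      _ ≤ ρ ^ p * θ := by
          have := Real.rpow_le_rpow hh.le hhρ hp0
          gcongr
  obtain ⟨j, rfl⟩ : ∃ j, k = j + 2 := ⟨k - 2, by omega⟩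
  have e3 : r' * r'⁻¹ ^ (j + 2) = r * r⁻¹ ^ (j + 2) * (q⁻¹ * q⁻¹ ^ j) := by
    rw [hr'q, mul_inv]
    rw [mul_pow, pow_succ q⁻¹, pow_succ q⁻¹]
    field_simp
  rw [e1, e3]
  have hX : 0 ≤ r * r⁻¹ ^ (j + 2) := by positivity
  have e4 : 1 + θ ≤ q⁻¹ * q⁻¹ ^ j * q ^ (b₁ * p) := by
    have f1 : 1 ≤ q⁻¹ ^ j := one_le_pow₀ ((one_le_inv₀ hq0).2 hq1)
    have f2 : q ^ (1 / 2 : ℝ) ≤ q ^ (b₁ * p) := by
      refine Real.rpow_le_rpow_of_exponent_ge hq0 hq1 ?_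
      have : b₁ * p ≤ 1 * (1 / 2) := mul_le_mul hb1 (by linarith) hp0 zero_le_one
      linarith
    have f3 := one_add_le_sqrt hq0 hθ.le hqθ
    have f4 : q = q ^ (1 / 2 : ℝ) * q ^ (1 / 2 : ℝ) := by
      rw [← Real.rpow_add hq0]; norm_num
    have f5 : 0 < q ^ (1 / 2 : ℝ) := by positivity
    have f6 : 1 + θ ≤ q⁻¹ * q ^ (1 / 2 : ℝ) := by
      rw [inv_mul_eq_div, le_div_iff₀ hq0]
      calc (1 + θ) * q = ((1 + θ) * q ^ (1 / 2 : ℝ)) * q ^ (1 / 2 : ℝ) := by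
            rw [mul_assoc, ← f4]
        _ ≤ ((1 + 6 * θ) * q ^ (1 / 2 : ℝ)) * q ^ (1 / 2 : ℝ) := by
            gcongr; linarith
        _ ≤ 1 * q ^ (1 / 2 : ℝ) := by gcongr
        _ = _ := one_mul _
    calc 1 + θ ≤ q⁻¹ * q ^ (1 / 2 : ℝ) := f6
      _ = q⁻¹ * 1 * q ^ (1 / 2 : ℝ) := by ring
      _ ≤ q⁻¹ * q⁻¹ ^ j * q ^ (b₁ * p) := by gcongr
  calc r * r⁻¹ ^ (j + 2) * ρ ^ p + r * r⁻¹ ^ (j + 2) * h ^ (1 / 2 - e)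
      ≤ r * r⁻¹ ^ (j + 2) * ρ ^ p + r * r⁻¹ ^ (j + 2) * (ρ ^ p * θ) := by gcongr
    _ = r * r⁻¹ ^ (j + 2) * ρ ^ p * (1 + θ) := by ring
    _ ≤ r * r⁻¹ ^ (j + 2) * ρ ^ p * (q⁻¹ * q⁻¹ ^ j * q ^ (b₁ * p)) := by gcongr
    _ = _ := by ring

/-- closing of the gradient bound -/
theorem close_K1 (hη : 0 < η) (hr : 0 < r) (hr' : 0 < r') (hrr : r' ≤ r * (1 - 12 * θ))
    (hθ : 0 < θ) (hθ1 : θ ≤ 1 / 120) (hb : 0 < b₁) (hb1 : b₁ ≤ 1) (he : 0 < e)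
    (he8 : e ≤ 1 / 16) (hh : 0 < h) (hh1 : h ≤ 1) (hhρ : h ≤ η * r ^ b₁)
    (hth : h ^ (1 / 16 : ℝ) ≤ θ) (hbs : h ^ (1 / 8 : ℝ) ≤ b₁) :
    h ^ (1 / 2 - e) ≤ (η * r ^ b₁) ^ (1 / 8 : ℝ) - (η * r' ^ b₁) ^ (1 / 8 : ℝ) := by
  obtain ⟨q, hq⟩ : ∃ q, q = r' / r := ⟨_, rfl⟩
  have hq0 : 0 < q := by rw [hq]; positivity
  have hqθ : q ≤ 1 - 12 * θ := by rw [hq, div_le_iff₀ hr]; linarith
  obtain ⟨ρ, hρ⟩ : ∃ ρ, ρ = η * r ^ b₁ := ⟨_, rfl⟩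
  have hρ0 : 0 < ρ := by rw [hρ]; positivity
  rw [rho_eq hr hr', ← hq, ← hρ]
  rw [← hρ] at hhρ
  have e1 : (ρ * q ^ b₁) ^ (1 / 8 : ℝ) = ρ ^ (1 / 8 : ℝ) * q ^ (b₁ * (1 / 8)) := by
    rw [Real.mul_rpow hρ0.le (by positivity), ← Real.rpow_mul hq0.le]
  have e2 : q ^ (b₁ * (1 / 8)) ≤ 1 - b₁ * θ := by
    calc q ^ (b₁ * (1 / 8)) ≤ (1 + -(12 * θ)) ^ (b₁ * (1 / 8)) :=
          Real.rpow_le_rpow hq0.le (by linarith) (by positivity)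
      _ ≤ 1 + b₁ * (1 / 8) * -(12 * θ) :=
          _root_.rpow_one_add_le_one_add_mul_self (by linarith) (by positivity) (by linarith)
      _ ≤ 1 - b₁ * θ := by nlinarith [mul_pos hb hθ]
  have e3 : h ^ (1 / 8 : ℝ) ≤ ρ ^ (1 / 8 : ℝ) := Real.rpow_le_rpow hh.le hhρ (by norm_num)
  have e4 : h ^ (1 / 2 - e) ≤ h ^ (1 / 8 : ℝ) * (h ^ (1 / 8 : ℝ) * h ^ (1 / 16 : ℝ)) := by
    rw [← Real.rpow_add hh, ← Real.rpow_add hh]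
    refine Real.rpow_le_rpow_of_exponent_ge hh hh1 ?_
    linarith
  rw [e1]
  have h8 : 0 ≤ ρ ^ (1 / 8 : ℝ) := by positivity
  calc h ^ (1 / 2 - e) ≤ h ^ (1 / 8 : ℝ) * (h ^ (1 / 8 : ℝ) * h ^ (1 / 16 : ℝ)) := e4
    _ ≤ ρ ^ (1 / 8 : ℝ) * (b₁ * θ) := by gcongr
    _ = ρ ^ (1 / 8 : ℝ) - ρ ^ (1 / 8 : ℝ) * (1 - b₁ * θ) := by ring
    _ ≤ ρ ^ (1 / 8 : ℝ) - ρ ^ (1 / 8 : ℝ) * q ^ (b₁ * (1 / 8)) := by gcongr

/-- the new bound is not too small -/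
lemma rho_ge {c₅ : ℝ} (hη : 0 < η) (hr : 0 < r) (hr' : 0 < r') (hc : 0 < c₅) (hb : 0 < b₁)
    (hb1 : b₁ ≤ 1) (hh : 0 < h) (hh1 : h ≤ 1) (hhρ : h ≤ η * r ^ b₁) (hrr : r * h ^ c₅ ≤ r') :
    η * r ^ b₁ * h ^ c₅ ≤ η * r' ^ b₁ ∧ h ^ (1 + c₅) ≤ η * r' ^ b₁ := by
  have h1 : η * r ^ b₁ * h ^ c₅ ≤ η * r' ^ b₁ := by
    calc η * r ^ b₁ * h ^ c₅ ≤ η * r ^ b₁ * h ^ (c₅ * b₁) := by
          have : h ^ c₅ ≤ h ^ (c₅ * b₁) :=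
            Real.rpow_le_rpow_of_exponent_ge hh hh1 (by nlinarith)
          gcongr
      _ = η * (r * h ^ c₅) ^ b₁ := by
          rw [Real.mul_rpow hr.le (by positivity), ← Real.rpow_mul hh.le]; ring
      _ ≤ η * r' ^ b₁ := by gcongr
  refine ⟨h1, le_trans ?_ h1⟩
  calc h ^ (1 + c₅) = h * h ^ c₅ := by rw [Real.rpow_add hh, Real.rpow_one]
    _ ≤ η * r ^ b₁ * h ^ c₅ := by gcongr

/-- closing of the height bound, drop -/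
theorem close_H {c c₅ h' : ℝ} (hη : 0 < η) (hr : 0 < r) (hr' : 0 < r') (hc : 0 < c₅)
    (hcc : c₅ ≤ c) (hb : 0 < b₁)
    (hb1 : b₁ ≤ 1) (hh : 0 < h) (hh1 : h ≤ 1) (hhρ : h ≤ η * r ^ b₁) (hrr : r * h ^ c₅ ≤ r')
    (hh' : h' ≤ h ^ (1 + c)) : h' ≤ η * r' ^ b₁ :=
  (hh'.trans (Real.rpow_le_rpow_of_exponent_ge hh hh1 (by linarith))).trans
    (rho_ge hη hr hr' hc hb hb1 hh hh1 hhρ hrr).2

/-- the curvature term at the new scale -/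
lemma curv_le (hη : 0 < η) (hr : 0 < r) (hr' : 0 < r') (hrr : r' ≤ r) (he : 0 < e)
    (hp : p = 1 / 2 - 2 * e) (hp0 : 0 ≤ p)
    (hh : 0 < h) (hh1 : h ≤ 1) (hhρ : h ≤ η * r ^ b₁) :
    (r * r⁻¹ ^ 2 * (η * r ^ b₁) ^ p + r * r⁻¹ ^ 2 * h ^ (1 / 2 - e)) * r' ^ 2
      ≤ r' * (2 * (r' / r) * (η * r ^ b₁) ^ p) := by
  have e2 : h ^ (1 / 2 - e) ≤ (η * r ^ b₁) ^ p := by
    calc h ^ (1 / 2 - e) ≤ h ^ p := Real.rpow_le_rpow_of_exponent_ge hh hh1 (by linarith)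
      _ ≤ _ := Real.rpow_le_rpow hh.le hhρ hp0
  have e3 : r * r⁻¹ ^ 2 = r⁻¹ := by field_simp
  rw [e3]
  calc (r⁻¹ * (η * r ^ b₁) ^ p + r⁻¹ * h ^ (1 / 2 - e)) * r' ^ 2
      ≤ (r⁻¹ * (η * r ^ b₁) ^ p + r⁻¹ * (η * r ^ b₁) ^ p) * r' ^ 2 := by gcongr
    _ = _ := by field_simp; ring

/-- the three terms at the new scale, value and gradient -/
theorem close_V {c₅ b τ : ℝ} (hη : 0 < η) (hη1 : η ≤ 1) (hr : 0 < r) (hr1 : r ≤ 1) (hr' : 0 < r')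
    (hrr : r' ≤ r) (hc : 0 < c₅) (hc4 : c₅ ≤ 1 / 4) (hb : 0 < b₁) (hb1 : b₁ ≤ 1) (hbb : b₁ ≤ 2 * b)
    (he : 0 < e) (hp : p = 1 / 2 - 2 * e) (hp0 : 0 ≤ p) (hh : 0 < h) (hh1 : h ≤ 1)
    (hhρ : h ≤ η * r ^ b₁) (hrr' : r * h ^ c₅ ≤ r') (hτ0 : 0 ≤ τ) (hτ : τ ^ 2 ≤ η) :
    τ * r' ^ b + h ^ (3 / 4 : ℝ) + 2 * (r' / r) * (η * r ^ b₁) ^ p
      ≤ 4 * (η * r' ^ b₁) ^ p := by
  have hr'1 : r' ≤ 1 := hrr.trans hr1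
  have hρ'0 : 0 < η * r' ^ b₁ := by positivity
  have hρ'1 : η * r' ^ b₁ ≤ 1 := by
    calc η * r' ^ b₁ ≤ 1 * 1 := mul_le_mul hη1 (Real.rpow_le_one hr'.le hr'1 hb.le)
          (by positivity) zero_le_one
      _ = 1 := one_mul 1
  have hp2 : p ≤ 1 / 2 := by linarith
  have hhalf : (η * r' ^ b₁) ^ (1 / 2 : ℝ) ≤ (η * r' ^ b₁) ^ p :=
    Real.rpow_le_rpow_of_exponent_ge hρ'0 hρ'1 hp2
  -- first term
  have t1 : τ * r' ^ b ≤ (η * r' ^ b₁) ^ p := by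
    refine le_trans ?_ hhalf
    have h1 : τ ≤ η ^ (1 / 2 : ℝ) := by
      rw [← Real.sqrt_eq_rpow]; exact Real.le_sqrt_of_sq_le hτ
    have h2 : r' ^ b ≤ r' ^ (b₁ * (1 / 2)) :=
      Real.rpow_le_rpow_of_exponent_ge hr' hr'1 (by linarith)
    rw [Real.mul_rpow hη.le (by positivity), ← Real.rpow_mul hr'.le]
    gcongr
  -- second term
  have t2 : h ^ (3 / 4 : ℝ) ≤ (η * r' ^ b₁) ^ p := by
    refine le_trans ?_ hhalf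
    have h1 := (rho_ge hη hr hr' hc hb hb1 hh hh1 hhρ hrr').2
    calc h ^ (3 / 4 : ℝ) ≤ (h ^ (1 + c₅)) ^ (1 / 2 : ℝ) := by
          rw [← Real.rpow_mul hh.le]
          exact Real.rpow_le_rpow_of_exponent_ge hh hh1 (by linarith)
      _ ≤ _ := Real.rpow_le_rpow (by positivity) h1 (by norm_num)
  -- third term
  obtain ⟨q, hq⟩ : ∃ q, q = r' / r := ⟨_, rfl⟩
  have hq0 : 0 < q := by rw [hq]; positivity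
  have hq1 : q ≤ 1 := by rw [hq, div_le_one hr]; exact hrr
  have t3 : q * (η * r ^ b₁) ^ p ≤ (η * r' ^ b₁) ^ p := by
    have e1 : (η * r' ^ b₁) ^ p = (η * r ^ b₁) ^ p * q ^ (b₁ * p) := by
      rw [rho_eq hr hr', ← hq, Real.mul_rpow (by positivity : 0 ≤ η * r ^ b₁) (by positivity),
        ← Real.rpow_mul hq0.le]
    rw [e1]
    have h1 : q ≤ q ^ (b₁ * p) := by
      calc q = q ^ (1 : ℝ) := (Real.rpow_one q).symm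
        _ ≤ _ := Real.rpow_le_rpow_of_exponent_ge hq0 hq1 (by nlinarith)
    have h2 : 0 ≤ (η * r ^ b₁) ^ p := by positivity
    calc q * (η * r ^ b₁) ^ p ≤ q ^ (b₁ * p) * (η * r ^ b₁) ^ p := by gcongr
      _ = _ := mul_comm _ _
  rw [← hq]
  linarith

/-- closing of the height bound, long window -/
theorem close_L {c₅ b τ C : ℝ} (hη : 0 < η) (hη1 : η ≤ 1) (hr : 0 < r) (hr1 : r ≤ 1) (hr' : 0 < r')
    (hrr : r' ≤ r) (hc : 0 < c₅) (hc4 : c₅ ≤ 1 / 4) (hb : 0 < b₁) (hb1 : b₁ ≤ 1) (hbb : b₁ ≤ 2 * b)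
    (he : 0 < e) (hec : 8 * e ≤ c₅) (hp : p = 1 / 2 - 2 * e) (hp0 : 0 ≤ p) (hh : 0 < h)
    (hh1 : h ≤ 1) (hhρ : h ≤ η * r ^ b₁) (hreq : r' = r * h ^ c₅) (hτ0 : 0 ≤ τ) (hC : 0 ≤ C)
    (hτ : 9 * C * τ ^ 2 ≤ η) (hs1 : 9 * C * h ^ (1 / 4 : ℝ) ≤ 1)
    (hs2 : 36 * C * h ^ (c₅ / 2) ≤ 1) :
    C * (τ * r' ^ b + h ^ (3 / 4 : ℝ) + 2 * (r' / r) * (η * r ^ b₁) ^ p) ^ 2
      ≤ η * r' ^ b₁ := by
  have hr'1 : r' ≤ 1 := hrr.trans hr1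
  have hρ'0 : 0 < η * r' ^ b₁ := by positivity
  obtain ⟨ρ, hρ⟩ : ∃ ρ, ρ = η * r ^ b₁ := ⟨_, rfl⟩
  have hρ0 : 0 < ρ := by rw [hρ]; positivity
  obtain ⟨g1, g2⟩ := rho_ge hη hr hr' hc hb hb1 hh hh1 hhρ hreq.ge
  rw [← hρ] at g1 hhρ ⊢
  -- first term
  have t1 : 9 * C * (τ * r' ^ b) ^ 2 ≤ η * r' ^ b₁ := by
    have h2 : (r' ^ b) ^ 2 ≤ r' ^ b₁ := by
      rw [← Real.rpow_natCast, ← Real.rpow_mul hr'.le]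
      exact Real.rpow_le_rpow_of_exponent_ge hr' hr'1 (by push_cast; linarith)
    calc 9 * C * (τ * r' ^ b) ^ 2 = 9 * C * τ ^ 2 * (r' ^ b) ^ 2 := by ring
      _ ≤ η * r' ^ b₁ := by gcongr
  -- second term
  have t2 : 9 * C * (h ^ (3 / 4 : ℝ)) ^ 2 ≤ η * r' ^ b₁ := by
    have h1 : (h ^ (3 / 4 : ℝ)) ^ 2 ≤ h ^ (1 / 4 : ℝ) * h ^ (1 + c₅) := by
      rw [← Real.rpow_natCast, ← Real.rpow_mul hh.le, ← Real.rpow_add hh]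
      exact Real.rpow_le_rpow_of_exponent_ge hh hh1 (by push_cast; linarith)
    calc 9 * C * (h ^ (3 / 4 : ℝ)) ^ 2 ≤ 9 * C * (h ^ (1 / 4 : ℝ) * h ^ (1 + c₅)) := by gcongr
      _ = 9 * C * h ^ (1 / 4 : ℝ) * h ^ (1 + c₅) := by ring
      _ ≤ 1 * (η * r' ^ b₁) := by gcongr
      _ = _ := one_mul _
  -- third term
  have hq : r' / r = h ^ c₅ := by rw [hreq]; field_simp
  have t3 : 9 * C * (2 * (r' / r) * ρ ^ p) ^ 2 ≤ η * r' ^ b₁ := by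
    rw [hq]
    have h1 : (ρ ^ p) ^ 2 ≤ ρ * h ^ (-(4 * e)) := by
      have h3 : (ρ ^ p) ^ 2 = ρ * ρ ^ (-(4 * e)) := by
        rw [← Real.rpow_natCast, ← Real.rpow_mul hρ0.le]
        nth_rewrite 2 [← Real.rpow_one ρ]
        rw [← Real.rpow_add hρ0]
        congr 1
        rw [hp]; push_cast; ring
      rw [h3]
      have h4 : ρ ^ (-(4 * e)) ≤ h ^ (-(4 * e)) := by
        rw [Real.rpow_neg hρ0.le, Real.rpow_neg hh.le]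
        exact inv_anti₀ (by positivity) (Real.rpow_le_rpow hh.le hhρ (by positivity))
      gcongr
    have h2 : (h ^ c₅) ^ 2 * h ^ (-(4 * e)) ≤ h ^ (c₅ / 2) * h ^ c₅ := by
      rw [← Real.rpow_natCast, ← Real.rpow_mul hh.le, ← Real.rpow_add hh, ← Real.rpow_add hh]
      exact Real.rpow_le_rpow_of_exponent_ge hh hh1 (by push_cast; linarith)
    calc 9 * C * (2 * h ^ c₅ * ρ ^ p) ^ 2 = 36 * C * ((h ^ c₅) ^ 2 * (ρ ^ p) ^ 2) := by ring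
      _ ≤ 36 * C * ((h ^ c₅) ^ 2 * (ρ * h ^ (-(4 * e)))) := by gcongr
      _ = 36 * C * ρ * ((h ^ c₅) ^ 2 * h ^ (-(4 * e))) := by ring
      _ ≤ 36 * C * ρ * (h ^ (c₅ / 2) * h ^ c₅) := by gcongr
      _ = 36 * C * h ^ (c₅ / 2) * (ρ * h ^ c₅) := by ring
      _ ≤ 1 * (η * r' ^ b₁) := by gcongr
      _ = _ := one_mul _
  obtain ⟨A, hA⟩ : ∃ A, A = τ * r' ^ b := ⟨_, rfl⟩
  obtain ⟨B, hB⟩ : ∃ B, B = h ^ (3 / 4 : ℝ) := ⟨_, rfl⟩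
  obtain ⟨D, hD⟩ : ∃ D, D = 2 * (r' / r) * ρ ^ p := ⟨_, rfl⟩
  rw [← hA] at t1 ⊢
  rw [← hB] at t2 ⊢
  rw [← hD] at t3 ⊢
  have h9 : (A + B + D) ^ 2 ≤ 3 * (A ^ 2 + B ^ 2 + D ^ 2) := by
    nlinarith [sq_nonneg (A - B), sq_nonneg (A - D), sq_nonneg (B - D)]
  have h10 : C * (A + B + D) ^ 2 ≤ C * (3 * (A ^ 2 + B ^ 2 + D ^ 2)) := by gcongr
  linarith

end

end Vale.Agent.P214.BSEQ
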