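import Vale.Agent.P214.BSEQ.Props
import Vale.Agent.P214.BSEQ.AccGen

/-!
# P214, target B, block BSEQ: the exponents exist
-/

open Set Filter Topology MeasureTheory Metric
open scoped RealInnerProductSpace ENNReal ContDiff

set_option linter.all false

namespace Vale.Agent.P214.BSEQ

/-- **existence of the exponents** -/
theorem exists_expsB (m : ℕ) {β c₀ : ℝ} (hβ : 0 < β) (hβ2 : β ≤ 1 / 2) (hc₀ : 0 < c₀)
    (hc₀8 : c₀ ≤ 1 / 8) :
    ∃ X : Exps, X.OK m ∧ X.β = β ∧ X.c₀ = c₀ ∧ ExpsW m X.c X.c₅ X.e ∧ 10 * X.c ≤ X.c₀ := by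
  obtain ⟨c, hc⟩ : ∃ c : ℝ, c = min (c₀ / 10) (1 / (100 * (5 * m + 17))) := ⟨_, rfl⟩
  have hm : (0:ℝ) ≤ m := Nat.cast_nonneg m
  have hcp : 0 < c := by rw [hc]; exact lt_min (by positivity) (by positivity)
  have hc1 : c ≤ c₀ / 10 := by rw [hc]; exact min_le_left _ _
  have hc2 : c ≤ 1 / (100 * (5 * m + 17)) := by rw [hc]; exact min_le_right _ _
  have hc3 : c * (100 * (5 * m + 17)) ≤ 1 := by
    rwa [le_div_iff₀ (by positivity)] at hc2
  have hcm : 0 ≤ c * m := mul_nonneg hcp.le hm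
  have hc4 : c ≤ 1 / 1700 := by nlinarith
  obtain ⟨d, hd⟩ : ∃ d : ℝ, d = c / (16 * (m + 3)) := ⟨_, rfl⟩
  have hdp : 0 < d := by rw [hd]; positivity
  have hd1 : (m + 3) * d = c / 16 := by rw [hd]; field_simp
  have hd2 : d ≤ c / 48 := by nlinarith [mul_nonneg hm hdp.le]
  obtain ⟨e, he⟩ : ∃ e : ℝ, e = β * d / 16 := ⟨_, rfl⟩
  have hep : 0 < e := by rw [he]; positivity
  have hed : e ≤ d / 32 := by rw [he]; nlinarith
  have hmd : 0 ≤ m * d := mul_nonneg hm hdp.le
  have hmd2 : m * d ≤ c / 16 := by nlinarith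
  refine ⟨⟨β, c₀, e * c₀ / 2, c, d, e, e + (m + 3) * d⟩, ?_, rfl, rfl, ?_, ?_⟩
  · constructor
    · exact hβ
    · exact hβ2
    · exact hc₀
    · exact hc₀8
    · show 0 < e * c₀ / 2
      positivity
    · show e * c₀ / 2 ≤ c₀ ^ 2
      have : e ≤ c₀ := by linarith
      nlinarith
    · show e = 2 * (e * c₀ / 2 / c₀)
      field_simp
    · exact hcp
    · show c ≤ 1 / 100
      linarith
    · exact hdp
    · rfl
    · show e + (m + 3) * d ≤ c / 8
      rw [hd1]; linarith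
    · show (5 * m + 20) * d + e ≤ 1 / 8
      nlinarith
    · exact hep
    · show e ≤ β * d / 16
      rw [he]
  · constructor
    · exact hcp
    · show c ≤ 1 / 100
      linarith
    · show (5 * m + 17) * (d + 10 * c) + 12 * c + e ≤ 1 / 2
      nlinarith
    · exact hdp
    · exact hep
    · show e ≤ c / 100
      linarith
  · show 10 * c ≤ c₀
    linarith

end Vale.Agent.P214.BSEQ
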