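import Mathlib.Analysis.SpecialFunctions.Pow.Real
import Mathlib.Analysis.SpecificLimits.Basic

/-!
# P214, target B, block BSEQ: growth of the chain without monotone heights

Heights `h j ≤ r j ^ b`; every step is either a drop, `h (j+1) ≤ h j ^ (1+c)`, or a long window,
`r (j+1) ≤ r j * h j ^ c₅`.  Then the heights decrease superexponentially.
-/

open Finset

set_option linter.all false

namespace Vale.Agent.P214.BSEQ

noncomputable section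

/-- the factor of the exponent -/
def g3 (b c₅ : ℝ) : ℝ := b / (2 / c₅ + b)

/-- the growth rate -/
def g2 (b c c₅ : ℝ) : ℝ := c * b / (2 / c₅ + b)

lemma g3_pos {b c₅ : ℝ} (hb : 0 < b) (h5 : 0 < c₅) : 0 < g3 b c₅ := by
  unfold g3; positivity

lemma g3_le_one {b c₅ : ℝ} (hb : 0 < b) (h5 : 0 < c₅) : g3 b c₅ ≤ 1 := by
  unfold g3
  rw [div_le_one (by positivity)]
  have : 0 < 2 / c₅ := by positivity
  linarith

lemma g2_pos {b c c₅ : ℝ} (hb : 0 < b) (hc : 0 < c) (h5 : 0 < c₅) : 0 < g2 b c c₅ := by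
  unfold g2; positivity

/-- the potential `F + K R`, `K = 2 / c₅` -/
lemma pot_step {b c c₅ F R F' R' : ℝ} (hb : 0 < b) (hc : 0 < c) (hc1 : c ≤ 1) (h5 : 0 < c₅)
    (hR : 0 ≤ R) (hF : b * R ≤ F) (hF' : b * R' ≤ F') (hRR : R ≤ R')
    (h : (1 + c) * F ≤ F' ∨ R + c₅ * F ≤ R') :
    (1 + g2 b c c₅) * (F + 2 / c₅ * R) ≤ F' + 2 / c₅ * R' := by
  set K : ℝ := 2 / c₅ with hK
  have hK0 : 0 < K := by positivity
  have hKc : K * c₅ = 2 := by rw [hK]; field_simp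
  have hF0 : 0 ≤ F := le_trans (by positivity) hF
  have hKb : 0 < K + b := by positivity
  have hg : g2 b c c₅ * (K + b) = c * b := by
    unfold g2
    rw [← hK, div_mul_cancel₀ _ hKb.ne']
  have hg0 : 0 < g2 b c c₅ := g2_pos hb hc h5
  rcases h with h | h
  · -- drop
    have h1 : g2 b c c₅ * (F + K * R) ≤ c * F := by
      have h2 : (K + b) * (g2 b c c₅ * (F + K * R)) ≤ (K + b) * (c * F) := by
        have e1 : (K + b) * (g2 b c c₅ * (F + K * R)) = c * b * (F + K * R) := by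
          rw [← hg]; ring
        rw [e1]
        have h3 : b * (K * R) ≤ K * F := by nlinarith
        nlinarith
      exact le_of_mul_le_mul_left h2 hKb
    nlinarith
  · -- long window
    have h1 : (b + K) * (R + c₅ * F) ≤ F' + K * R' := by nlinarith
    have h2 : g2 b c c₅ * K ≤ b := by
      have h3 : (K + b) * (g2 b c c₅ * K) ≤ (K + b) * b := by
        have e1 : (K + b) * (g2 b c c₅ * K) = c * b * K := by rw [← hg]; ring
        rw [e1]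
        have h4 : c * b * K ≤ 1 * b * K := by gcongr
        nlinarith
      exact le_of_mul_le_mul_left h3 hKb
    have h3 : g2 b c c₅ ≤ 1 := by
      have h4 : (K + b) * g2 b c c₅ ≤ (K + b) * 1 := by
        rw [mul_comm, hg]
        nlinarith
      exact le_of_mul_le_mul_left h4 hKb
    have h4 : (b + K) * c₅ * F = b * c₅ * F + 2 * F := by rw [← hKc]; ring
    have h5' : 0 ≤ b * c₅ * F := by positivity
    nlinarith [mul_nonneg hK0.le hR, mul_le_mul_of_nonneg_right h2 hR]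

lemma pot_all {b c c₅ : ℝ} (hb : 0 < b) (hc : 0 < c) (hc1 : c ≤ 1) (h5 : 0 < c₅)
    {F R : ℕ → ℝ} {N : ℕ} (hR : ∀ j ≤ N, 0 ≤ R j) (hF : ∀ j ≤ N, b * R j ≤ F j)
    (hRR : ∀ j < N, R j ≤ R (j + 1))
    (h : ∀ j < N, (1 + c) * F j ≤ F (j + 1) ∨ R j + c₅ * F j ≤ R (j + 1)) :
    ∀ j ≤ N, g3 b c₅ * (1 + g2 b c c₅) ^ j * F 0 ≤ F j := by
  have hg := g2_pos hb hc h5
  have hK0 : 0 < 2 / c₅ := by positivity
  have key : ∀ j ≤ N, (1 + g2 b c c₅) ^ j * F 0 ≤ F j + 2 / c₅ * R j := by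
    intro j
    induction j with
    | zero =>
      intro _
      have := hR 0 (Nat.zero_le _)
      rw [pow_zero, one_mul]
      have h1 : 0 ≤ 2 / c₅ * R 0 := by positivity
      linarith
    | succ j ih =>
      intro hj
      have h1 := ih (by omega)
      have h2 := pot_step hb hc hc1 h5 (hR j (by omega)) (hF j (by omega)) (hF (j + 1) hj)
        (hRR j (by omega)) (h j (by omega))
      calc (1 + g2 b c c₅) ^ (j + 1) * F 0 = (1 + g2 b c c₅) * ((1 + g2 b c c₅) ^ j * F 0) := by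
            ring
        _ ≤ (1 + g2 b c c₅) * (F j + 2 / c₅ * R j) := by gcongr
        _ ≤ _ := h2
  intro j hj
  have h1 := key j hj
  have h2 := hF j hj
  have h3 : g3 b c₅ * (F j + 2 / c₅ * R j) ≤ F j := by
    unfold g3
    rw [div_mul_eq_mul_div, div_le_iff₀ (by positivity)]
    nlinarith
  calc g3 b c₅ * (1 + g2 b c c₅) ^ j * F 0 = g3 b c₅ * ((1 + g2 b c c₅) ^ j * F 0) := by ring
    _ ≤ g3 b c₅ * (F j + 2 / c₅ * R j) := mul_le_mul_of_nonneg_left h1 (g3_pos hb h5).le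
    _ ≤ F j := h3

/-- **superexponential decrease of the heights** -/
theorem grow {b c c₅ : ℝ} (hb : 0 < b) (hc : 0 < c) (hc1 : c ≤ 1) (h5 : 0 < c₅)
    {r h : ℕ → ℝ} {N : ℕ} (hr : ∀ j ≤ N, 0 < r j) (hr1 : ∀ j ≤ N, r j ≤ 1)
    (hh : ∀ j ≤ N, 0 < h j) (hpow : ∀ j ≤ N, h j ≤ r j ^ b) (hrr : ∀ j < N, r (j + 1) ≤ r j)
    (hstep : ∀ j < N, h (j + 1) ≤ h j ^ (1 + c) ∨ r (j + 1) ≤ r j * h j ^ c₅) :
    ∀ j ≤ N, h j ≤ h 0 ^ (g3 b c₅ * (1 + g2 b c c₅) ^ j) := by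
  intro j hj
  have key := pot_all (F := fun j => - Real.log (h j)) (R := fun j => - Real.log (r j)) (N := N)
    hb hc hc1 h5 (fun j hj => ?_) (fun j hj => ?_) (fun j hj => ?_) (fun j hj => ?_) j hj
  · rw [← Real.log_le_log_iff (hh j hj) (Real.rpow_pos_of_pos (hh 0 (Nat.zero_le _)) _),
      Real.log_rpow (hh 0 (Nat.zero_le _))]
    linarith
  · have := Real.log_nonpos (hr j hj).le (hr1 j hj)
    linarith
  · have h1 := Real.log_le_log (hh j hj) (hpow j hj)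
    rw [Real.log_rpow (hr j hj)] at h1
    linarith
  · have h1 := Real.log_le_log (hr (j + 1) hj) (hrr j hj)
    linarith
  · rcases hstep j hj with h1 | h1
    · left
      have h2 := Real.log_le_log (hh (j + 1) hj) h1
      rw [Real.log_rpow (hh j hj.le)] at h2
      linarith
    · right
      have h2 := Real.log_le_log (hr (j + 1) hj) h1
      rw [Real.log_mul (hr j hj.le).ne' (Real.rpow_pos_of_pos (hh j hj.le) _).ne',
        Real.log_rpow (hh j hj.le)] at h2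
      linarith

/-- geometric form -/
theorem grow_geom {b c c₅ : ℝ} (hb : 0 < b) (hc : 0 < c) (hc1 : c ≤ 1) (h5 : 0 < c₅)
    {r h : ℕ → ℝ} {N : ℕ} (hr : ∀ j ≤ N, 0 < r j) (hr1 : ∀ j ≤ N, r j ≤ 1)
    (hh : ∀ j ≤ N, 0 < h j) (hpow : ∀ j ≤ N, h j ≤ r j ^ b) (hrr : ∀ j < N, r (j + 1) ≤ r j)
    (hstep : ∀ j < N, h (j + 1) ≤ h j ^ (1 + c) ∨ r (j + 1) ≤ r j * h j ^ c₅) :
    ∀ j ≤ N, h j ≤ h 0 ^ g3 b c₅ * (h 0 ^ (g3 b c₅ * g2 b c c₅)) ^ j := by
  intro j hj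
  have h0 : 0 < h 0 := hh 0 (Nat.zero_le _)
  have h01 : h 0 ≤ 1 := by
    refine (hpow 0 (Nat.zero_le _)).trans ?_
    exact Real.rpow_le_one (hr 0 (Nat.zero_le _)).le (hr1 0 (Nat.zero_le _)) hb.le
  have h1 := grow hb hc hc1 h5 hr hr1 hh hpow hrr hstep j hj
  refine h1.trans ?_
  rw [← Real.rpow_natCast (h 0 ^ (g3 b c₅ * g2 b c c₅)) j, ← Real.rpow_mul h0.le,
    ← Real.rpow_add h0]
  refine Real.rpow_le_rpow_of_exponent_ge h0 h01 ?_
  have h2 : 1 + (j : ℝ) * g2 b c c₅ ≤ (1 + g2 b c c₅) ^ j :=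
    one_add_mul_le_pow (by linarith [g2_pos hb hc h5]) j
  have h3 := g3_pos hb h5
  calc g3 b c₅ + g3 b c₅ * g2 b c c₅ * j = g3 b c₅ * (1 + j * g2 b c c₅) := by ring
    _ ≤ g3 b c₅ * (1 + g2 b c c₅) ^ j := mul_le_mul_of_nonneg_left h2 h3.le

lemma geom_sum_le {q : ℝ} (hq : 0 ≤ q) (hq2 : q ≤ 1 / 2) (N : ℕ) :
    ∑ j ∈ range N, q ^ j ≤ 2 := by
  have h1 : ∀ j ∈ range N, q ^ j ≤ (1 / 2 : ℝ) ^ j := fun j _ => pow_le_pow_left₀ hq hq2 j
  refine (Finset.sum_le_sum h1).trans ?_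
  have h2 := (summable_geometric_two).sum_le_tsum (range N) fun _ _ => by positivity
  rw [tsum_geometric_two] at h2
  exact h2

/-- sums of powers of the heights: constants `η` (smallness of `h 0`) and `2 h 0 ^ (γ g₃)` -/
theorem grow_sum {b c c₅ γ : ℝ} (hb : 0 < b) (hc : 0 < c) (hc1 : c ≤ 1) (h5 : 0 < c₅)
    (hγ : 0 < γ) {r h : ℕ → ℝ} {N : ℕ} (hr : ∀ j ≤ N, 0 < r j) (hr1 : ∀ j ≤ N, r j ≤ 1)
    (hh : ∀ j ≤ N, 0 < h j) (hpow : ∀ j ≤ N, h j ≤ r j ^ b) (hrr : ∀ j < N, r (j + 1) ≤ r j)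
    (hstep : ∀ j < N, h (j + 1) ≤ h j ^ (1 + c) ∨ r (j + 1) ≤ r j * h j ^ c₅)
    (hη : h 0 ^ (γ * (g3 b c₅ * g2 b c c₅)) ≤ 1 / 2) :
    ∑ j ∈ range (N + 1), h j ^ γ ≤ 2 * h 0 ^ (γ * g3 b c₅) := by
  have h0 : 0 < h 0 := hh 0 (Nat.zero_le _)
  have hg := grow_geom hb hc hc1 h5 hr hr1 hh hpow hrr hstep
  set q : ℝ := h 0 ^ (γ * (g3 b c₅ * g2 b c c₅)) with hq
  have hq0 : 0 ≤ q := Real.rpow_nonneg h0.le _
  calc ∑ j ∈ range (N + 1), h j ^ γ ≤ ∑ j ∈ range (N + 1), h 0 ^ (γ * g3 b c₅) * q ^ j := by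
        refine Finset.sum_le_sum fun j hj => ?_
        have hj' : j ≤ N := Nat.lt_succ_iff.1 (mem_range.1 hj)
        have h1 := Real.rpow_le_rpow (hh j hj').le (hg j hj') hγ.le
        refine h1.trans (le_of_eq ?_)
        rw [Real.mul_rpow (Real.rpow_nonneg h0.le _) (pow_nonneg (Real.rpow_nonneg h0.le _) _),
          ← Real.rpow_mul h0.le, ← Real.rpow_natCast, ← Real.rpow_mul (Real.rpow_nonneg h0.le _),
          ← Real.rpow_mul h0.le, hq, ← Real.rpow_natCast, ← Real.rpow_mul h0.le]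
        congr 2 <;> ring
    _ = h 0 ^ (γ * g3 b c₅) * ∑ j ∈ range (N + 1), q ^ j := by rw [Finset.mul_sum]
    _ ≤ h 0 ^ (γ * g3 b c₅) * 2 :=
        mul_le_mul_of_nonneg_left (geom_sum_le hq0 hη _) (Real.rpow_nonneg h0.le _)
    _ = _ := mul_comm _ _

/-- smallness: for every `ε` there is `η` such that `h 0 ≤ η` gives `∑ h j ^ γ ≤ ε` -/
theorem grow_small {b c c₅ γ ε : ℝ} (hb : 0 < b) (hc : 0 < c) (hc1 : c ≤ 1) (h5 : 0 < c₅)
    (hγ : 0 < γ) (hε : 0 < ε) : ∃ η : ℝ, 0 < η ∧ ∀ (r h : ℕ → ℝ) (N : ℕ),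
    (∀ j ≤ N, 0 < r j) → (∀ j ≤ N, r j ≤ 1) → (∀ j ≤ N, 0 < h j) → (∀ j ≤ N, h j ≤ r j ^ b) →
    (∀ j < N, r (j + 1) ≤ r j) →
    (∀ j < N, h (j + 1) ≤ h j ^ (1 + c) ∨ r (j + 1) ≤ r j * h j ^ c₅) → h 0 ≤ η →
    ∑ j ∈ range (N + 1), h j ^ γ ≤ ε := by
  have hp : 0 < γ * (g3 b c₅ * g2 b c c₅) :=
    mul_pos hγ (mul_pos (g3_pos hb h5) (g2_pos hb hc h5))
  have hp' : 0 < γ * g3 b c₅ := mul_pos hγ (g3_pos hb h5)
  refine ⟨min ((1 / 2) ^ (γ * (g3 b c₅ * g2 b c c₅))⁻¹) ((ε / 2) ^ (γ * g3 b c₅)⁻¹),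
    lt_min (Real.rpow_pos_of_pos (by norm_num) _) (Real.rpow_pos_of_pos (by positivity) _),
    fun r h N hr hr1 hh hpow hrr hstep h0 => ?_⟩
  have hh0 := hh 0 (Nat.zero_le _)
  have h1 : h 0 ^ (γ * (g3 b c₅ * g2 b c c₅)) ≤ 1 / 2 := by
    have h2 := Real.rpow_le_rpow hh0.le (h0.trans (min_le_left _ _)) hp.le
    rwa [← Real.rpow_mul (by norm_num), inv_mul_cancel₀ hp.ne', Real.rpow_one] at h2
  have h3 : h 0 ^ (γ * g3 b c₅) ≤ ε / 2 := by
    have h2 := Real.rpow_le_rpow hh0.le (h0.trans (min_le_right _ _)) hp'.le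
    rwa [← Real.rpow_mul (by positivity), inv_mul_cancel₀ hp'.ne', Real.rpow_one] at h2
  have h4 := grow_sum hb hc hc1 h5 hγ hr hr1 hh hpow hrr hstep h1
  linarith

/-- if the radii stay away from zero, every step after some index is a drop -/
theorem drop_of_radii {c₅ : ℝ} (h5 : 0 < c₅) {r h : ℕ → ℝ} {ρ b : ℝ} (hρ : 0 < ρ)
    (hb : 0 < b) (hr : ∀ j, ρ ≤ r j) (hr1 : ∀ j, r j ≤ 1 / 2) (hh : ∀ j, 0 < h j)
    (hpow : ∀ j, h j ≤ r j ^ b) (hrr : ∀ j, r (j + 1) ≤ r j) {c : ℝ}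
    (hstep : ∀ j, h (j + 1) ≤ h j ^ (1 + c) ∨ r (j + 1) ≤ r j * h j ^ c₅) :
    ∃ N, ∀ j ≥ N, h (j + 1) ≤ h j ^ (1 + c) := by
  -- the factor of a long window is at most `q = (1/2)^(b c₅) < 1`
  set q : ℝ := (1 / 2 : ℝ) ^ (b * c₅) with hq
  have hq0 : 0 < q := Real.rpow_pos_of_pos (by norm_num) _
  have hq1 : q < 1 := Real.rpow_lt_one (by norm_num) (by norm_num) (by positivity)
  have hlong : ∀ j, r (j + 1) ≤ r j * h j ^ c₅ → r (j + 1) ≤ r j * q := by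
    intro j hj
    have hrj : 0 < r j := hρ.trans_le (hr j)
    refine hj.trans (mul_le_mul_of_nonneg_left ?_ hrj.le)
    calc h j ^ c₅ ≤ (r j ^ b) ^ c₅ := Real.rpow_le_rpow (hh j).le (hpow j) h5.le
      _ ≤ ((1 / 2 : ℝ) ^ b) ^ c₅ :=
          Real.rpow_le_rpow (Real.rpow_nonneg hrj.le _) (Real.rpow_le_rpow hrj.le (hr1 j) hb.le)
            h5.le
      _ = q := by rw [hq, ← Real.rpow_mul (by norm_num)]
  by_contra hcon
  push Not at hcon
  -- infinitely many long windows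
  have hmono : ∀ i j, i ≤ j → r j ≤ r i := by
    intro i j hij
    induction hij with
    | refl => exact le_rfl
    | step _ ih => exact (hrr _).trans ih
  have key : ∀ k : ℕ, ∃ j, r j ≤ q ^ k := by
    intro k
    induction k with
    | zero => exact ⟨0, by rw [pow_zero]; linarith [hr1 0]⟩
    | succ k ih =>
      obtain ⟨j, hj⟩ := ih
      obtain ⟨i, hi, hi2⟩ := hcon j
      have h1 : r (i + 1) ≤ r i * h i ^ c₅ := (hstep i).resolve_left (not_le.2 hi2)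
      refine ⟨i + 1, (hlong i h1).trans ?_⟩
      calc r i * q ≤ r j * q := mul_le_mul_of_nonneg_right (hmono j i hi) hq0.le
        _ ≤ q ^ k * q := mul_le_mul_of_nonneg_right hj hq0.le
        _ = q ^ (k + 1) := (pow_succ q k).symm
  obtain ⟨k, hk⟩ := exists_pow_lt_of_lt_one hρ hq1
  obtain ⟨j, hj⟩ := key k
  linarith [hr j]

end

end Vale.Agent.P214.BSEQ
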