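import Vale.Agent.P214.BSEQ.Props

/-!
# P214, target B, block BSEQ: the invariant of the recursion, output of one step
-/

open Set Filter Topology MeasureTheory Metric
open scoped RealInnerProductSpace ENNReal ContDiff

set_option linter.all false

namespace Vale.Agent.P214.BSEQ

open WIN STR WSEQ

noncomputable section

variable {m n : ℕ} {E : Type*} [NormedAddCommGroup E] [InnerProductSpace ℝ E]
  [FiniteDimensional ℝ E] [MeasurableSpace E] [BorelSpace E]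

/-- the power `β (1/2 - 2 e)` of the curvature -/
def Exps.b₂ (X : Exps) : ℝ := X.β * (1 / 2 - 2 * X.e)

/-- invariant of the recursion: reference `u` at the radius `r` with height `h` -/
structure Inv (m n : ℕ) (T : Submodule ℝ E) (F : Frame m n T) (ν : Measure E) (X : Exps)
    (η ε : ℝ) (u : Fin n → REF.E m → ℝ) (r h : ℝ) : Prop where
  smooth : ∀ a, ContDiff ℝ ∞ (u a)
  supp : ∀ a x, 3 / 8 ≤ ‖x‖ → u a x = 0
  exact : ∀ a x, ‖x‖ < r → REF.Mop u a x = 0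
  r_pos : 0 < r
  r_le : r ≤ 3 / 16
  h_eq : h = hN m T (F.lift u) ν r
  h_pos : 0 < h
  /-- (H) -/
  h_small : h ^ (1 / 2 - 2 * X.e) ≤ η * r ^ X.b₂
  /-- (K) -/
  curv : ∀ a k, 2 ≤ k → k ≤ sW m → ∀ x,
    ‖iteratedFDeriv ℝ k (u a) x‖ ≤ η * (r * r⁻¹ ^ k) * r ^ X.b₂
  /-- (D) -/
  slope : ∀ a x, ‖fderiv ℝ (u a) x‖ ≤ ε
  /-- (V) -/
  val : ∀ a, |u a 0| ≤ ε * r

/-- the fields `pw`, `cen`, `cen'` of `WSeq`: the new reference `u'` at the radii `r`, `r'` -/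
structure Pwc (C : ℝ) (X : Exps) (u' : Fin n → REF.E m → ℝ) (r r' : ℝ) : Prop where
  pw : ∀ a k, 2 ≤ k → k ≤ sW m → ∀ x,
    ‖iteratedFDeriv ℝ k (u' a) x‖ ≤ 2 * (r * r⁻¹ ^ k * r ^ (X.β / 4))
  cen : ∀ a, |u' a 0| ≤ C * (r' * r' ^ (X.β / 4))
  cen' : ∀ a, ‖fderiv ℝ (u' a) 0‖ ≤ C * r' ^ (X.β / 4)

/-- a small height -/
structure Sma (ε h : ℝ) : Prop where
  le_ε : h ≤ ε
  th_pos : 0 < th h
  th_le : th h ≤ 1 / 120

/-- STEP-S for fixed exponents -/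
def StepAt (E : Type*) [NormedAddCommGroup E] [InnerProductSpace ℝ E] [FiniteDimensional ℝ E]
    [MeasurableSpace E] [BorelSpace E] (m n Q : ℕ) (c₀ c₁ : ℝ) : Prop :=
  ∀ τ : ℝ, 0 < τ → ∃ ε : ℝ, 0 < ε ∧ ε ≤ 1 ∧
    ∀ (T : Submodule ℝ E) (F : Frame m n T) (u : Fin n → REF.E m → ℝ) (r h θ : ℝ)
      (ν : Measure E) (P : E → E →L[ℝ] E),
    RefS ε r u → 0 < r → r ≤ 3 / 16 →
    Skel.IntCyl m Q T 0 (2 * r) (ε * r) ε ν P → Skel.exc T ν P 0 (2 * r) ≤ ε * r ^ m →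
    h = hN m T (F.lift u) ν r → 0 < h → h ≤ ε → h ^ c₁ ≤ θ → θ ≤ 1 / 120 →
    (∀ (ψ : REF.E m → ℝ) (M : ℝ), Continuous ψ → (∀ x, r * (1 - 5 * θ) ≤ ‖x‖ → ψ x = 0) →
      (∀ x, |ψ x| ≤ M) → |∫ y, ψ (F.xc y) ∂ν - Q * ∫ x, ψ x * √(REF.gm u x).det ∂μH[m]|
        ≤ r ^ m * h ^ (1 / 2 - c₁ / c₀) * M) ∧
    ∃ u' : Fin n → REF.E m → ℝ, StepOut m n Q T F u u' c₀ c₁ τ r h θ ν P

/-- **[B-ONE]** one step of the windows sequence -/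
def OneStmt (E : Type*) [NormedAddCommGroup E] [InnerProductSpace ℝ E] [FiniteDimensional ℝ E]
    [MeasurableSpace E] [BorelSpace E] (m n Q : ℕ) (X : Exps) : Prop :=
  ∃ C ε₀ : ℝ, 1 ≤ C ∧ 0 < ε₀ ∧ ∀ ε : ℝ, 0 < ε → ε ≤ ε₀ →
    ∃ η τ : ℝ, 0 < η ∧ η ≤ 1 / 2 ∧ η ≤ ε ∧ 0 < τ ∧ τ ≤ ε ∧
    (∀ h, 0 < h → h ≤ η → Sma ε h) ∧
    ∀ (T : Submodule ℝ E) (F : Frame m n T) (ν : Measure E) (P : E → E →L[ℝ] E),
      LocB m Q T ν P X.β τ → ∀ (u : Fin n → REF.E m → ℝ) (r h : ℝ),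
      Inv m n T F ν X η ε u r h → RefS ε r u ∧ ∃ (u' : Fin n → REF.E m → ℝ) (r' : ℝ),
        Nxt m n Q T F ν X ε u r h u' r' ∧ 0 < r' ∧ Pwc C X u' r r' ∧ RefS ε r' u' ∧
          (hN m T (F.lift u') ν r' = 0 ∨
            Inv m n T F ν X η ε u' r' (hN m T (F.lift u') ν r'))

end

end Vale.Agent.P214.BSEQ
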