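import Vale.Agent.P214.BSEQ.OneC

/-!
# P214, target B, block BSEQ: one step of the windows sequence
-/

open Set Filter Topology MeasureTheory Metric
open scoped RealInnerProductSpace ENNReal ContDiff

set_option linter.all false

namespace Vale.Agent.P214.BSEQ

open WIN STR WSEQ

/-- the root of `η` -/
lemma exists_root {p η : ℝ} (hp : 0 < p) (hp1 : p ≤ 1) (hη : 0 < η) (hη1 : η ≤ 1) :
    ∃ η₁ : ℝ, 0 < η₁ ∧ η₁ ≤ η ∧ η₁ ^ p = η := by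
  refine ⟨η ^ (1 / p), by positivity, ?_, ?_⟩
  · calc η ^ (1 / p) ≤ η ^ (1:ℝ) := by
          refine Real.rpow_le_rpow_of_exponent_ge hη hη1 ?_
          rw [le_div_iff₀ hp]; linarith
      _ = η := Real.rpow_one η
  · rw [← Real.rpow_mul hη.le, one_div, inv_mul_cancel₀ hp.ne', Real.rpow_one]

section

variable {X : Exps} {m : ℕ} {η η₁ : ℝ}

/-- the bound `ρ ^ p` -/
lemma rho_p (hη₁ : 0 < η₁) (hp : η₁ ^ (1 / 2 - 2 * X.e) = η) {r : ℝ} (hr : 0 < r) :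
    (η₁ * r ^ X.β) ^ (1 / 2 - 2 * X.e) = η * r ^ X.b₂ := by
  rw [Real.mul_rpow hη₁.le (by positivity), hp, ← Real.rpow_mul hr.le]; rfl

lemma le_of_root (hX : X.OK m) (hη₁ : 0 < η₁) (hp : η₁ ^ (1 / 2 - 2 * X.e) = η) {r h : ℝ}
    (hr : 0 < r) (hh : 0 ≤ h) (hH : h ^ (1 / 2 - 2 * X.e) ≤ η * r ^ X.b₂) :
    h ≤ η₁ * r ^ X.β := by
  rw [← rho_p hη₁ hp hr] at hH
  exact (Real.rpow_le_rpow_iff hh (by positivity) (ox_p_pos hX)).1 hH

lemma root_of_le (hX : X.OK m) (hη₁ : 0 < η₁) (hp : η₁ ^ (1 / 2 - 2 * X.e) = η) {r h : ℝ}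
    (hr : 0 < r) (hh : 0 ≤ h) (hH : h ≤ η₁ * r ^ X.β) :
    h ^ (1 / 2 - 2 * X.e) ≤ η * r ^ X.b₂ := by
  rw [← rho_p hη₁ hp hr]
  exact Real.rpow_le_rpow hh hH (ox_p_pos hX).le

end

variable {m n : ℕ} {E : Type*} [NormedAddCommGroup E] [InnerProductSpace ℝ E]
  [FiniteDimensional ℝ E] [MeasurableSpace E] [BorelSpace E]
  {Q : ℕ} {T : Submodule ℝ E} {ν : Measure E} {P : E → E →L[ℝ] E} {F : Frame m n T}
  {X : Exps} {η η₁ ε r r' h τ : ℝ} {u u' : Fin n → REF.E m → ℝ}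

/-- the height bound at the next radius -/
lemma next_height (hX : X.OK m) (hη : 0 < η) (hη₁ : 0 < η₁) (hη₁1 : η₁ ≤ 1)
    (hp : η₁ ^ (1 / 2 - 2 * X.e) = η) (hI : Inv m n T F ν X η ε u r h) {K CL : ℝ}
    (hs : SmB X K h) (hτ0 : 0 ≤ τ) (hCL : 0 ≤ CL) (hτ : 9 * CL * τ ^ 2 ≤ η₁)
    (hK : 36 * CL ≤ K) (hge : r * h ^ X.c₅ ≤ r') (hle : r' ≤ r) {h' : ℝ} (hh'0 : 0 ≤ h')
    (hdrop : h' ≤ h ^ (1 + X.c) ∨ r' = r * h ^ X.c₅)
    (hlong : h' ≤ CL * bb X τ η r h r' ^ 2) :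
    h' ^ (1 / 2 - 2 * X.e) ≤ η * r' ^ X.b₂ := by
  have hr := hI.r_pos
  have hr3 := hI.r_le
  have hh := hI.h_pos
  have hh1 := hs.le_one
  have hr' : 0 < r' := lt_of_lt_of_le (by positivity) hge
  have hhρ := le_of_root hX hη₁ hp hr hh.le hI.h_small
  have hc5 := hX.c₅_pos
  have hc5' := ox_c₅_le hX
  have hβ := hX.β_pos
  have hβ1 := hX.β_le
  have he := hX.e_pos
  have hec := ox_e_c₅ hX
  refine root_of_le hX hη₁ hp hr' hh'0 ?_
  rcases hdrop with hd | hd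
  · exact close_H hη₁ hr hr' hc5 (ox_c₅_c hX) hβ (by linarith) hh hh1 hhρ hge hd
  · refine hlong.trans ?_
    have h1 := close_L (b := X.β) (τ := τ) (C := CL) (e := X.e) (p := 1 / 2 - 2 * X.e) hη₁ hη₁1 hr
      (by linarith) hr' hle hc5 (by linarith) hβ (by linarith) (by linarith) he (by linarith) rfl
      (ox_p_pos hX).le hh hh1 hhρ hd hτ0 hCL hτ ?_ ?_
    · rw [rho_p hη₁ hp hr] at h1
      exact h1
    · refine le_trans ?_ hs.s1
      refine mul_le_mul_of_nonneg_right ?_ (by positivity)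
      linarith
    · refine le_trans ?_ hs.s2
      exact mul_le_mul_of_nonneg_right hK (by positivity)

/-- the affine part is small -/
lemma bb_le (hX : X.OK m) (hη : 0 < η) (hη₁ : 0 < η₁) (hη₁1 : η₁ ≤ 1)
    (hp : η₁ ^ (1 / 2 - 2 * X.e) = η) (hI : Inv m n T F ν X η ε u r h) {K : ℝ}
    (hs : SmB X K h) (hτ0 : 0 ≤ τ) (hτ : τ ^ 2 ≤ η₁) (hge : r * h ^ X.c₅ ≤ r') (hle : r' ≤ r) :
    bb X τ η r h r' ≤ 4 * (η * r' ^ X.b₂) := by
  have hr := hI.r_pos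
  have hr3 := hI.r_le
  have hh := hI.h_pos
  have hh1 := hs.le_one
  have hr' : 0 < r' := lt_of_lt_of_le (by positivity) hge
  have hhρ := le_of_root hX hη₁ hp hr hh.le hI.h_small
  have hc5 := hX.c₅_pos
  have hc5' := ox_c₅_le hX
  have hβ := hX.β_pos
  have hβ1 := hX.β_le
  have h1 := close_V (b := X.β) (τ := τ) (e := X.e) (p := 1 / 2 - 2 * X.e) hη₁ hη₁1 hr
    (by linarith) hr' hle hc5 (by linarith) hβ (by linarith) (by linarith) hX.e_pos rfl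
    (ox_p_pos hX).le hh hh1 hhρ hge hτ0 hτ
  rw [rho_p hη₁ hp hr, rho_p hη₁ hp hr'] at h1
  exact h1

/-- the derivatives at the next radius -/
lemma next_curv (hX : X.OK m) (hη : 0 < η) (hη₁ : 0 < η₁) (hη₁1 : η₁ ≤ 1)
    (hp : η₁ ^ (1 / 2 - 2 * X.e) = η) (hI : Inv m n T F ν X η ε u r h) {K : ℝ}
    (hs : SmB X K h) {τS : ℝ} (hO : StepOut m n Q T F u u' X.c₀ X.c₁ τS r h (th h) ν P)
    (hr' : 0 < r') (hle : r' ≤ r * (1 - 12 * th h)) (a : Fin n) {k : ℕ} (hk : 2 ≤ k)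
    (hks : k ≤ sW m) (x : REF.E m) :
    ‖iteratedFDeriv ℝ k (u' a) x‖ ≤ η * (r' * r'⁻¹ ^ k) * r' ^ X.b₂ := by
  have hr := hI.r_pos
  have hhρ := le_of_root hX hη₁ hp hr hI.h_pos.le hI.h_small
  have hβ := hX.β_pos
  have hβ1 := hX.β_le
  have h1 := close_K (e := X.e) (p := 1 / 2 - 2 * X.e) hη₁ hr hr' hle hs.th_pos hs.th_le
    hβ (by linarith) hX.e_pos rfl (ox_p_pos hX).le hI.h_pos hs.le_one hhρ (hs.e_th hX) hk
  rw [rho_p hη₁ hp hr, rho_p hη₁ hp hr'] at h1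
  refine (deriv_new hX hI hO hs.le_one a hk hks x).trans ?_
  calc η * (r * r⁻¹ ^ k) * r ^ X.b₂ + r * r⁻¹ ^ k * h ^ (1 / 2 - X.e)
      = r * r⁻¹ ^ k * (η * r ^ X.b₂) + r * r⁻¹ ^ k * h ^ (1 / 2 - X.e) := by ring
    _ ≤ r' * r'⁻¹ ^ k * (η * r' ^ X.b₂) := h1
    _ = _ := by ring

/-- the derivatives at the old radius -/
lemma old_curv (hX : X.OK m) (hη : 0 < η) (hI : Inv m n T F ν X η ε u r h)
    {τS θ : ℝ} (hO : StepOut m n Q T F u u' X.c₀ X.c₁ τS r h θ ν P) (hh1 : h ≤ 1)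
    (a : Fin n) {k : ℕ} (hk : 2 ≤ k) (hks : k ≤ sW m) (x : REF.E m) :
    ‖iteratedFDeriv ℝ k (u' a) x‖ ≤ 2 * (r * r⁻¹ ^ k * (η * r ^ X.b₂)) := by
  have hr := hI.r_pos
  have h1 : h ^ (1 / 2 - X.e) ≤ η * r ^ X.b₂ := by
    refine le_trans ?_ hI.h_small
    have := hX.e_pos
    exact Real.rpow_le_rpow_of_exponent_ge hI.h_pos hh1 (by linarith)
  refine (deriv_new hX hI hO hh1 a hk hks x).trans ?_
  calc η * (r * r⁻¹ ^ k) * r ^ X.b₂ + r * r⁻¹ ^ k * h ^ (1 / 2 - X.e)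
      ≤ η * (r * r⁻¹ ^ k) * r ^ X.b₂ + r * r⁻¹ ^ k * (η * r ^ X.b₂) := by gcongr
    _ = _ := by ring

/-- value and gradient at the centre -/
lemma cen_new (hη : 0 < η) (hr' : 0 < r') {D : ℝ} (hD : 0 ≤ D) {a : Fin n}
    (han : an (u' a) r' ≤ D * (r' * bb X τ η r h r'))
    (hbb : bb X τ η r h r' ≤ 4 * (η * r' ^ X.b₂)) :
    |u' a 0| ≤ 4 * D * η * (r' * r' ^ X.b₂) ∧
      ‖fderiv ℝ (u' a) 0‖ ≤ 4 * D * η * r' ^ X.b₂ := by
  have h1 : an (u' a) r' ≤ r' * (4 * D * η * r' ^ X.b₂) := by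
    refine han.trans ?_
    calc D * (r' * bb X τ η r h r') ≤ D * (r' * (4 * (η * r' ^ X.b₂))) := by gcongr
      _ = _ := by ring
  unfold an at h1
  have h2 := abs_nonneg (u' a 0)
  have h3 := norm_nonneg (fderiv ℝ (u' a) 0)
  constructor
  · have h4 : 0 ≤ r' * ‖fderiv ℝ (u' a) 0‖ := by positivity
    calc |u' a 0| ≤ r' * (4 * D * η * r' ^ X.b₂) := by linarith
      _ = _ := by ring
  · have h4 : r' * ‖fderiv ℝ (u' a) 0‖ ≤ r' * (4 * D * η * r' ^ X.b₂) := by linarith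
    exact le_of_mul_le_mul_left h4 hr'

/-- the trivial bound inside the window -/
lemma top_new (hX : X.OK m) (hL : LocB m Q T ν P X.β τ) (hτ0 : 0 ≤ τ) (hτ1 : τ ≤ 1)
    (hI : Inv m n T F ν X η ε u r h) {K : ℝ} (hs : SmB X K h)
    (hK : 2 + 2 * Mq m Q * n ^ 2 ≤ K)
    {τS : ℝ} (hO : StepOut m n Q T F u u' X.c₀ X.c₁ τS r h (th h) ν P) {t : ℝ}
    (hat : r * h ^ X.c₅ ≤ t) (htr : t ≤ r) :
    hN m T (F.lift u') ν t ≤ h ^ (1 - X.e') := by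
  have hr := hI.r_pos
  have hr3 := hI.r_le
  have hh := hI.h_pos
  have hh1 := hs.le_one
  have ht : 0 < t := lt_of_lt_of_le (by positivity) hat
  have hM1 := one_le_Mq m Q
  have hhalf := ox_half hX
  have hC := (hL.int (3 / 8) (by norm_num) le_rfl).cyl
  have h1 := top_gen (F := F) hC (ball_subset_ball (by linarith : r ≤ 3 / 8))
    (by linarith : 0 ≤ Mq m Q) (fun t ht htr => hL.mass hX.β_pos.le hτ0 hτ1 ht (by linarith)) hO
    hI.smooth hI.h_eq hh hh1 (by rw [hhalf]; have := hX.e_pos; positivity) ht htr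
  refine h1.trans ?_
  have h2 : (r / t) ^ (m + 2) * h ^ (1 - 2 * (X.c₁ / X.c₀)) ≤ h ^ X.c₅ * h ^ (1 - X.e') := by
    refine (mul_le_mul_of_nonneg_right (ratio_pow ht hh hat hr _) (by positivity)).trans ?_
    rw [← Real.rpow_add hh, ← Real.rpow_add hh]
    refine Real.rpow_le_rpow_of_exponent_ge hh hh1 ?_
    rw [hhalf, hX.e'_eq]
    push_cast
    linarith
  have h3 : h ^ X.c₅ ≤ h ^ (X.c₅ / 2) :=
    Real.rpow_le_rpow_of_exponent_ge hh hh1 (by have := hX.c₅_pos; linarith)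
  have h0 : 0 ≤ 2 + 2 * Mq m Q * n ^ 2 := by positivity
  calc (2 + 2 * Mq m Q * n ^ 2) * ((r / t) ^ (m + 2) * h ^ (1 - 2 * (X.c₁ / X.c₀)))
      ≤ K * (h ^ (X.c₅ / 2) * h ^ (1 - X.e')) :=
        mul_le_mul hK (h2.trans (by gcongr)) (by positivity) (h0.trans hK)
    _ = K * h ^ (X.c₅ / 2) * h ^ (1 - X.e') := by ring
    _ ≤ 1 * h ^ (1 - X.e') := by
        exact mul_le_mul_of_nonneg_right hs.s2 (by positivity)
    _ = _ := one_mul _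

/-- the hypotheses of STEP-S on the measure -/
lemma step_hypB (hX : X.OK m) (hL : LocB m Q T ν P X.β τ) {εS : ℝ} (hτ : 0 < τ) (hr : 0 < r)
    (hr3 : r ≤ 3 / 16) (hτS : τ ≤ εS / 2 ^ (m + 1)) :
    Skel.IntCyl m Q T 0 (2 * r) (εS * r) εS ν P ∧ Skel.exc T ν P 0 (2 * r) ≤ εS * r ^ m := by
  have hτS : τ * 2 ^ (m + 1) ≤ εS := by rwa [le_div_iff₀ (by positivity)] at hτS
  have h2m : (2:ℝ) ≤ 2 ^ (m + 1) := by
    calc (2:ℝ) = 2 ^ 1 := (pow_one 2).symm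
      _ ≤ 2 ^ (m + 1) := pow_le_pow_right₀ (by norm_num) (by omega)
  have hb : (2 * r) ^ X.β ≤ 1 :=
    Real.rpow_le_one (by positivity) (by linarith) hX.β_pos.le
  have hb0 : 0 ≤ (2 * r) ^ X.β := by positivity
  constructor
  · refine intCyl_mono (hL.int (2 * r) (by positivity) (by linarith)) ?_ ?_
    · have h1 : τ * 2 ≤ εS := (mul_le_mul_of_nonneg_left h2m hτ.le).trans hτS
      calc τ * (2 * r) * (2 * r) ^ X.β ≤ τ * (2 * r) * 1 := by gcongr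
        _ = τ * 2 * r := by ring
        _ ≤ εS * r := by gcongr
    · calc τ * (2 * r) ^ X.β ≤ τ * 1 := by gcongr
        _ ≤ τ * 2 ^ (m + 1) := by gcongr; linarith
        _ ≤ εS := hτS
  · refine (hL.exc (2 * r) (by positivity) (by linarith)).trans ?_
    calc τ * (2 * r) ^ m * (2 * r) ^ X.β ≤ τ * (2 * r) ^ m * 1 := by gcongr
      _ = τ * 2 ^ m * r ^ m := by rw [mul_pow]; ring
      _ ≤ εS * r ^ m := by
          refine mul_le_mul_of_nonneg_right (le_trans ?_ hτS) (by positivity)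
          exact mul_le_mul_of_nonneg_left (pow_le_pow_right₀ (by norm_num) (by omega)) hτ.le

end Vale.Agent.P214.BSEQ
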