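import Vale.Agent.P214.W5.OneStep

/-!
# P214, target B, block BSEQ: one step, ingredients

`next_rad`: the next radius, drop or long window.  `top_gen`: the trivial bound of the height of
the new reference.
-/

open Set Filter Topology MeasureTheory Metric
open scoped RealInnerProductSpace ENNReal ContDiff

set_option linter.all false

namespace Vale.Agent.P214.BSEQ

open WIN STR

variable {m n : ℕ} {E : Type*} [NormedAddCommGroup E] [InnerProductSpace ℝ E]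
  [FiniteDimensional ℝ E] [MeasurableSpace E] [BorelSpace E]
  {Q : ℕ} {T : Submodule ℝ E} {ν : Measure E} {P : E → E →L[ℝ] E} {F : Frame m n T}

/-- the next radius: the last scale where the height is small, or the left end -/
theorem next_rad {g : ℝ → ℝ} {a R t₀ : ℝ} (ht₀ : 0 < t₀) (ht₀R : t₀ ≤ R)
    (hlc : ∀ t, 0 < t → t ≤ R → Tendsto g (𝓝[<] t) (𝓝 (g t))) :
    ∃ r', t₀ ≤ r' ∧ r' ≤ R ∧ (g r' ≤ a ∨ r' = t₀) ∧ ∀ t, r' < t → t ≤ R → a < g t := by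
  by_cases h : ∃ t, t₀ ≤ t ∧ t ≤ R ∧ g t ≤ a
  · obtain ⟨t, h1, h2, h3⟩ := h
    obtain ⟨r', k1, k2, k3, k4⟩ := W5.next_scale (ht₀.trans_le h1) h2 h3 hlc
    exact ⟨r', h1.trans k1, k2, Or.inl k3, k4⟩
  · push Not at h
    exact ⟨t₀, le_rfl, ht₀R, Or.inr rfl, fun t ht htR => h t ht.le htR⟩

/-- left continuity of the height -/
lemma hN_left {G : Set E} {H t : ℝ} (hC : FV.CylStat m T G H ν P) (hG : ball 0 t ⊆ G)
    (ht : 0 < t) {u : Fin n → REF.E m → ℝ} (hu : ∀ a, ContDiff ℝ ∞ (u a)) :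
    Tendsto (hN m T (F.lift u) ν) (𝓝[<] t) (𝓝 (hN m T (F.lift u) ν t)) :=
  W5.hV_left hC hG ht (KMS.ref_lift (F := F) hu).contDiff_rel.continuous

/-- monotonicity of the normalised height up to powers of the ratio -/
lemma hN_le_ratio {G : Set E} {H t r : ℝ} (hC : FV.CylStat m T G H ν P) (hG : ball 0 r ⊆ G)
    {u : Fin n → REF.E m → ℝ} (hu : ∀ a, ContDiff ℝ ∞ (u a)) (ht : 0 < t) (htr : t ≤ r) :
    hN m T (F.lift u) ν t ≤ (r / t) ^ (m + 2) * hN m T (F.lift u) ν r := by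
  have hfin := hC.fin
  have hr : 0 < r := ht.trans_le htr
  have hv : Continuous (KMS.rel T (F.lift u)) := (KMS.ref_lift (F := F) hu).contDiff_rel.continuous
  have i1 := W5.integrableOn_sq hC hG hv
  have hsub : Skel.cylSet T 0 t ⊆ Skel.cylSet T 0 r := fun y hy => ball_subset_ball htr hy
  have h1 : ∫ y in Skel.cylSet T 0 t, ‖KMS.rel T (F.lift u) y‖ ^ 2 ∂ν
      ≤ ∫ y in Skel.cylSet T 0 r, ‖KMS.rel T (F.lift u) y‖ ^ 2 ∂ν :=
    setIntegral_mono_set i1 (Eventually.of_forall fun y => sq_nonneg _) hsub.eventuallyLE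
  have h2 : (t ^ (m + 2))⁻¹ = (r / t) ^ (m + 2) * (r ^ (m + 2))⁻¹ := by
    rw [div_pow]; field_simp
  show (t ^ (m + 2))⁻¹ * (∫ y in Skel.cylSet T 0 t, ‖KMS.rel T (F.lift u) y‖ ^ 2 ∂ν)
    ≤ (r / t) ^ (m + 2) * ((r ^ (m + 2))⁻¹
      * ∫ y in Skel.cylSet T 0 r, ‖KMS.rel T (F.lift u) y‖ ^ 2 ∂ν)
  rw [h2, mul_assoc]
  gcongr

/-- **the trivial bound of the height of the new reference** -/
theorem top_gen {G : Set E} {H M r h θ τ c₀ c₁ : ℝ} (hC : FV.CylStat m T G H ν P)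
    (hG : ball 0 r ⊆ G) (hM : 0 ≤ M)
    (hmass : ∀ t, 0 < t → t ≤ r → ν.real (Skel.cylSet T 0 t) ≤ M * t ^ m)
    {u u' : Fin n → REF.E m → ℝ} (hO : StepOut m n Q T F u u' c₀ c₁ τ r h θ ν P)
    (hu : ∀ a, ContDiff ℝ ∞ (u a)) (hh : h = hN m T (F.lift u) ν r) (hh0 : 0 < h) (hh1 : h ≤ 1)
    (hc : 0 ≤ c₁ / c₀) {t : ℝ} (ht : 0 < t) (htr : t ≤ r) :
    hN m T (F.lift u') ν t
      ≤ (2 + 2 * M * n ^ 2) * ((r / t) ^ (m + 2) * h ^ (1 - 2 * (c₁ / c₀))) := by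
  have hr : 0 < r := ht.trans_le htr
  have hcu : Continuous (KMS.rel T (F.lift u)) := (KMS.ref_lift (F := F) hu).contDiff_rel.continuous
  have hcu' : Continuous (KMS.rel T (F.lift u')) :=
    (KMS.ref_lift (F := F) hO.smooth).contDiff_rel.continuous
  have h1 := W5.hV_change hC ((ball_subset_ball htr).trans hG) hcu hcu' ht
    (d := n * (r * h ^ (1 / 2 - c₁ / c₀))) (fun y _ => by
      have h2 : ‖F.lift u' y - F.lift u y‖ ≤ n * (r * h ^ (1 / 2 - c₁ / c₀)) :=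
        WIN.norm_lift_sub_le F fun a => W5.size_zero hO a _
      have h3 : KMS.rel T (F.lift u') y - KMS.rel T (F.lift u) y
          = -(F.lift u' y - F.lift u y) := by unfold KMS.rel; abel
      rw [h3, norm_neg]; exact h2) (hmass t ht htr)
  have h2 := hN_le_ratio (F := F) hC hG hu ht htr
  rw [← hh] at h2
  have h1' : hN m T (F.lift u') ν t ≤ 2 * hN m T (F.lift u) ν t
      + 2 * M * (n * (r * h ^ (1 / 2 - c₁ / c₀)) / t) ^ 2 := h1
  refine h1'.trans ?_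
  have hpow : h ≤ h ^ (1 - 2 * (c₁ / c₀)) := by
    calc h = h ^ (1:ℝ) := (Real.rpow_one h).symm
      _ ≤ _ := Real.rpow_le_rpow_of_exponent_ge hh0 hh1 (by linarith)
  have hrt : 1 ≤ r / t := by rw [one_le_div ht]; exact htr
  have e1 : (n * (r * h ^ (1 / 2 - c₁ / c₀)) / t) ^ 2
      = n ^ 2 * (r / t) ^ 2 * h ^ (1 - 2 * (c₁ / c₀)) := by
    rw [div_pow, mul_pow, mul_pow, W5.rpow_sq hh0, div_pow]
    rw [show 2 * (1 / 2 - c₁ / c₀) = 1 - 2 * (c₁ / c₀) by ring]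
    ring
  have h3 : (r / t) ^ 2 ≤ (r / t) ^ (m + 2) := pow_le_pow_right₀ hrt (by omega)
  rw [e1]
  have hp : 0 ≤ h ^ (1 - 2 * (c₁ / c₀)) := by positivity
  calc 2 * hN m T (F.lift u) ν t + 2 * M * (n ^ 2 * (r / t) ^ 2 * h ^ (1 - 2 * (c₁ / c₀)))
      ≤ 2 * ((r / t) ^ (m + 2) * h ^ (1 - 2 * (c₁ / c₀)))
        + 2 * M * (n ^ 2 * (r / t) ^ (m + 2) * h ^ (1 - 2 * (c₁ / c₀))) := by
        gcongr
        exact h2.trans (by gcongr)
    _ = _ := by ring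

end Vale.Agent.P214.BSEQ
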