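import Vale.Agent.P214.BSEQ.Inv
import Vale.Agent.P214.BSEQ.Arith
import Vale.Agent.P214.BSEQ.OneA
import Vale.Agent.P214.WSEQ.Exps
import Vale.Agent.P214.STR.Parts

/-!
# P214, target B, block BSEQ: exponents, small heights, derivatives of the new reference
-/

open Set Filter Topology MeasureTheory Metric
open scoped RealInnerProductSpace ENNReal ContDiff

set_option linter.all false

namespace Vale.Agent.P214.BSEQ

open WIN STR WSEQ

section exps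

variable {X : Exps} {m : ℕ} (hX : X.OK m)
include hX

lemma ox_c₅_le : X.c₅ ≤ 1 / 160 := by
  have h1 := hX.c₅_small
  have h2 := hX.e_pos
  have h3 := hX.c₅_pos
  have hm : (0:ℝ) ≤ m := Nat.cast_nonneg m
  nlinarith

lemma ox_e_c₅ : 32 * X.e ≤ X.c₅ := by
  have h1 := hX.e_le
  have h2 := hX.β_le
  have h3 := hX.c₅_pos
  nlinarith

lemma ox_e_le : X.e ≤ 1 / 5120 := by
  have h1 := ox_c₅_le hX
  have h2 := ox_e_c₅ hX
  linarith

lemma ox_half : X.c₁ / X.c₀ = X.e / 2 := by rw [hX.e_c₁]; ring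

lemma ox_c₁_e : X.c₁ ≤ X.e := by
  have h1 := ox_half hX
  have h2 := hX.c₀_pos
  have h3 := hX.c₀_le
  rw [div_eq_iff h2.ne'] at h1
  have h4 := hX.e_pos
  nlinarith

lemma ox_c₅_c : X.c₅ ≤ X.c := by
  have h1 := hX.e'_eq
  have h2 := hX.e'_le
  have h3 := hX.e_pos
  have h4 := hX.c₅_pos
  have h5 := hX.c_pos
  have hm : (0:ℝ) ≤ m := Nat.cast_nonneg m
  nlinarith

lemma ox_p_pos : 0 < 1 / 2 - 2 * X.e := by
  have := ox_e_le hX; linarith

lemma ox_b₂_pos : 0 < X.b₂ := mul_pos hX.β_pos (ox_p_pos hX)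

lemma ox_b₂_ge : X.β / 4 ≤ X.b₂ := by
  unfold Exps.b₂
  have := ox_e_le hX
  have := hX.β_pos
  nlinarith

end exps

/-- what is needed of a small height -/
structure SmB (X : Exps) (K h : ℝ) : Prop where
  pos : 0 < h
  le_one : h ≤ 1
  th_ge : h ^ X.c₁ ≤ th h
  th_pos : 0 < th h
  th_le : th h ≤ 1 / 120
  s1 : K * h ^ (1 / 4 : ℝ) ≤ 1
  s2 : K * h ^ (X.c₅ / 2) ≤ 1
  s3 : h ^ X.c₅ ≤ 1 / 2

theorem exists_smB {X : Exps} {m : ℕ} (hX : X.OK m) (K : ℝ) {b : ℝ} (hb : 0 < b) :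
    ∃ η : ℝ, 0 < η ∧ η ≤ b ∧ ∀ h, 0 < h → h ≤ η → SmB X K h := by
  obtain ⟨e₁, he₁, he₁', h1⟩ := exists_th hX.c₁_pos (show (0:ℝ) < 1 / 120 by norm_num)
  obtain ⟨e₂, he₂, h2⟩ := exists_small K (show (0:ℝ) < 1 / 4 by norm_num)
  obtain ⟨e₃, he₃, h3⟩ := exists_small K (half_pos hX.c₅_pos)
  obtain ⟨e₄, he₄, h4⟩ := exists_small 2 hX.c₅_pos
  refine ⟨min (min b 1) (min (min e₁ e₂) (min e₃ e₄)), by positivity,
    (min_le_left _ _).trans (min_le_left _ _), fun h hh hhe => ?_⟩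
  have a0 := hhe.trans (min_le_left _ _)
  have a1 := hhe.trans (min_le_right _ _)
  have a2 := a1.trans (min_le_left _ _)
  have a3 := a1.trans (min_le_right _ _)
  obtain ⟨b1, b2, b3⟩ := h1 h hh (a2.trans (min_le_left _ _))
  have b4 := h4 h hh (a3.trans (min_le_right _ _))
  exact ⟨hh, a0.trans (min_le_right _ _), b1, b2, b3,
    h2 h hh (a2.trans (min_le_right _ _)), h3 h hh (a3.trans (min_le_left _ _)), by linarith⟩

lemma SmB.e_th {X : Exps} {K h : ℝ} {m : ℕ} (hs : SmB X K h) (hX : X.OK m) : h ^ X.e ≤ th h :=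
  (Real.rpow_le_rpow_of_exponent_ge hs.pos hs.le_one (ox_c₁_e hX)).trans hs.th_ge

variable {m n : ℕ} {E : Type*} [NormedAddCommGroup E] [InnerProductSpace ℝ E]
  [FiniteDimensional ℝ E] [MeasurableSpace E] [BorelSpace E]
  {Q : ℕ} {T : Submodule ℝ E} {ν : Measure E} {P : E → E →L[ℝ] E} {F : Frame m n T}
  {X : Exps} {η ε r h τ : ℝ} {u u' : Fin n → REF.E m → ℝ}

lemma norm_iter_one' {f : REF.E m → ℝ} (x : REF.E m) :
    ‖iteratedFDeriv ℝ 1 f x‖ = ‖fderiv ℝ f x‖ := by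
  rw [← norm_iteratedFDeriv_fderiv, norm_iteratedFDeriv_zero]

/-- the reference of the state is small in scaled norms -/
lemma Inv.refS (hI : Inv m n T F ν X η ε u r h) (hX : X.OK m) (hη : 0 < η) (hηε : η ≤ ε) :
    RefS ε r u := by
  have hr := hI.r_pos
  have hr1 : r ^ X.b₂ ≤ 1 := Real.rpow_le_one hr.le (by linarith [hI.r_le]) (ox_b₂_pos hX).le
  refine ⟨hI.smooth, hI.supp, hI.val, fun a k h1 h2 x => ?_, hI.exact⟩
  rcases h1.eq_or_lt with h3 | h3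
  · rw [← h3, norm_iter_one', pow_one, mul_inv_cancel₀ hr.ne', mul_one]
    exact hI.slope a x
  · refine (hI.curv a k h3 h2 x).trans ?_
    have h4 : 0 < r * r⁻¹ ^ k := by positivity
    calc η * (r * r⁻¹ ^ k) * r ^ X.b₂ ≤ η * (r * r⁻¹ ^ k) * 1 := by gcongr
      _ = η * (r * r⁻¹ ^ k) := mul_one _
      _ ≤ ε * (r * r⁻¹ ^ k) := by gcongr

/-- derivatives of order at least two of the new reference -/
lemma deriv_new (hX : X.OK m) (hI : Inv m n T F ν X η ε u r h)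
    {τS θ : ℝ} (hO : StepOut m n Q T F u u' X.c₀ X.c₁ τS r h θ ν P) (hh1 : h ≤ 1) (a : Fin n)
    {k : ℕ} (hk : 2 ≤ k) (hks : k ≤ sW m) (x : REF.E m) :
    ‖iteratedFDeriv ℝ k (u' a) x‖
      ≤ η * (r * r⁻¹ ^ k) * r ^ X.b₂ + r * r⁻¹ ^ k * h ^ (1 / 2 - X.e) := by
  have hr := hI.r_pos
  have h1 := hO.size a k hks x
  have h2 := hI.curv a k hk hks x
  have e1 : u' a = fun x => (u' a x - u a x) + u a x := by funext x; ring
  have hc : ∀ (v : REF.E m → ℝ), ContDiff ℝ ∞ v → ContDiffAt ℝ k v x :=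
    fun v hv => (hv.of_le (by exact_mod_cast le_top)).contDiffAt
  rw [e1, fun_iteratedFDeriv_add_apply (hc _ ((hO.smooth a).sub (hI.smooth a)))
    (hc _ (hI.smooth a))]
  refine (norm_add_le _ _).trans ?_
  have h3 : h ^ (1 / 2 - X.c₁ / X.c₀) ≤ h ^ (1 / 2 - X.e) := by
    refine Real.rpow_le_rpow_of_exponent_ge hI.h_pos hh1 ?_
    rw [ox_half hX]
    have := hX.e_pos
    linarith
  have h4 : r * r⁻¹ ^ k * h ^ (1 / 2 - X.c₁ / X.c₀) ≤ r * r⁻¹ ^ k * h ^ (1 / 2 - X.e) := by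
    gcongr
  linarith

/-- the second derivatives bound the oscillation of the first ones -/
lemma fderiv_osc {f : REF.E m → ℝ} (hf : ContDiff ℝ ∞ f) {κ : ℝ}
    (hκ : ∀ x, ‖iteratedFDeriv ℝ 2 f x‖ ≤ κ) (x : REF.E m) :
    ‖fderiv ℝ f x - fderiv ℝ f 0‖ ≤ κ * ‖x‖ := by
  have h1 : ContDiff ℝ ∞ (fderiv ℝ f) := hf.fderiv_right (by exact_mod_cast le_top)
  have h2 : ∀ y, ‖fderiv ℝ (fderiv ℝ f) y‖ ≤ κ := fun y => by
    have h3 : ‖fderiv ℝ (fderiv ℝ f) y‖ = ‖iteratedFDeriv ℝ 2 f y‖ := by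
      rw [← norm_iteratedFDeriv_fderiv (n := 1), ← norm_iteratedFDeriv_fderiv,
        norm_iteratedFDeriv_zero]
    rw [h3]; exact hκ y
  have h3 := Convex.norm_image_sub_le_of_norm_fderiv_le (𝕜 := ℝ) (s := Set.univ)
    (f := fderiv ℝ f) (fun y _ => (h1.differentiable (by simp)) y) (fun y _ => h2 y) convex_univ
    (mem_univ (0 : REF.E m)) (mem_univ x)
  rwa [sub_zero] at h3

/-- the slope of the new reference -/
lemma slope_new (hI : Inv m n T F ν X η ε u r h)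
    {τS θ : ℝ} (hO : StepOut m n Q T F u u' X.c₀ X.c₁ τS r h θ ν P) {a : Fin n} {κ B : ℝ}
    (hκ : ∀ x, ‖iteratedFDeriv ℝ 2 (u' a) x‖ ≤ κ) (hB : ‖fderiv ℝ (u' a) 0‖ ≤ B)
    (hle : B + κ * r ≤ ε) (x : REF.E m) : ‖fderiv ℝ (u' a) x‖ ≤ ε := by
  rcases lt_or_ge r ‖x‖ with hx | hx
  · have h1 : u' a =ᶠ[𝓝 x] u a := by
      have h2 : ∀ᶠ y in 𝓝 x, r < ‖y‖ := continuous_norm.continuousAt.eventually (lt_mem_nhds hx)
      filter_upwards [h2] with y hy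
      exact hO.outside a y hy.le
    rw [h1.fderiv_eq]
    exact hI.slope a x
  · have h1 := fderiv_osc (hO.smooth a) hκ x
    have hκ0 : 0 ≤ κ := (norm_nonneg _).trans (hκ 0)
    have h2 : ‖fderiv ℝ (u' a) x‖ ≤ ‖fderiv ℝ (u' a) x - fderiv ℝ (u' a) 0‖
        + ‖fderiv ℝ (u' a) 0‖ := by
      have := norm_add_le (fderiv ℝ (u' a) x - fderiv ℝ (u' a) 0) (fderiv ℝ (u' a) 0)
      rwa [sub_add_cancel] at this
    have h3 : κ * ‖x‖ ≤ κ * r := by gcongr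
    linarith

end Vale.Agent.P214.BSEQ
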