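import Vale.Agent.P214.BSEQ.PowA

/-!
# P214, target B, block BSEQ: value and gradient of the reference at the centre

From the weak smallness of the relative height and the planar height: the affine part of the
reference at the centre is small, hence the height relative to the reference is small.
-/

open Set Filter Topology MeasureTheory Metric
open scoped RealInnerProductSpace ENNReal ContDiff

set_option linter.all false

namespace Vale.Agent.P214.BSEQ

open WIN STR WSEQ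

noncomputable section

variable {m n : ℕ}

lemma tstR_add {K : ℕ} {r ρ M₁ M₂ : ℝ} {φ ψ : Fin n → REF.E m → ℝ} (h1 : TstR K r ρ M₁ φ)
    (h2 : TstR K r ρ M₂ ψ) : TstR K r ρ (M₁ + M₂) (fun b x => φ b x + ψ b x) := by
  refine ⟨fun a => (h1.smooth a).add (h2.smooth a), fun a x hx => ?_, fun a k hk x => ?_⟩
  · rw [h1.supp a x hx, h2.supp a x hx, add_zero]
  · have e1 : iteratedFDeriv ℝ k (fun x => φ a x + ψ a x) x
        = iteratedFDeriv ℝ k (φ a) x + iteratedFDeriv ℝ k (ψ a) x :=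
      iteratedFDeriv_add_apply ((h1.smooth a).contDiffAt.of_le (by exact_mod_cast le_top))
        ((h2.smooth a).contDiffAt.of_le (by exact_mod_cast le_top))
    rw [e1, add_mul]
    exact (norm_add_le _ _).trans (add_le_add (h1.bd a k hk x) (h2.bd a k hk x))

lemma tstR_smul {K : ℕ} {r ρ M : ℝ} {φ : Fin n → REF.E m → ℝ} (h : TstR K r ρ M φ) (c : ℝ) :
    TstR K r ρ (|c| * M) (fun b x => c * φ b x) := by
  refine ⟨fun a => contDiff_const.mul (h.smooth a), fun a x hx => ?_, fun a k hk x => ?_⟩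
  · rw [h.supp a x hx, mul_zero]
  · have e1 : iteratedFDeriv ℝ k (fun x => c * φ a x) x = c • iteratedFDeriv ℝ k (φ a) x :=
      iteratedFDeriv_const_smul_apply (a := c)
        ((h.smooth a).contDiffAt.of_le (by exact_mod_cast le_top))
    rw [e1, norm_smul, Real.norm_eq_abs, mul_assoc]
    exact mul_le_mul_of_nonneg_left (h.bd a k hk x) (abs_nonneg _)

lemma tstR_zero {K : ℕ} {r ρ : ℝ} : TstR K r ρ 0 (fun (_ : Fin n) (_ : REF.E m) => (0:ℝ)) := by
  refine ⟨fun a => contDiff_const, fun a x hx => rfl, fun a k hk x => ?_⟩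
  have h3 : iteratedFDeriv ℝ k (fun _ : REF.E m => (0:ℝ)) x = 0 := by
    have := iteratedFDeriv_fun_zero (𝕜 := ℝ) (E := REF.E m) (F := ℝ) (n := k)
    exact congrFun this x
  rw [h3, norm_zero, zero_mul]

lemma tstR_sum {K : ℕ} {r ρ : ℝ} {ι : Type*} (S : Finset ι) {M : ι → ℝ}
    {φ : ι → Fin n → REF.E m → ℝ} (h : ∀ i ∈ S, TstR K r ρ (M i) (φ i)) :
    TstR K r ρ (∑ i ∈ S, M i) (fun b x => ∑ i ∈ S, φ i b x) := by
  classical
  induction S using Finset.induction_on with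
  | empty => simpa using tstR_zero
  | insert i S hi ih =>
    have h1 := tstR_add (h i (Finset.mem_insert_self _ _))
      (ih fun j hj => h j (Finset.mem_insert_of_mem hj))
    simpa [Finset.sum_insert hi] using h1

/-- the affine test function -/
lemma tstR_af {K : ℕ} {C : ℝ} (hC0 : 0 ≤ C)
    (h1 : ∀ k ≤ K, ∀ x, ‖iteratedFDeriv ℝ k (tb m : REF.E m → ℝ) x‖ ≤ C)
    (h2 : ∀ i : Fin m, ∀ k ≤ K, ∀ x, ‖iteratedFDeriv ℝ k (xb i : REF.E m → ℝ) x‖ ≤ C)
    (f : REF.E m → ℝ) {s : ℝ} (hs : 0 < s) (a : Fin n) :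
    ∃ M : ℝ, 0 ≤ M ∧ M ≤ C * (m + 1) * an f s ∧
      TstR K s s M (fun b x => if b = a then af f x * eta 0 s x else 0) := by
  have t0 := tstR_smul (tstR_tf (K := K) (tb m).contDiff (fun x hx => tb_zero hx) hC0 h1 hs a)
    (f 0)
  have t1 := tstR_sum (Finset.univ : Finset (Fin m)) fun i _ => tstR_smul
    (tstR_tf (K := K) (contDiff_xb i) (fun x hx => xb_zero i hx) hC0 (h2 i) hs a)
    (s * fderiv ℝ f 0 (EuclideanSpace.single i 1))
  have t2 := tstR_add t0 t1
  refine ⟨|f 0| * C + ∑ i : Fin m, |s * fderiv ℝ f 0 (EuclideanSpace.single i 1)| * C,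
    by positivity, ?_, ?_⟩
  · have h3 : ∀ i : Fin m, |s * fderiv ℝ f 0 (EuclideanSpace.single i 1)| * C
        ≤ (s * ‖fderiv ℝ f 0‖) * C := by
      intro i
      refine mul_le_mul_of_nonneg_right ?_ hC0
      rw [abs_mul, abs_of_pos hs]
      refine mul_le_mul_of_nonneg_left ?_ hs.le
      have h4 := (fderiv ℝ f 0).le_opNorm (EuclideanSpace.single i (1:ℝ))
      rw [EuclideanSpace.norm_single, norm_one, mul_one] at h4
      exact h4
    calc |f 0| * C + ∑ i : Fin m, |s * fderiv ℝ f 0 (EuclideanSpace.single i 1)| * C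
        ≤ |f 0| * C + ∑ i : Fin m, (s * ‖fderiv ℝ f 0‖) * C :=
          add_le_add le_rfl (Finset.sum_le_sum fun i _ => h3 i)
      _ = C * |f 0| + C * m * (s * ‖fderiv ℝ f 0‖) := by
          rw [Finset.sum_const, Finset.card_univ, Fintype.card_fin, nsmul_eq_mul]; ring
      _ ≤ C * (m + 1) * an f s := by
          unfold an
          have h5 : 0 ≤ C * |f 0| * m := by positivity
          have h6 : 0 ≤ C * (s * ‖fderiv ℝ f 0‖) := by positivity
          nlinarith
  · have e1 : (fun (b : Fin n) x => if b = a then af f x * eta 0 s x else 0)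
        = fun b x => f 0 * tf (tb m : REF.E m → ℝ) s a b x + ∑ i : Fin m,
          s * fderiv ℝ f 0 (EuclideanSpace.single i 1) * tf (xb i) s a b x := by
      funext b x
      unfold tf
      by_cases hb : b = a
      · simp only [if_pos hb]
        exact af_eq f hs x
      · simp [if_neg hb]
    rw [e1]
    exact t2

variable {E : Type*} [NormedAddCommGroup E] [InnerProductSpace ℝ E] [FiniteDimensional ℝ E]
  [MeasurableSpace E] [BorelSpace E]

lemma abs_inner_bN_le {T : Submodule ℝ E} (F : Frame m n T) (a : Fin n) (y : E) :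
    |⟪((F.bN a : Tᗮ) : E), y⟫| ≤ ‖y - T.starProjection y‖ := by
  have h4 : ⟪((F.bN a : Tᗮ) : E), y⟫ = ⟪((F.bN a : Tᗮ) : E), y - T.starProjection y⟫ := by
    rw [inner_sub_right, (Submodule.mem_orthogonal' T _).1 (F.bN a).2 _
      (T.starProjection_apply_mem y), sub_zero]
  rw [h4]
  calc _ ≤ ‖((F.bN a : Tᗮ) : E)‖ * ‖y - T.starProjection y‖ := abs_real_inner_le_norm _ _
    _ = ‖y - T.starProjection y‖ := by
        have : ‖((F.bN a : Tᗮ) : E)‖ = 1 := F.bN.orthonormal.1 a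
        rw [this, one_mul]

/-- the function which is integrated -/
lemma affine_int {T : Submodule ℝ E} (F : Frame m n T) {ν : Measure E} [IsFiniteMeasure ν]
    {u : Fin n → REF.E m → ℝ} {s κ σ : ℝ} (hs : 0 < s) (hσ : 0 ≤ σ)
    (hu : ∀ a, ContDiff ℝ ∞ (u a))
    (hκ : ∀ a x, ‖x‖ < s → ‖iteratedFDeriv ℝ 2 (u a) x‖ ≤ κ)
    (hslab : ∀ᵐ y ∂ν, ‖T.starProjection y‖ < s → ‖y - T.starProjection y‖ ≤ σ) (a : Fin n) :
    ∫ y, eta 0 s (F.xc y) * (af (u a) (F.xc y)) ^ 2 ∂ν
      ≤ an (u a) s * (κ * s ^ 2 + σ) * ν.real (Skel.cylSet T 0 s)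
        + |∫ y, af (u a) (F.xc y) * eta 0 s (F.xc y) * F.ht u a y ∂ν| := by
  have hκ0 : 0 ≤ κ := (norm_nonneg _).trans (hκ a 0 (by rwa [norm_zero]))
  have hcx : Continuous F.xc := continuous_xc F
  have hA0 := an_nonneg (u a) hs.le
  have hcy : MeasurableSet (Skel.cylSet T (0:E) s) :=
    (isOpen_ball.preimage T.starProjection.continuous).measurableSet
  have hmem : ∀ y, y ∈ Skel.cylSet T (0:E) s ↔ ‖F.xc y‖ < s := fun y => by
    show T.starProjection y ∈ ball (0:E) s ↔ _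
    rw [mem_ball_zero_iff, norm_xc F]
  set G : E → ℝ := fun y => eta 0 s (F.xc y) * af (u a) (F.xc y) *
    ((af (u a) (F.xc y) - u a (F.xc y)) + ⟪((F.bN a : Tᗮ) : E), y⟫) with hG
  have hGc : Continuous G := by
    refine (((continuous_eta 0 s).comp hcx).mul ((continuous_af (u a)).comp hcx)).mul
      ((((continuous_af (u a)).comp hcx).sub ((hu a).continuous.comp hcx)).add ?_)
    exact continuous_const.inner continuous_id
  have hGb : ∀ᵐ y ∂ν, ‖G y‖ ≤ (Skel.cylSet T (0:E) s).indicator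
      (fun _ => an (u a) s * (κ * s ^ 2 + σ)) y := by
    filter_upwards [hslab] with y hy
    by_cases hyx : ‖F.xc y‖ < s
    · rw [indicator_of_mem ((hmem y).2 hyx)]
      have h1 := hy (by rwa [norm_xc F] at hyx)
      have h2 := abs_sub_af_le (hu a) hs (hκ a) hyx
      have h3 := abs_af_le (u a) hyx.le
      have h4 := abs_inner_bN_le F a y
      have h5 := abs_eta_le 0 s (F.xc y)
      rw [hG, Real.norm_eq_abs, abs_mul, abs_mul]
      have h6 : |(af (u a) (F.xc y) - u a (F.xc y)) + ⟪((F.bN a : Tᗮ) : E), y⟫|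
          ≤ κ * s ^ 2 + σ := by
        refine (abs_add_le _ _).trans (add_le_add ?_ (h4.trans h1))
        rw [abs_sub_comm]
        exact h2
      calc _ ≤ (1 * an (u a) s) * (κ * s ^ 2 + σ) := by gcongr
        _ = _ := by rw [one_mul]
    · have h1 : G y = 0 := by
        rw [hG]
        simp only
        rw [eta_zero hs (by rw [sub_zero]; exact not_lt.1 hyx), zero_mul, zero_mul]
      rw [h1, norm_zero]
      exact indicator_nonneg (fun _ _ => by positivity) _
  have hci : Integrable ((Skel.cylSet T (0:E) s).indicator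
      (fun _ => an (u a) s * (κ * s ^ 2 + σ))) ν :=
    (integrable_const _).indicator hcy
  have hGi : Integrable G ν := hci.mono' hGc.aestronglyMeasurable hGb
  have hsq : Integrable (fun y => eta 0 s (F.xc y) * (af (u a) (F.xc y)) ^ 2) ν := by
    refine Integrable.mono' (integrable_const ((an (u a) s) ^ 2))
      (((continuous_eta 0 s).comp hcx).mul
        (((continuous_af (u a)).comp hcx).pow 2)).aestronglyMeasurable
      (Eventually.of_forall fun y => ?_)
    by_cases hyx : ‖F.xc y‖ < s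
    · have h3 := abs_af_le (u a) hyx.le
      have h5 := abs_eta_le 0 s (F.xc y)
      rw [Real.norm_eq_abs, abs_mul, abs_pow]
      calc _ ≤ 1 * (an (u a) s) ^ 2 := by gcongr
        _ = _ := one_mul _
    · rw [eta_zero hs (by rw [sub_zero]; exact not_lt.1 hyx), zero_mul, norm_zero]
      positivity
  have e1 : ∀ y, af (u a) (F.xc y) * eta 0 s (F.xc y) * F.ht u a y
      = G y - eta 0 s (F.xc y) * (af (u a) (F.xc y)) ^ 2 := fun y => by
    simp only [hG, Frame.ht]
    ring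
  have e2 : ∫ y, af (u a) (F.xc y) * eta 0 s (F.xc y) * F.ht u a y ∂ν
      = ∫ y, G y ∂ν - ∫ y, eta 0 s (F.xc y) * (af (u a) (F.xc y)) ^ 2 ∂ν := by
    simp only [e1]
    exact integral_sub hGi hsq
  have e3 : ∫ y, G y ∂ν ≤ an (u a) s * (κ * s ^ 2 + σ) * ν.real (Skel.cylSet T 0 s) := by
    have h1 : ‖∫ y, G y ∂ν‖ ≤ ∫ y, (Skel.cylSet T (0:E) s).indicator
      (fun _ => an (u a) s * (κ * s ^ 2 + σ)) y ∂ν := norm_integral_le_of_norm_le hci hGb
    rw [integral_indicator hcy, setIntegral_const, smul_eq_mul, mul_comm] at h1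
    exact (le_abs_self _).trans h1
  have e4 := neg_abs_le (∫ y, af (u a) (F.xc y) * eta 0 s (F.xc y) * F.ht u a y ∂ν)
  linarith

/-- **value and gradient of a reference at the centre** -/
theorem val_grad (E : Type*) [NormedAddCommGroup E] [InnerProductSpace ℝ E]
    [FiniteDimensional ℝ E] [MeasurableSpace E] [BorelSpace E] (m n : ℕ) :
    ∃ C : ℝ, 1 ≤ C ∧ ∀ {T : Submodule ℝ E} (F : Frame m n T) {ν : Measure E} [IsFiniteMeasure ν]
      {u₀ u : Fin n → REF.E m → ℝ} {s κ σ W V Mm : ℝ} {Q : ℕ}, 1 ≤ Q → 0 < s → 0 ≤ σ →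
      (∀ a, ContDiff ℝ ∞ (u₀ a)) → (∀ a, ContDiff ℝ ∞ (u a)) →
      (∀ a x, ‖x‖ < s → ‖iteratedFDeriv ℝ 2 (u a) x‖ ≤ κ) →
      (∀ᵐ y ∂ν, ‖T.starProjection y‖ < s → ‖y - T.starProjection y‖ ≤ σ) →
      (∀ (φ : Fin n → REF.E m → ℝ) (M : ℝ), TstR (sW m) s s M φ →
        |∫ y, ∑ a, φ a (F.xc y) * F.ht u a y ∂ν| ≤ W * M) →
      (∀ (ψ : REF.E m → ℝ) (M : ℝ), Continuous ψ → (∀ x, s ≤ ‖x‖ → ψ x = 0) →
        (∀ x, |ψ x| ≤ M) →
        |∫ y, ψ (F.xc y) ∂ν - Q * ∫ x, ψ x * √(REF.gm u₀ x).det ∂μH[m]| ≤ V * M) →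
      C * V ≤ s ^ m → ν.real (Skel.cylSet T 0 s) ≤ Mm * s ^ m → 0 ≤ W → 0 ≤ Mm →
      ∀ a, an (u a) s ≤ C * (Mm * (σ + κ * s ^ 2) + (s ^ m)⁻¹ * W) := by
  obtain ⟨c, hc, hc1, hlow⟩ := lower_af m
  obtain ⟨B, hB1, hBt, hBx⟩ := exists_model_bound m (sW m)
  refine ⟨2 / c * (B * (m + 1)), ?_, ?_⟩
  · have h1 : 2 ≤ 2 / c := by rw [le_div_iff₀ hc]; linarith
    have h2 : (1:ℝ) ≤ B * (m + 1) := by
      have : (0:ℝ) ≤ m := Nat.cast_nonneg m
      nlinarith
    nlinarith
  intro T F ν hν u₀ u s κ σ W V Mm Q hQ hs hσ hu0 hu hκ hslab hweak hmass hCV hMm hW hMm0 a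
  have hκ0 : 0 ≤ κ := (norm_nonneg _).trans (hκ a 0 (by rwa [norm_zero]))
  have hsm : 0 < s ^ m := by positivity
  have hm0 : (0:ℝ) ≤ m := Nat.cast_nonneg m
  have hBm : 1 ≤ B * (m + 1) := by nlinarith
  set A := an (u a) s with hA
  have hA0 : 0 ≤ A := an_nonneg (u a) hs.le
  obtain ⟨M, hM0, hMle, hT⟩ := tstR_af (n := n) (by linarith) hBt hBx (u a) hs a
  have h1 := hweak _ M hT
  have e1 : ∀ y, ∑ b, (if b = a then af (u a) (F.xc y) * eta 0 s (F.xc y) else 0) * F.ht u b y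
      = af (u a) (F.xc y) * eta 0 s (F.xc y) * F.ht u a y := fun y => by
    simp [Finset.sum_ite_eq']
  simp only [e1] at h1
  have h2 := affine_int F hs hσ hu hκ hslab a
  -- lower bound of the mass
  have h3 := hmass (fun x => eta 0 s x * (af (u a) x) ^ 2) (A ^ 2)
    ((continuous_eta 0 s).mul ((continuous_af _).pow 2)) (fun x hx => ?_) fun x => ?_
  rotate_left
  · rw [eta_zero hs (by rw [sub_zero]; exact hx), zero_mul]
  · by_cases hx : ‖x‖ < s
    · have h3 := abs_af_le (u a) hx.le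
      have h5 := abs_eta_le 0 s x
      rw [abs_mul, abs_pow]
      calc _ ≤ 1 * A ^ 2 := by gcongr
        _ = _ := one_mul _
    · rw [eta_zero hs (by rw [sub_zero]; exact not_lt.1 hx), zero_mul, abs_zero]
      positivity
  have h4 : ∫ x, eta 0 s x * (af (u a) x) ^ 2 ∂(μH[m] : Measure (REF.E m))
      ≤ ∫ x, eta 0 s x * (af (u a) x) ^ 2 * √(REF.gm u₀ x).det ∂(μH[m] : Measure (REF.E m)) := by
    have i1 := integrable_eta_mul hs ((continuous_af (u a)).pow 2)
    have i2 : Integrable (fun x => eta 0 s x * (af (u a) x) ^ 2 * √(REF.gm u₀ x).det)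
        (μH[m] : Measure (REF.E m)) := by
      have := integrable_eta_mul hs (((continuous_af (u a)).pow 2).mul (continuous_sqrt_det hu0))
      refine this.congr (Eventually.of_forall fun x => ?_)
      simp only [Pi.mul_apply, Pi.pow_apply]
      ring
    refine integral_mono i1 i2 fun x => ?_
    have h5 := one_le_sqrt_det_gm u₀ x
    have h6 : 0 ≤ eta 0 s x * (af (u a) x) ^ 2 := mul_nonneg (eta_nonneg _ _ _) (sq_nonneg _)
    simp only
    nlinarith
  have h5 := hlow (u a) s hs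
  have hI0 : 0 ≤ ∫ x, eta 0 s x * (af (u a) x) ^ 2 * √(REF.gm u₀ x).det
      ∂(μH[m] : Measure (REF.E m)) :=
    integral_nonneg fun x => mul_nonneg (mul_nonneg (eta_nonneg _ _ _) (sq_nonneg _))
      (Real.sqrt_nonneg _)
  have hQ' : (1:ℝ) ≤ Q := by exact_mod_cast hQ
  have h6 : c * s ^ m * A ^ 2 ≤ V * A ^ 2
      + ∫ y, eta 0 s (F.xc y) * (af (u a) (F.xc y)) ^ 2 ∂ν := by
    have h7 := (abs_le.1 h3).1
    have h8 : ∫ x, eta 0 s x * (af (u a) x) ^ 2 * √(REF.gm u₀ x).det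
        ∂(μH[m] : Measure (REF.E m)) ≤ Q * ∫ x, eta 0 s x * (af (u a) x) ^ 2 * √(REF.gm u₀ x).det
        ∂(μH[m] : Measure (REF.E m)) := by nlinarith
    simp only at h7
    linarith
  have hV : V * A ^ 2 ≤ c / 2 * s ^ m * A ^ 2 := by
    refine mul_le_mul_of_nonneg_right ?_ (sq_nonneg _)
    have h7 : 2 / c * V ≤ s ^ m := by
      by_cases hV0 : 0 ≤ V
      · have : 2 / c * V ≤ 2 / c * (B * (m + 1)) * V := by
          have h9 : 0 ≤ 2 / c := by positivity
          nlinarith [mul_nonneg h9 hV0]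
        linarith
      · have : 2 / c * V ≤ 0 := mul_nonpos_of_nonneg_of_nonpos (by positivity) (not_le.1 hV0).le
        linarith
    calc V = c / 2 * (2 / c * V) := by field_simp
      _ ≤ c / 2 * s ^ m := mul_le_mul_of_nonneg_left h7 (by positivity)
  have h9 : c / 2 * s ^ m * A ^ 2 ≤ A * ((κ * s ^ 2 + σ) * (Mm * s ^ m) + W * (B * (m + 1))) := by
    have h10 : A * (κ * s ^ 2 + σ) * ν.real (Skel.cylSet T 0 s)
        ≤ A * (κ * s ^ 2 + σ) * (Mm * s ^ m) := mul_le_mul_of_nonneg_left hMm (by positivity)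
    have h11 : W * M ≤ W * (B * (m + 1) * A) := mul_le_mul_of_nonneg_left hMle hW
    nlinarith
  rcases hA0.eq_or_lt with hA1 | hA1
  · rw [← hA1]
    positivity
  · have h12 : c / 2 * s ^ m * A ≤ (κ * s ^ 2 + σ) * (Mm * s ^ m) + W * (B * (m + 1)) := by
      have h13 : A * (c / 2 * s ^ m * A)
          ≤ A * ((κ * s ^ 2 + σ) * (Mm * s ^ m) + W * (B * (m + 1))) := by
        calc A * (c / 2 * s ^ m * A) = c / 2 * s ^ m * A ^ 2 := by ring
          _ ≤ _ := h9
      exact le_of_mul_le_mul_left h13 hA1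
    have h14 : A ≤ 2 / c * (s ^ m)⁻¹ * ((κ * s ^ 2 + σ) * (Mm * s ^ m) + W * (B * (m + 1))) := by
      calc A = 2 / c * (s ^ m)⁻¹ * (c / 2 * s ^ m * A) := by field_simp
        _ ≤ _ := mul_le_mul_of_nonneg_left h12 (by positivity)
    refine h14.trans ?_
    have e2 : 2 / c * (s ^ m)⁻¹ * ((κ * s ^ 2 + σ) * (Mm * s ^ m) + W * (B * (m + 1)))
        = 2 / c * ((s ^ m)⁻¹ * s ^ m * (Mm * (σ + κ * s ^ 2)) + (B * (m + 1)) * ((s ^ m)⁻¹ * W)) := by
      ring
    rw [e2, inv_mul_cancel₀ hsm.ne', one_mul]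
    have h15 : 0 ≤ Mm * (σ + κ * s ^ 2) := by positivity
    have h16 : 0 ≤ (s ^ m)⁻¹ * W := by positivity
    calc 2 / c * (Mm * (σ + κ * s ^ 2) + B * (m + 1) * ((s ^ m)⁻¹ * W))
        ≤ 2 / c * (B * (m + 1) * (Mm * (σ + κ * s ^ 2)) + B * (m + 1) * ((s ^ m)⁻¹ * W)) := by
          refine mul_le_mul_of_nonneg_left (add_le_add ?_ le_rfl) (by positivity)
          nlinarith
      _ = _ := by ring

/-- the same for the height relative to the reference -/
theorem hN_le_val {T : Submodule ℝ E} (F : Frame m n T) {ν : Measure E} [IsFiniteMeasure ν]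
    {u : Fin n → REF.E m → ℝ} {s κ σ Mm A : ℝ} (hs : 0 < s) (hσ : 0 ≤ σ) (hA : 0 ≤ A)
    (hu : ∀ a, ContDiff ℝ ∞ (u a))
    (hκ : ∀ a x, ‖x‖ < s → ‖iteratedFDeriv ℝ 2 (u a) x‖ ≤ κ)
    (hslab : ∀ᵐ y ∂ν, ‖T.starProjection y‖ < s → ‖y - T.starProjection y‖ ≤ σ)
    (hMm : ν.real (Skel.cylSet T 0 s) ≤ Mm * s ^ m) (han : ∀ a, an (u a) s ≤ A) :
    hN m T (F.lift u) ν s ≤ Mm * ((σ + n * (A + κ * s ^ 2)) / s) ^ 2 := by
  have hκ0 : 0 ≤ n * (κ * s ^ 2) := by
    rcases Nat.eq_zero_or_pos n with h | h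
    · rw [h]; simp
    · have : 0 ≤ κ := (norm_nonneg _).trans (hκ ⟨0, h⟩ 0 (by rwa [norm_zero]))
      positivity
  have hb : 0 ≤ σ + n * (A + κ * s ^ 2) := by
    have : 0 ≤ (n:ℝ) * A := by positivity
    nlinarith
  have h1 : ∀ᵐ y ∂ν, y ∈ Skel.cylSet T (0:E) s →
      ‖KMS.rel T (F.lift u) y‖ ^ 2 ≤ (σ + n * (A + κ * s ^ 2)) ^ 2 := by
    filter_upwards [hslab] with y hy hyc
    have hys : ‖T.starProjection y‖ < s := mem_ball_zero_iff.1 hyc
    have hyx : ‖F.xc y‖ < s := by rwa [norm_xc F]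
    refine pow_le_pow_left₀ (norm_nonneg _) ?_ 2
    have h2 := F.norm_lift_le u y
    have h3 : ∀ a, |u a (F.xc y)| ≤ A + κ * s ^ 2 := fun a => by
      have h4 := abs_sub_af_le (hu a) hs (hκ a) hyx
      have h5 := abs_af_le (u a) hyx.le
      have h6 : |u a (F.xc y)| ≤ |u a (F.xc y) - af (u a) (F.xc y)| + |af (u a) (F.xc y)| := by
        have := abs_add_le (u a (F.xc y) - af (u a) (F.xc y)) (af (u a) (F.xc y))
        rwa [sub_add_cancel] at this
      linarith [han a]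
    have h4 : ∑ a, |u a (F.xc y)| ≤ n * (A + κ * s ^ 2) := by
      refine (Finset.sum_le_sum fun a _ => h3 a).trans (le_of_eq ?_)
      rw [Finset.sum_const, Finset.card_univ, Fintype.card_fin, nsmul_eq_mul]
    have h5 : ‖KMS.rel T (F.lift u) y‖ ≤ ‖y - T.starProjection y‖ + ‖F.lift u y‖ := by
      show ‖FV.co T y - F.lift u y‖ ≤ _
      rw [FV.co_apply]
      exact norm_sub_le _ _
    linarith [hy hys]
  have hcy : MeasurableSet (Skel.cylSet T (0:E) s) :=
    (isOpen_ball.preimage T.starProjection.continuous).measurableSet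
  have h2 : hE T (F.lift u) ν s ≤ (σ + n * (A + κ * s ^ 2)) ^ 2 * ν.real (Skel.cylSet T 0 s) := by
    unfold hE
    have h3 : ‖∫ y in Skel.cylSet T (0:E) s, ‖KMS.rel T (F.lift u) y‖ ^ 2 ∂ν‖
        ≤ (σ + n * (A + κ * s ^ 2)) ^ 2 * ν.real (Skel.cylSet T 0 s) := by
      refine norm_setIntegral_le_of_norm_le_const_ae' (measure_lt_top _ _) ?_
      filter_upwards [h1] with y hy hyc
      rw [Real.norm_of_nonneg (by positivity)]
      exact hy hyc
    exact (le_abs_self _).trans h3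
  unfold hN
  have hsm : 0 < s ^ (m + 2) := by positivity
  calc (s ^ (m + 2))⁻¹ * hE T (F.lift u) ν s
      ≤ (s ^ (m + 2))⁻¹ * ((σ + n * (A + κ * s ^ 2)) ^ 2 * (Mm * s ^ m)) := by
        refine mul_le_mul_of_nonneg_left (h2.trans ?_) (by positivity)
        exact mul_le_mul_of_nonneg_left hMm (sq_nonneg _)
    _ = _ := by
        rw [div_pow, pow_add]
        field_simp

end

end Vale.Agent.P214.BSEQ
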