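import Vale.Agent.P214.BSEQ.OneB
import Vale.Agent.P214.BSEQ.Pow

/-!
# P214, target B, block BSEQ: value, gradient and height at the next radius
-/

open Set Filter Topology MeasureTheory Metric
open scoped RealInnerProductSpace ENNReal ContDiff

set_option linter.all false

namespace Vale.Agent.P214.BSEQ

open WIN STR WSEQ

variable {m n : ℕ} {E : Type*} [NormedAddCommGroup E] [InnerProductSpace ℝ E]
  [FiniteDimensional ℝ E] [MeasurableSpace E] [BorelSpace E]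
  {Q : ℕ} {T : Submodule ℝ E} {ν : Measure E} {P : E → E →L[ℝ] E} {F : Frame m n T}
  {X : Exps} {η ε r r' h τ : ℝ} {u u' : Fin n → REF.E m → ℝ}

/-- the mass constant -/
noncomputable def Mq (m Q : ℕ) : ℝ := Q * Skel.om m + 1

lemma one_le_Mq (m Q : ℕ) : 1 ≤ Mq m Q := by
  unfold Mq
  have := W5.om_pos m
  have : 0 ≤ (Q:ℝ) * Skel.om m := by positivity
  linarith

lemma LocB.mass (hL : LocB m Q T ν P X.β τ) (hβ : 0 ≤ X.β) (hτ0 : 0 ≤ τ) (hτ1 : τ ≤ 1) {t : ℝ}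
    (ht : 0 < t) (ht3 : t ≤ 3 / 8) : ν.real (Skel.cylSet T 0 t) ≤ Mq m Q * t ^ m := by
  have h1 := (hL.int t ht ht3).mass
  have h2 := (abs_le.1 h1).2
  have h3 : t ^ X.β ≤ 1 := Real.rpow_le_one ht.le (by linarith) hβ
  have h4 : τ * t ^ X.β * t ^ m ≤ 1 * t ^ m := by
    refine mul_le_mul_of_nonneg_right ?_ (by positivity)
    calc τ * t ^ X.β ≤ 1 * 1 := mul_le_mul hτ1 h3 (by positivity) zero_le_one
      _ = 1 := one_mul 1
  unfold Mq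
  linarith

lemma LocB.slab (hL : LocB m Q T ν P X.β τ) {t : ℝ} (ht : 0 < t) (ht3 : t ≤ 3 / 8) :
    ∀ᵐ y ∂ν, ‖T.starProjection y‖ < t → ‖y - T.starProjection y‖ ≤ τ * t * t ^ X.β := by
  filter_upwards [(hL.int t ht ht3).cyl.slab] with y hy hyt
  exact hy (mem_ball_zero_iff.2 hyt)

/-- the powers of `r / r'` -/
lemma ratio_pow {c₅ : ℝ} (hr' : 0 < r') (hh : 0 < h) (hrr : r * h ^ c₅ ≤ r')
    (hr : 0 < r) (N : ℕ) : (r / r') ^ N ≤ h ^ (-(c₅ * N)) := by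
  have h1 : r / r' ≤ h ^ (-c₅) := by
    rw [Real.rpow_neg hh.le, div_le_iff₀ hr', inv_mul_eq_div, le_div_iff₀ (by positivity)]
    exact hrr
  calc (r / r') ^ N ≤ (h ^ (-c₅)) ^ N := by gcongr
    _ = _ := by rw [← Real.rpow_natCast, ← Real.rpow_mul hh.le]; congr 1; ring

/-- the curvature bound of the new reference -/
noncomputable def kap (X : Exps) (η r h : ℝ) : ℝ :=
  η * (r * r⁻¹ ^ 2) * r ^ X.b₂ + r * r⁻¹ ^ 2 * h ^ (1 / 2 - X.e)

/-- the size of the affine part at the radius `r'`, without constants -/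
noncomputable def bb (X : Exps) (τ η r h r' : ℝ) : ℝ :=
  τ * r' ^ X.β + h ^ (3 / 4 : ℝ) + 2 * (r' / r) * (η * r ^ X.b₂)

lemma bb_nonneg (hτ : 0 ≤ τ) (hη : 0 ≤ η) (hr : 0 < r) (hh : 0 < h) (hr' : 0 < r') :
    0 ≤ bb X τ η r h r' := by unfold bb; positivity

/-- the curvature term -/
lemma kap_le (hX : X.OK m) (hη : 0 < η) (hr : 0 < r) (hr' : 0 < r') (hh : 0 < h) (hh1 : h ≤ 1)
    (hH : h ^ (1 / 2 - 2 * X.e) ≤ η * r ^ X.b₂) :
    kap X η r h * r' ^ 2 ≤ r' * (2 * (r' / r) * (η * r ^ X.b₂)) := by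
  have he := hX.e_pos
  have e2 : h ^ (1 / 2 - X.e) ≤ η * r ^ X.b₂ :=
    (Real.rpow_le_rpow_of_exponent_ge hh hh1 (by linarith)).trans hH
  have e3 : r * r⁻¹ ^ 2 = r⁻¹ := by field_simp
  unfold kap
  rw [e3]
  calc (η * r⁻¹ * r ^ X.b₂ + r⁻¹ * h ^ (1 / 2 - X.e)) * r' ^ 2
      ≤ (η * r⁻¹ * r ^ X.b₂ + r⁻¹ * (η * r ^ X.b₂)) * r' ^ 2 := by gcongr
    _ = _ := by field_simp; ring

/-- **value and gradient of the new reference at the centre** -/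
theorem an_new (hX : X.OK m) (hQ : 1 ≤ Q) {C K : ℝ} (hC : 1 ≤ C)
    (hval : ∀ {T : Submodule ℝ E} (F : Frame m n T) {ν : Measure E} [IsFiniteMeasure ν]
      {u₀ u : Fin n → REF.E m → ℝ} {s κ σ W V Mm : ℝ} {Q : ℕ}, 1 ≤ Q → 0 < s → 0 ≤ σ →
      (∀ a, ContDiff ℝ ∞ (u₀ a)) → (∀ a, ContDiff ℝ ∞ (u a)) →
      (∀ a x, ‖x‖ < s → ‖iteratedFDeriv ℝ 2 (u a) x‖ ≤ κ) →
      (∀ᵐ y ∂ν, ‖T.starProjection y‖ < s → ‖y - T.starProjection y‖ ≤ σ) →
      (∀ (φ : Fin n → REF.E m → ℝ) (M : ℝ), TstR (sW m) s s M φ →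
        |∫ y, ∑ a, φ a (F.xc y) * F.ht u a y ∂ν| ≤ W * M) →
      (∀ (ψ : REF.E m → ℝ) (M : ℝ), Continuous ψ → (∀ x, s ≤ ‖x‖ → ψ x = 0) →
        (∀ x, |ψ x| ≤ M) →
        |∫ y, ψ (F.xc y) ∂ν - Q * ∫ x, ψ x * √(REF.gm u₀ x).det ∂μH[m]| ≤ V * M) →
      C * V ≤ s ^ m → ν.real (Skel.cylSet T 0 s) ≤ Mm * s ^ m → 0 ≤ W → 0 ≤ Mm →
      ∀ a, an (u a) s ≤ C * (Mm * (σ + κ * s ^ 2) + (s ^ m)⁻¹ * W))
    (hL : LocB m Q T ν P X.β τ) (hτ0 : 0 ≤ τ) (hτ1 : τ ≤ 1) (hη : 0 < η)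
    (hI : Inv m n T F ν X η ε u r h) (hs : SmB X K h) (hCK : C ≤ K)
    {τS : ℝ} (hO : StepOut m n Q T F u u' X.c₀ X.c₁ τS r h (th h) ν P)
    (hW0 : ∀ (ψ : REF.E m → ℝ) (M : ℝ), Continuous ψ →
      (∀ x, r * (1 - 5 * th h) ≤ ‖x‖ → ψ x = 0) → (∀ x, |ψ x| ≤ M) →
      |∫ y, ψ (F.xc y) ∂ν - Q * ∫ x, ψ x * √(REF.gm u x).det ∂μH[m]|
        ≤ r ^ m * h ^ (1 / 2 - X.c₁ / X.c₀) * M)
    (hge : r * h ^ X.c₅ ≤ r') (hle : r' ≤ r * (1 - 12 * th h)) (a : Fin n) :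
    an (u' a) r' ≤ 2 * C * Mq m Q * (r' * bb X τ η r h r') := by
  have hr := hI.r_pos
  have hr3 := hI.r_le
  have hh := hI.h_pos
  have hh1 := hs.le_one
  have hθ0 := hs.th_pos
  have hθ1 := hs.th_le
  have hr' : 0 < r' := lt_of_lt_of_le (by positivity) hge
  have hr'r : r' ≤ r := by nlinarith
  have hr'5 : r' ≤ r * (1 - 5 * th h) := by nlinarith
  have hfin : IsFiniteMeasure ν := (hL.int (3 / 8) (by norm_num) le_rfl).cyl.fin
  have he := hX.e_pos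
  have hhalf := ox_half hX
  have hc5 := hX.c₅_pos
  have hm : (0:ℝ) ≤ m := Nat.cast_nonneg m
  have hsmall := hX.c₅_small
  have hM1 := one_le_Mq m Q
  have hrat : 1 ≤ r / r' := by rw [one_le_div hr']; exact hr'r
  -- the weak bound at the smaller scale
  have hweak : ∀ (φ : Fin n → REF.E m → ℝ) (M : ℝ), TstR (sW m) r' r' M φ →
      |∫ y, ∑ a, φ a (F.xc y) * F.ht u' a y ∂ν|
        ≤ (r ^ (m + 1) * h ^ (1 - X.c₁ / X.c₀) * (r / r') ^ sW m) * M := by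
    intro φ M hφ
    have hM : 0 ≤ M := by
      have h1 := hφ.bd a 0 (Nat.zero_le _) 0
      rw [pow_zero, mul_one] at h1
      exact (norm_nonneg _).trans h1
    refine (hO.weak φ _ (tstR_up hφ hr' hr'r hr'5 hM)).trans (le_of_eq ?_)
    ring
  have hmassV : ∀ (ψ : REF.E m → ℝ) (M : ℝ), Continuous ψ → (∀ x, r' ≤ ‖x‖ → ψ x = 0) →
      (∀ x, |ψ x| ≤ M) →
      |∫ y, ψ (F.xc y) ∂ν - Q * ∫ x, ψ x * √(REF.gm u x).det ∂μH[m]|
        ≤ (r ^ m * h ^ (1 / 2 - X.c₁ / X.c₀)) * M := fun ψ M hψ hψ0 hψM =>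
    hW0 ψ M hψ (fun x hx => hψ0 x (hr'5.trans hx)) hψM
  have hV : C * (r ^ m * h ^ (1 / 2 - X.c₁ / X.c₀)) ≤ r' ^ m := by
    have h1 : C * h ^ (1 / 4 : ℝ) ≤ 1 :=
      (mul_le_mul_of_nonneg_right hCK (by positivity)).trans hs.s1
    have h2 : h ^ (1 / 2 - X.c₁ / X.c₀) ≤ h ^ (1 / 4 : ℝ) * h ^ (X.c₅ * m) := by
      rw [← Real.rpow_add hh]
      refine Real.rpow_le_rpow_of_exponent_ge hh hh1 ?_
      rw [hhalf]
      nlinarith
    have h3 : h ^ (X.c₅ * m) = (h ^ X.c₅) ^ m := by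
      rw [Real.rpow_mul hh.le, Real.rpow_natCast]
    calc C * (r ^ m * h ^ (1 / 2 - X.c₁ / X.c₀))
        ≤ C * (r ^ m * (h ^ (1 / 4 : ℝ) * h ^ (X.c₅ * m))) := by gcongr
      _ = (C * h ^ (1 / 4 : ℝ)) * (r * h ^ X.c₅) ^ m := by rw [h3, mul_pow]; ring
      _ ≤ 1 * r' ^ m := by gcongr
      _ = r' ^ m := one_mul _
  have hkap : ∀ a x, ‖x‖ < r' → ‖iteratedFDeriv ℝ 2 (u' a) x‖ ≤ kap X η r h := fun a x _ =>
    deriv_new hX hI hO hh1 a le_rfl (by unfold sW; omega) x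
  have hkey := hval F (ν := ν) (u₀ := u) (u := u') (s := r') (κ := kap X η r h)
    (σ := τ * r' * r' ^ X.β) (W := r ^ (m + 1) * h ^ (1 - X.c₁ / X.c₀) * (r / r') ^ sW m)
    (V := r ^ m * h ^ (1 / 2 - X.c₁ / X.c₀)) (Mm := Mq m Q) hQ hr' (by positivity) hI.smooth
    hO.smooth hkap (hL.slab hr' (by linarith)) hweak hmassV hV
    (hL.mass hX.β_pos.le hτ0 hτ1 hr' (by linarith)) (by positivity) (by linarith) a
  refine hkey.trans ?_
  -- the three terms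
  have t1 : τ * r' * r' ^ X.β = r' * (τ * r' ^ X.β) := by ring
  have t2 := kap_le hX hη hr hr' hh hh1 hI.h_small
  have t3 : (r' ^ m)⁻¹ * (r ^ (m + 1) * h ^ (1 - X.c₁ / X.c₀) * (r / r') ^ sW m)
      ≤ r' * h ^ (3 / 4 : ℝ) := by
    have h1 : (r' ^ m)⁻¹ * (r ^ (m + 1) * h ^ (1 - X.c₁ / X.c₀) * (r / r') ^ sW m)
        = r' * ((r / r') ^ (m + 1 + sW m) * h ^ (1 - X.c₁ / X.c₀)) := by
      rw [pow_add (r / r') (m + 1), div_pow r r' (m + 1), pow_succ r' m]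
      field_simp
    rw [h1]
    refine mul_le_mul_of_nonneg_left ?_ hr'.le
    refine (mul_le_mul_of_nonneg_right (ratio_pow hr' hh hge hr _) (by positivity)).trans ?_
    rw [← Real.rpow_add hh]
    refine Real.rpow_le_rpow_of_exponent_ge hh hh1 ?_
    rw [hhalf]
    unfold sW
    push_cast
    nlinarith
  have hb0 : 0 ≤ h ^ (3 / 4 : ℝ) := by positivity
  have hb1 : 0 ≤ r' * (τ * r' ^ X.β) := by positivity
  have hb2 : 0 ≤ r' * (2 * (r' / r) * (η * r ^ X.b₂)) := by positivity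
  have hb3 : 0 ≤ r' * h ^ (3 / 4 : ℝ) := by positivity
  have hC0 : 0 ≤ C := by linarith
  have hfinal : Mq m Q * (τ * r' * r' ^ X.β + kap X η r h * r' ^ 2)
      + (r' ^ m)⁻¹ * (r ^ (m + 1) * h ^ (1 - X.c₁ / X.c₀) * (r / r') ^ sW m)
      ≤ 2 * Mq m Q * (r' * bb X τ η r h r') := by
    have e1 : r' * bb X τ η r h r' = r' * (τ * r' ^ X.β) + r' * h ^ (3 / 4 : ℝ)
        + r' * (2 * (r' / r) * (η * r ^ X.b₂)) := by unfold bb; ring
    rw [e1]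
    have e2 : Mq m Q * (τ * r' * r' ^ X.β + kap X η r h * r' ^ 2)
        ≤ Mq m Q * (r' * (τ * r' ^ X.β) + r' * (2 * (r' / r) * (η * r ^ X.b₂))) := by
      refine mul_le_mul_of_nonneg_left ?_ (by linarith)
      linarith
    have e3 : r' * h ^ (3 / 4 : ℝ) ≤ Mq m Q * (r' * h ^ (3 / 4 : ℝ)) :=
      le_mul_of_one_le_left hb3 hM1
    have e4 : 0 ≤ Mq m Q * (r' * (τ * r' ^ X.β)) := by positivity
    have e5 : 0 ≤ Mq m Q * (r' * (2 * (r' / r) * (η * r ^ X.b₂))) := by positivity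
    have e6 : 0 ≤ Mq m Q * (r' * h ^ (3 / 4 : ℝ)) := by positivity
    linarith
  calc C * (Mq m Q * (τ * r' * r' ^ X.β + kap X η r h * r' ^ 2)
        + (r' ^ m)⁻¹ * (r ^ (m + 1) * h ^ (1 - X.c₁ / X.c₀) * (r / r') ^ sW m))
      ≤ C * (2 * Mq m Q * (r' * bb X τ η r h r')) := mul_le_mul_of_nonneg_left hfinal hC0
    _ = _ := by ring

/-- the height at the next radius, from the affine part -/
theorem hN_new (hX : X.OK m) (hL : LocB m Q T ν P X.β τ) (hτ0 : 0 ≤ τ) (hτ1 : τ ≤ 1)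
    (hη : 0 < η) (hI : Inv m n T F ν X η ε u r h) {K : ℝ} (hs : SmB X K h)
    {τS : ℝ} (hO : StepOut m n Q T F u u' X.c₀ X.c₁ τS r h (th h) ν P)
    (hge : r * h ^ X.c₅ ≤ r') (hle : r' ≤ r * (1 - 12 * th h)) {D : ℝ} (hD : 0 ≤ D)
    (han : ∀ a, an (u' a) r' ≤ D * (r' * bb X τ η r h r')) :
    hN m T (F.lift u') ν r' ≤ Mq m Q * (1 + n * (D + 1)) ^ 2 * bb X τ η r h r' ^ 2 := by
  have hr := hI.r_pos
  have hr3 := hI.r_le
  have hh := hI.h_pos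
  have hh1 := hs.le_one
  have hθ0 := hs.th_pos
  have hr' : 0 < r' := lt_of_lt_of_le (by positivity) hge
  have hr'r : r' ≤ r := by nlinarith
  have hfin : IsFiniteMeasure ν := (hL.int (3 / 8) (by norm_num) le_rfl).cyl.fin
  have hM1 := one_le_Mq m Q
  have hbb := bb_nonneg (X := X) hτ0 hη.le hr hh hr'
  have hkap : ∀ a x, ‖x‖ < r' → ‖iteratedFDeriv ℝ 2 (u' a) x‖ ≤ kap X η r h := fun a x _ =>
    deriv_new hX hI hO hh1 a le_rfl (by unfold sW; omega) x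
  have h1 := hN_le_val F (ν := ν) (u := u') (s := r') (κ := kap X η r h)
    (σ := τ * r' * r' ^ X.β) (Mm := Mq m Q) (A := D * (r' * bb X τ η r h r')) hr' (by positivity)
    (by positivity) hO.smooth hkap (hL.slab hr' (by linarith))
    (hL.mass hX.β_pos.le hτ0 hτ1 hr' (by linarith)) han
  refine h1.trans ?_
  have t2 := kap_le hX hη hr hr' hh hh1 hI.h_small
  have e1 : r' * bb X τ η r h r' = r' * (τ * r' ^ X.β) + r' * h ^ (3 / 4 : ℝ)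
      + r' * (2 * (r' / r) * (η * r ^ X.b₂)) := by unfold bb; ring
  have hb1 : 0 ≤ r' * (τ * r' ^ X.β) := by positivity
  have hb2 : 0 ≤ r' * (2 * (r' / r) * (η * r ^ X.b₂)) := by positivity
  have hb3 : 0 ≤ r' * h ^ (3 / 4 : ℝ) := by positivity
  have t1 : τ * r' * r' ^ X.β ≤ r' * bb X τ η r h r' := by
    rw [e1]; linarith
  have t3 : kap X η r h * r' ^ 2 ≤ r' * bb X τ η r h r' := by
    rw [e1]; linarith
  have hk0 : 0 ≤ kap X η r h := by unfold kap; positivity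
  have h2 : (τ * r' * r' ^ X.β + n * (D * (r' * bb X τ η r h r') + kap X η r h * r' ^ 2)) / r'
      ≤ (1 + n * (D + 1)) * bb X τ η r h r' := by
    rw [div_le_iff₀ hr']
    have h3 : (n:ℝ) * (D * (r' * bb X τ η r h r') + kap X η r h * r' ^ 2)
        ≤ n * (D * (r' * bb X τ η r h r') + r' * bb X τ η r h r') := by gcongr
    calc τ * r' * r' ^ X.β + n * (D * (r' * bb X τ η r h r') + kap X η r h * r' ^ 2)
        ≤ r' * bb X τ η r h r' + n * (D * (r' * bb X τ η r h r') + r' * bb X τ η r h r') :=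
          add_le_add t1 h3
      _ = _ := by ring
  have h0 : 0 ≤ (τ * r' * r' ^ X.β + n * (D * (r' * bb X τ η r h r')
      + kap X η r h * r' ^ 2)) / r' := by positivity
  calc Mq m Q * ((τ * r' * r' ^ X.β + n * (D * (r' * bb X τ η r h r')
        + kap X η r h * r' ^ 2)) / r') ^ 2
      ≤ Mq m Q * ((1 + n * (D + 1)) * bb X τ η r h r') ^ 2 := by gcongr
    _ = _ := by ring

end Vale.Agent.P214.BSEQ
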