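import Vale.Agent.P214.WSEQ.Acc
import Vale.Agent.P214.ALL.Frame

/-!
# P214, target B, block BSEQ: affine parts of references (test functions and lower bound)
-/

open Set Filter Topology MeasureTheory Metric
open scoped RealInnerProductSpace ENNReal ContDiff

set_option linter.all false

namespace Vale.Agent.P214.BSEQ

open WIN STR WSEQ

noncomputable section

variable {m n : ℕ}

/-! ### test functions -/

lemma exists_cpt_bound {f : REF.E m → ℝ} (hf : ContDiff ℝ ∞ f) (hs : HasCompactSupport f)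
    (K : ℕ) : ∃ C : ℝ, 0 ≤ C ∧ ∀ k ≤ K, ∀ x, ‖iteratedFDeriv ℝ k f x‖ ≤ C := by
  have h1 : ∀ k : ℕ, ∃ C : ℝ, ∀ x : REF.E m, ‖iteratedFDeriv ℝ k f x‖ ≤ C := by
    intro k
    exact (hs.iteratedFDeriv k).exists_bound_of_continuous
      (hf.continuous_iteratedFDeriv (by exact_mod_cast le_top))
  choose C hC using h1
  refine ⟨∑ k ∈ Finset.range (K + 1), |C k|, Finset.sum_nonneg fun _ _ => abs_nonneg _,
    fun k hk x => ?_⟩
  calc _ ≤ C k := hC k x
    _ ≤ |C k| := le_abs_self _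
    _ ≤ _ := Finset.single_le_sum (f := fun k => |C k|) (fun _ _ => abs_nonneg _)
        (Finset.mem_range.2 (by omega))

/-- the test function with the single component `f (x / s)` -/
def tf (f : REF.E m → ℝ) (s : ℝ) (a b : Fin n) (x : REF.E m) : ℝ :=
  if b = a then f (s⁻¹ • x) else 0

lemma tstR_tf {f : REF.E m → ℝ} (hf : ContDiff ℝ ∞ f) (hz : ∀ x, 1 ≤ ‖x‖ → f x = 0) {K : ℕ}
    {C : ℝ} (hC0 : 0 ≤ C) (hC : ∀ k ≤ K, ∀ x, ‖iteratedFDeriv ℝ k f x‖ ≤ C) {s : ℝ} (hs : 0 < s)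
    (a : Fin n) : TstR K s s C (tf f s a) := by
  refine ⟨fun b => ?_, fun b x hx => ?_, fun b k hk x => ?_⟩
  · unfold tf
    split_ifs
    · exact hf.comp (contDiff_id.const_smul _)
    · exact contDiff_const
  · unfold tf
    split_ifs
    · refine hz _ ?_
      rw [norm_smul, Real.norm_of_nonneg (by positivity), inv_mul_eq_div, one_le_div hs]
      exact hx
    · rfl
  · unfold tf
    split_ifs with h
    · have hk' : ContDiff ℝ k f := hf.of_le (by exact_mod_cast le_top)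
      rw [iteratedFDeriv_comp_const_smul s⁻¹ hk', norm_smul, norm_pow,
        Real.norm_of_nonneg (by positivity), mul_comm]
      exact mul_le_mul_of_nonneg_right (hC k hk _) (by positivity)
    · have h3 : iteratedFDeriv ℝ k (fun _ : REF.E m => (0:ℝ)) x = 0 := by
        have := iteratedFDeriv_fun_zero (𝕜 := ℝ) (E := REF.E m) (F := ℝ) (n := k)
        exact congrFun this x
      rw [h3, norm_zero]
      positivity

/-- test functions at a smaller scale -/
lemma tstR_up {K : ℕ} {s r ρ M : ℝ} {φ : Fin n → REF.E m → ℝ} (hφ : TstR K s s M φ)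
    (hs : 0 < s) (hsr : s ≤ r) (hsρ : s ≤ ρ) (hM : 0 ≤ M) : TstR K r ρ ((r / s) ^ K * M) φ := by
  have hr : 0 < r := hs.trans_le hsr
  refine ⟨hφ.smooth, fun a x hx => hφ.supp a x (hsρ.trans hx), fun a k hk x => ?_⟩
  refine (hφ.bd a k hk x).trans ?_
  have h1 : s⁻¹ ^ k = (r / s) ^ k * r⁻¹ ^ k := by
    rw [← mul_pow]; congr 1; field_simp
  have h2 : (r / s) ^ k ≤ (r / s) ^ K := by
    refine pow_le_pow_right₀ ?_ hk
    rw [one_le_div hs]; exact hsr
  rw [h1]
  calc M * ((r / s) ^ k * r⁻¹ ^ k) = (r / s) ^ k * (M * r⁻¹ ^ k) := by ring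
    _ ≤ (r / s) ^ K * (M * r⁻¹ ^ k) := mul_le_mul_of_nonneg_right h2 (by positivity)
    _ = _ := by ring

/-- `x_i` times the unit bump -/
def xb (i : Fin m) (x : REF.E m) : ℝ := x i * tb m x

lemma tb_zero {x : REF.E m} (hx : 1 ≤ ‖x‖) : tb m x = 0 := by
  refine (tb m).zero_of_le_dist ?_
  rw [dist_zero_right]
  exact hx

lemma contDiff_coord (i : Fin m) : ContDiff ℝ ∞ fun x : REF.E m => x i :=
  (EuclideanSpace.proj i : REF.E m →L[ℝ] ℝ).contDiff

lemma contDiff_xb (i : Fin m) : ContDiff ℝ ∞ (xb i : REF.E m → ℝ) :=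
  (contDiff_coord i).mul (tb m).contDiff

lemma xb_zero (i : Fin m) {x : REF.E m} (hx : 1 ≤ ‖x‖) : xb i x = 0 := by
  unfold xb; rw [tb_zero hx, mul_zero]

lemma hcs_xb (i : Fin m) : HasCompactSupport (xb i : REF.E m → ℝ) := by
  refine HasCompactSupport.intro (isCompact_closedBall (0 : REF.E m) 1) fun x hx => ?_
  refine xb_zero i ?_
  rw [mem_closedBall, dist_zero_right, not_le] at hx
  exact hx.le

/-- a common bound for all model test functions -/
lemma exists_model_bound (m K : ℕ) : ∃ C : ℝ, 1 ≤ C ∧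
    (∀ k ≤ K, ∀ x, ‖iteratedFDeriv ℝ k (tb m : REF.E m → ℝ) x‖ ≤ C) ∧
    ∀ i : Fin m, ∀ k ≤ K, ∀ x, ‖iteratedFDeriv ℝ k (xb i : REF.E m → ℝ) x‖ ≤ C := by
  obtain ⟨C0, hC0, h0⟩ := exists_cpt_bound (f := (tb m : REF.E m → ℝ))
    (tb m).contDiff (tb m).hasCompactSupport K
  have h1 := fun i : Fin m => exists_cpt_bound (contDiff_xb i) (hcs_xb i) K
  choose C hC hC' using h1
  have hs : 0 ≤ ∑ i, C i := Finset.sum_nonneg fun i _ => hC i
  refine ⟨1 + C0 + ∑ i, C i, by linarith, fun k hk x => (h0 k hk x).trans (by linarith),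
    fun i k hk x => (hC' i k hk x).trans ?_⟩
  have := Finset.single_le_sum (f := C) (fun i _ => hC i) (Finset.mem_univ i)
  linarith

/-! ### the affine part -/

/-- affine part at the origin -/
def af (f : REF.E m → ℝ) (x : REF.E m) : ℝ := f 0 + fderiv ℝ f 0 x

/-- size of the affine part over the ball of radius `s` -/
def an (f : REF.E m → ℝ) (s : ℝ) : ℝ := |f 0| + s * ‖fderiv ℝ f 0‖

lemma an_nonneg (f : REF.E m → ℝ) {s : ℝ} (hs : 0 ≤ s) : 0 ≤ an f s := by
  unfold an; positivity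

lemma abs_af_le (f : REF.E m → ℝ) {s : ℝ} {x : REF.E m} (hx : ‖x‖ ≤ s) : |af f x| ≤ an f s := by
  unfold af an
  have h1 : |fderiv ℝ f 0 x| ≤ ‖fderiv ℝ f 0‖ * ‖x‖ := (fderiv ℝ f 0).le_opNorm x
  have h2 : ‖fderiv ℝ f 0‖ * ‖x‖ ≤ s * ‖fderiv ℝ f 0‖ := by
    rw [mul_comm]; exact mul_le_mul_of_nonneg_right hx (norm_nonneg _)
  exact (abs_add_le _ _).trans (by linarith)

lemma continuous_af (f : REF.E m → ℝ) : Continuous (af f) :=
  continuous_const.add (fderiv ℝ f 0).continuous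

/-- the affine part as a sum over the coordinates -/
lemma af_eq (f : REF.E m → ℝ) {s : ℝ} (hs : 0 < s) (x : REF.E m) :
    af f x * eta 0 s x = f 0 * tb m (s⁻¹ • x) +
      ∑ i, s * fderiv ℝ f 0 (EuclideanSpace.single i 1) * xb i (s⁻¹ • x) := by
  have h1 : fderiv ℝ f 0 x = ∑ i, x i * fderiv ℝ f 0 (EuclideanSpace.single i 1) := by
    have h2 : x = ∑ i, x i • (EuclideanSpace.single i (1:ℝ) : REF.E m) := by
      have := (EuclideanSpace.basisFun (Fin m) ℝ).sum_repr x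
      simpa using this.symm
    conv_lhs => rw [h2, map_sum]
    exact Finset.sum_congr rfl fun i _ => by rw [map_smul, smul_eq_mul]
  have h3 : eta 0 s x = tb m (s⁻¹ • x) := by unfold eta; rw [sub_zero]
  have h4 : ∀ i, xb i (s⁻¹ • x) = s⁻¹ * x i * tb m (s⁻¹ • x) := fun i => by
    unfold xb
    simp
  rw [h3]
  simp only [h4]
  unfold af
  rw [h1, add_mul, Finset.sum_mul]
  congr 1
  refine Finset.sum_congr rfl fun i _ => ?_
  have h5 : s * s⁻¹ = 1 := mul_inv_cancel₀ hs.ne'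
  calc x i * fderiv ℝ f 0 (EuclideanSpace.single i 1) * tb m (s⁻¹ • x)
      = (s * s⁻¹) * (x i * fderiv ℝ f 0 (EuclideanSpace.single i 1) * tb m (s⁻¹ • x)) := by
        rw [h5, one_mul]
    _ = _ := by ring

lemma norm_iter_two {f : REF.E m → ℝ} (x : REF.E m) :
    ‖iteratedFDeriv ℝ 2 f x‖ = ‖fderiv ℝ (fderiv ℝ f) x‖ := by
  rw [← norm_iteratedFDeriv_fderiv, ← norm_iteratedFDeriv_fderiv, norm_iteratedFDeriv_zero]

/-- Taylor -/
lemma abs_sub_af_le {f : REF.E m → ℝ} (hf : ContDiff ℝ ∞ f) {s κ : ℝ} (hs : 0 < s)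
    (hκ : ∀ x, ‖x‖ < s → ‖iteratedFDeriv ℝ 2 f x‖ ≤ κ) {x : REF.E m} (hx : ‖x‖ < s) :
    |f x - af f x| ≤ κ * s ^ 2 := by
  have hκ0 : 0 ≤ κ := (norm_nonneg _).trans (hκ 0 (by rwa [norm_zero]))
  have hd : Differentiable ℝ f := hf.differentiable (by simp)
  have hdd : Differentiable ℝ (fderiv ℝ f) :=
    (hf.fderiv_right (m := ∞) (by simp)).differentiable (by simp)
  have h1 : ∀ y ∈ ball (0 : REF.E m) s, ‖fderiv ℝ f y - fderiv ℝ f 0‖ ≤ κ * s := by
    intro y hy
    have h2 := (convex_ball (0 : REF.E m) s).norm_image_sub_le_of_norm_fderiv_le (𝕜 := ℝ)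
      (f := fderiv ℝ f) (C := κ) (fun z _ => hdd z)
      (fun z hz => by rw [← norm_iter_two]; exact hκ z (by simpa using hz))
      (mem_ball_self hs) hy
    refine h2.trans ?_
    rw [sub_zero]
    exact mul_le_mul_of_nonneg_left (by simpa using (mem_ball_zero_iff.1 hy).le) hκ0
  have hg : ∀ y, HasFDerivAt (fun y => f y - af f y) (fderiv ℝ f y - fderiv ℝ f 0) y := fun y => by
    refine (hd y).hasFDerivAt.sub ?_
    unfold af
    exact ((fderiv ℝ f 0).hasFDerivAt (x := y)).const_add (f 0)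
  have h3 := (convex_ball (0 : REF.E m) s).norm_image_sub_le_of_norm_hasFDerivWithin_le
    (𝕜 := ℝ) (f := fun y => f y - af f y) (f' := fun y => fderiv ℝ f y - fderiv ℝ f 0)
    (C := κ * s) (fun y _ => (hg y).hasFDerivWithinAt) h1 (mem_ball_self hs)
    (mem_ball_zero_iff.2 hx)
  have h4 : f 0 - af f 0 = 0 := by unfold af; simp
  rw [h4, sub_zero, sub_zero, Real.norm_eq_abs] at h3
  refine h3.trans ?_
  calc κ * s * ‖x‖ ≤ κ * s * s := mul_le_mul_of_nonneg_left hx.le (by positivity)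
    _ = κ * s ^ 2 := by ring

/-! ### the lower bound -/

lemma eta_neg (s : ℝ) (x : REF.E m) : eta 0 s (-x) = eta 0 s x := by
  unfold eta
  rw [sub_zero, sub_zero, smul_neg]
  exact (tb m).neg (s⁻¹ • x)

lemma finOn (m : ℕ) : IsFiniteMeasureOnCompacts (μH[m] : Measure (REF.E m)) := by
  rw [COORD.hausdorff_eq]; infer_instance

lemma integrable_eta_mul {s : ℝ} (hs : 0 < s) {g : REF.E m → ℝ} (hg : Continuous g) :
    Integrable (fun x => eta 0 s x * g x) (μH[m] : Measure (REF.E m)) := by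
  haveI := finOn m
  exact ((continuous_eta 0 s).mul hg).integrable_of_hasCompactSupport
    (hasCompactSupport_eta (x₀ := (0 : REF.E m)) hs).mul_right

/-- lower bound of the integral of the square of a linear function -/
lemma lower_lin (m : ℕ) : ∃ c : ℝ, 0 < c ∧ ∀ (L : REF.E m →L[ℝ] ℝ) (s : ℝ), 0 < s →
    c * s ^ m * (s * ‖L‖) ^ 2 ≤ ∫ x, eta 0 s x * (L x) ^ 2 ∂(μH[m] : Measure (REF.E m)) := by
  obtain ⟨c, hc, hint⟩ := exists_integral_eta m
  refine ⟨c * (1 / 8) ^ m * (1 / 64), by positivity, fun L s hs => ?_⟩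
  obtain ⟨l, hl⟩ : ∃ l : REF.E m, L = innerSL ℝ l :=
    ⟨(InnerProductSpace.toDual ℝ (REF.E m)).symm L, by
      ext x; simp⟩
  have hLn : ‖L‖ = ‖l‖ := by rw [hl]; exact innerSL_apply_norm ℝ l
  by_cases hl0 : l = 0
  · have h1 : ‖L‖ = 0 := by rw [hLn, hl0, norm_zero]
    rw [h1, mul_zero]
    have : 0 ≤ ∫ x, eta 0 s x * (L x) ^ 2 ∂(μH[m] : Measure (REF.E m)) :=
      integral_nonneg fun x => mul_nonneg (eta_nonneg _ _ _) (sq_nonneg _)
    simpa using this
  · have hln : 0 < ‖l‖ := norm_pos_iff.2 hl0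
    set x₀ : REF.E m := (s / 4 * ‖l‖⁻¹) • l with hx₀
    have hx0n : ‖x₀‖ = s / 4 := by
      rw [hx₀, norm_smul, Real.norm_of_nonneg (by positivity), mul_assoc,
        inv_mul_cancel₀ hln.ne', mul_one]
    have hLx0 : L x₀ = s / 4 * ‖l‖ := by
      rw [hl, hx₀, innerSL_apply_apply, inner_smul_right, real_inner_self_eq_norm_sq]
      field_simp
    have key : ∀ x, eta x₀ (s / 8) x * (s * ‖l‖ / 8) ^ 2 ≤ eta 0 s x * (L x) ^ 2 := by
      intro x
      by_cases hx : ‖x - x₀‖ < s / 8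
      · have h1 : ‖x‖ ≤ s / 2 := by
          have := norm_add_le (x - x₀) x₀
          rw [sub_add_cancel] at this
          linarith
        have h2 : eta 0 s x = 1 := eta_one hs (by rw [sub_zero]; exact h1)
        have h3 : s * ‖l‖ / 8 ≤ L x := by
          have h4 : L x = L x₀ + L (x - x₀) := by rw [← map_add]; congr 1; abel
          have h5 : |L (x - x₀)| ≤ ‖l‖ * ‖x - x₀‖ := by rw [← hLn]; exact L.le_opNorm _
          have h6 := (abs_le.1 h5).1
          rw [h4, hLx0]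
          nlinarith
        rw [h2, one_mul]
        have h7 : 0 ≤ s * ‖l‖ / 8 := by positivity
        calc eta x₀ (s / 8) x * (s * ‖l‖ / 8) ^ 2 ≤ 1 * (s * ‖l‖ / 8) ^ 2 :=
              mul_le_mul_of_nonneg_right (eta_le_one _ _ _) (sq_nonneg _)
          _ ≤ (L x) ^ 2 := by rw [one_mul]; exact pow_le_pow_left₀ h7 h3 2
      · rw [eta_zero (by positivity) (not_lt.1 hx), zero_mul]
        exact mul_nonneg (eta_nonneg _ _ _) (sq_nonneg _)
    haveI := finOn m
    have i1 : Integrable (fun x => eta x₀ (s / 8) x * (s * ‖l‖ / 8) ^ 2)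
        (μH[m] : Measure (REF.E m)) :=
      ((continuous_eta x₀ (s / 8)).integrable_of_hasCompactSupport
        (hasCompactSupport_eta (by positivity))).mul_const _
    have h1 := integral_mono i1 (integrable_eta_mul hs (L.continuous.pow 2)) key
    rw [integral_mul_const] at h1
    have h2 := hint x₀ (s / 8) (by positivity)
    have h3 : c * (s / 8) ^ m * (s * ‖l‖ / 8) ^ 2 ≤
        (∫ x, eta x₀ (s / 8) x ∂(μH[m] : Measure (REF.E m))) * (s * ‖l‖ / 8) ^ 2 :=
      mul_le_mul_of_nonneg_right h2 (sq_nonneg _)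
    calc c * (1 / 8) ^ m * (1 / 64) * s ^ m * (s * ‖L‖) ^ 2
        = c * (s / 8) ^ m * (s * ‖l‖ / 8) ^ 2 := by rw [hLn]; ring
      _ ≤ _ := h3.trans h1

/-- **lower bound of the integral of the square of an affine function** -/
theorem lower_af (m : ℕ) : ∃ c : ℝ, 0 < c ∧ c ≤ 1 ∧ ∀ (f : REF.E m → ℝ) (s : ℝ), 0 < s →
    c * s ^ m * an f s ^ 2 ≤ ∫ x, eta 0 s x * (af f x) ^ 2 ∂(μH[m] : Measure (REF.E m)) := by
  obtain ⟨c1, hc1, h1⟩ := lower_lin m
  obtain ⟨c2, hc2, h2⟩ := exists_integral_eta m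
  refine ⟨min (min c1 c2 / 2) 1, lt_min (by positivity) one_pos, min_le_right _ _,
    fun f s hs => ?_⟩
  set L := fderiv ℝ f 0 with hL
  have e1 : ∀ x, af f x = f 0 + L x := fun x => rfl
  -- oddness
  have i0 : Integrable (fun x => eta 0 s x * (1:ℝ)) (μH[m] : Measure (REF.E m)) :=
    integrable_eta_mul hs continuous_const
  have i1 : Integrable (fun x => eta 0 s x * L x) (μH[m] : Measure (REF.E m)) :=
    integrable_eta_mul hs L.continuous
  have i2 : Integrable (fun x => eta 0 s x * (L x) ^ 2) (μH[m] : Measure (REF.E m)) :=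
    integrable_eta_mul hs (L.continuous.pow 2)
  have hodd : ∫ x, eta 0 s x * L x ∂(μH[m] : Measure (REF.E m)) = 0 := by
    have hmp : MeasurePreserving (fun x : REF.E m => -x) (μH[m] : Measure (REF.E m)) μH[m] :=
      (LinearIsometryEquiv.neg ℝ (E := REF.E m)).toIsometryEquiv.measurePreserving_hausdorffMeasure
        (m : ℝ)
    have h3 := hmp.integral_comp (LinearIsometryEquiv.neg ℝ
      (E := REF.E m)).toHomeomorph.measurableEmbedding (fun x => eta 0 s x * L x)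
    simp only [eta_neg, map_neg, mul_neg, integral_neg] at h3
    linarith
  have e2 : ∫ x, eta 0 s x * (af f x) ^ 2 ∂(μH[m] : Measure (REF.E m))
      = (f 0) ^ 2 * ∫ x, eta 0 s x ∂(μH[m] : Measure (REF.E m))
        + ∫ x, eta 0 s x * (L x) ^ 2 ∂(μH[m] : Measure (REF.E m)) := by
    have e3 : ∀ x, eta 0 s x * (af f x) ^ 2 = (f 0) ^ 2 * (eta 0 s x * 1)
        + 2 * f 0 * (eta 0 s x * L x) + eta 0 s x * (L x) ^ 2 := fun x => by
      rw [e1]; ring
    simp only [e3]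
    have j0 : Integrable (fun x => (f 0) ^ 2 * (eta 0 s x * 1)) (μH[m] : Measure (REF.E m)) :=
      i0.const_mul _
    have j1 : Integrable (fun x => 2 * f 0 * (eta 0 s x * L x)) (μH[m] : Measure (REF.E m)) :=
      i1.const_mul _
    have j2 : Integrable (fun x => (f 0) ^ 2 * (eta 0 s x * 1) + 2 * f 0 * (eta 0 s x * L x))
        (μH[m] : Measure (REF.E m)) := j0.add j1
    rw [integral_add j2 i2, integral_add j0 j1, integral_const_mul, integral_const_mul, hodd]
    simp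
  rw [e2]
  have h3 := h1 L s hs
  have h4 := h2 0 s hs
  set c := min c1 c2 with hc
  have hcc1 : c ≤ c1 := min_le_left _ _
  have hcc2 : c ≤ c2 := min_le_right _ _
  have hc0 : 0 < c := lt_min hc1 hc2
  have h5 : an f s ^ 2 ≤ 2 * (f 0) ^ 2 + 2 * (s * ‖L‖) ^ 2 := by
    unfold an
    rw [← hL]
    have := sq_abs (f 0)
    nlinarith [sq_nonneg (|f 0| - s * ‖L‖)]
  have hsm : 0 < s ^ m := by positivity
  calc min (c / 2) 1 * s ^ m * an f s ^ 2 ≤ c / 2 * s ^ m * (2 * (f 0) ^ 2 + 2 * (s * ‖L‖) ^ 2) := by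
        have := min_le_left (c / 2) 1
        gcongr
    _ = (f 0) ^ 2 * (c * s ^ m) + c * s ^ m * (s * ‖L‖) ^ 2 := by ring
    _ ≤ (f 0) ^ 2 * (c2 * s ^ m) + c1 * s ^ m * (s * ‖L‖) ^ 2 := by gcongr
    _ ≤ _ := by
        refine add_le_add (mul_le_mul_of_nonneg_left h4 (sq_nonneg _)) h3

end

end Vale.Agent.P214.BSEQ
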