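import Vale.Agent.P214.BSEQ.Pow
import Vale.Agent.P214.BSEQ.Props

/-!
# P214, target B, block BSEQ: the new reference at a smaller scale, over `LocB`
-/

open Set Filter Topology MeasureTheory Metric
open scoped RealInnerProductSpace ENNReal ContDiff

set_option linter.all false

namespace Vale.Agent.P214.BSEQ

open WIN STR WSEQ

noncomputable section

variable {m n : ℕ} {E : Type*} [NormedAddCommGroup E] [InnerProductSpace ℝ E]
  [FiniteDimensional ℝ E] [MeasurableSpace E] [BorelSpace E]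

/-- mass bound over the base balls -/
lemma LocB.mass_le {Q : ℕ} {T : Submodule ℝ E} {ν : Measure E} {P : E → E →L[ℝ] E} {β τ : ℝ}
    (hL : LocB m Q T ν P β τ) (hβ : 0 ≤ β) (hτ : 0 ≤ τ) (hτ1 : τ ≤ 1) {t : ℝ} (ht : 0 < t)
    (ht1 : t ≤ 3 / 8) : ν.real (Skel.cylSet T 0 t) ≤ (Q * Skel.om m + 1) * t ^ m := by
  have h1 := (abs_le.1 (hL.int t ht ht1).mass).2
  have h2 : t ^ β ≤ 1 := Real.rpow_le_one ht.le (by linarith) hβ
  have h3 : τ * t ^ β ≤ 1 := by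
    have : 0 ≤ t ^ β := Real.rpow_nonneg ht.le _
    nlinarith
  have h4 : τ * t ^ β * t ^ m ≤ 1 * t ^ m := mul_le_mul_of_nonneg_right h3 (by positivity)
  nlinarith

/-- planar height over the base balls -/
lemma LocB.slab_lt {Q : ℕ} {T : Submodule ℝ E} {ν : Measure E} {P : E → E →L[ℝ] E} {β τ : ℝ}
    (hL : LocB m Q T ν P β τ) {t : ℝ} (ht : 0 < t) (ht1 : t ≤ 3 / 8) :
    ∀ᵐ y ∂ν, ‖T.starProjection y‖ < t → ‖y - T.starProjection y‖ ≤ τ * t * t ^ β := by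
  filter_upwards [(hL.int t ht ht1).cyl.slab] with y hy hyt
  exact hy (by simpa using hyt)

/-- the last computation -/
lemma pow_num {τ' t κ C₁ C₂ Mm X Y N : ℝ} (ht : 0 < t) (hτ : 0 ≤ τ') (hY : 0 ≤ Y) (hκ : 0 ≤ κ)
    (hN : 0 ≤ N) (hX : X = τ' + Y + κ * t) (hC₁ : 0 ≤ C₁) (hMm : 0 ≤ Mm)
    (hC₂ : C₂ = 1 + N * (C₁ + 1)) :
    Mm * ((τ' * t + N * (C₁ * t * X + κ * t ^ 2)) / t) ^ 2 ≤ (C₁ + Mm * C₂ ^ 2) * X ^ 2 := by
  have hX0 : 0 ≤ X := by rw [hX]; positivity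
  have h2 : (τ' * t + N * (C₁ * t * X + κ * t ^ 2)) / t ≤ C₂ * X := by
    rw [div_le_iff₀ ht]
    have h3 : τ' * t ≤ X * t := mul_le_mul_of_nonneg_right (by rw [hX]; nlinarith [mul_nonneg hκ ht.le]) ht.le
    have h4 : κ * t ^ 2 ≤ X * t := by
      have : κ * t ≤ X := by rw [hX]; linarith
      calc κ * t ^ 2 = κ * t * t := by ring
        _ ≤ X * t := mul_le_mul_of_nonneg_right this ht.le
    have h5 : N * (C₁ * t * X + κ * t ^ 2) ≤ N * (C₁ * t * X + X * t) := by gcongr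
    calc τ' * t + N * (C₁ * t * X + κ * t ^ 2) ≤ X * t + N * (C₁ * t * X + X * t) :=
          add_le_add h3 h5
      _ = C₂ * X * t := by rw [hC₂]; ring
  have h3 : 0 ≤ (τ' * t + N * (C₁ * t * X + κ * t ^ 2)) / t := by positivity
  calc Mm * ((τ' * t + N * (C₁ * t * X + κ * t ^ 2)) / t) ^ 2 ≤ Mm * (C₂ * X) ^ 2 := by
        gcongr
    _ = Mm * C₂ ^ 2 * X ^ 2 := by ring
    _ ≤ (C₁ + Mm * C₂ ^ 2) * X ^ 2 := by
        refine mul_le_mul_of_nonneg_right ?_ (sq_nonneg _)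
        linarith

/-- the affine parts at the scale `t` -/
theorem pow_an (E : Type*) [NormedAddCommGroup E] [InnerProductSpace ℝ E]
    [FiniteDimensional ℝ E] [MeasurableSpace E] [BorelSpace E] (m n Q : ℕ) (hQ : 1 ≤ Q) :
    ∃ C : ℝ, 1 ≤ C ∧ ∀ (T : Submodule ℝ E) (F : Frame m n T) (ν : Measure E)
      (P : E → E →L[ℝ] E) (β τ : ℝ) (u u' : Fin n → REF.E m → ℝ) (r ρ h e t κ : ℝ),
      LocB m Q T ν P β τ → 0 ≤ β → 0 ≤ τ → τ ≤ 1 → 0 < t → t ≤ ρ → ρ ≤ r → r ≤ 3 / 16 → 0 ≤ h →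
      0 ≤ κ → (∀ a, ContDiff ℝ ∞ (u a)) → (∀ a, ContDiff ℝ ∞ (u' a)) →
      (∀ a x, ‖x‖ < t → ‖iteratedFDeriv ℝ 2 (u' a) x‖ ≤ κ) →
      (∀ (φ : Fin n → REF.E m → ℝ) (M : ℝ), TstR (sW m) r ρ M φ →
        |∫ y, ∑ a, φ a (F.xc y) * F.ht u' a y ∂ν| ≤ r ^ (m + 1) * h ^ (1 - e) * M) →
      (∀ (ψ : REF.E m → ℝ) (M : ℝ), Continuous ψ → (∀ x, ρ ≤ ‖x‖ → ψ x = 0) →
        (∀ x, |ψ x| ≤ M) → |∫ y, ψ (F.xc y) ∂ν - Q * ∫ x, ψ x * √(REF.gm u x).det ∂μH[m]|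
          ≤ r ^ m * h ^ (1 / 2 - e) * M) →
      C * ((r / t) ^ m * h ^ (1 / 2 - e)) ≤ 1 →
      ∀ a, an (u' a) t
        ≤ C * t * (τ * t ^ β + (r / t) ^ (m + 1 + sW m) * h ^ (1 - e) + κ * t) := by
  obtain ⟨C₀, hC₀, hval⟩ := val_grad E m n
  set Mm : ℝ := Q * Skel.om m + 1 with hMm
  have hom : 0 ≤ Skel.om m := ENNReal.toReal_nonneg
  have hMm1 : 1 ≤ Mm := by
    have : (0:ℝ) ≤ Q * Skel.om m := by positivity
    rw [hMm]; linarith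
  refine ⟨C₀ * Mm, by nlinarith, ?_⟩
  intro T F ν P β τ u u' r ρ h e t κ hL hβ hτ hτ1 ht htρ hρr hr hh hκ0 hu hu' hκ hweak hmass hsm a
  have hr0 : 0 < r := ht.trans_le (htρ.trans hρr)
  have htr : t ≤ r := htρ.trans hρr
  have ht38 : t ≤ 3 / 8 := by linarith
  haveI : IsFiniteMeasure ν := (hL.int t ht ht38).cyl.fin
  have htm : 0 < t ^ m := by positivity
  have htβ : 0 ≤ t ^ β := Real.rpow_nonneg ht.le _
  have hσ : 0 ≤ τ * t * t ^ β := by positivity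
  have hp1 : 0 ≤ h ^ (1 - e) := Real.rpow_nonneg hh _
  have hp2 : 0 ≤ h ^ (1 / 2 - e) := Real.rpow_nonneg hh _
  have h1 := hval F (Q := Q) hQ ht hσ hu hu' hκ (hL.slab_lt ht ht38)
    (W := (r / t) ^ sW m * (r ^ (m + 1) * h ^ (1 - e))) (V := r ^ m * h ^ (1 / 2 - e))
    (Mm := Mm) (fun φ M hφ => ?_) (fun ψ M hψ hψs hψb =>
      hmass ψ M hψ (fun x hx => hψs x (htρ.trans hx)) hψb) ?_
    (hL.mass_le hβ hτ hτ1 ht ht38) (by positivity) (by positivity) a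
  · refine h1.trans ?_
    have e1 : (t ^ m)⁻¹ * ((r / t) ^ sW m * (r ^ (m + 1) * h ^ (1 - e)))
        = t * ((r / t) ^ (m + 1 + sW m) * h ^ (1 - e)) := by
      rw [pow_add (r / t) (m + 1), div_pow r t (m + 1)]
      field_simp
      ring
    rw [e1]
    have h2 : 0 ≤ t * ((r / t) ^ (m + 1 + sW m) * h ^ (1 - e)) := by positivity
    have e2 : Mm * (τ * t * t ^ β + κ * t ^ 2) + t * ((r / t) ^ (m + 1 + sW m) * h ^ (1 - e))
        ≤ Mm * (t * (τ * t ^ β + (r / t) ^ (m + 1 + sW m) * h ^ (1 - e) + κ * t)) := by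
      nlinarith
    calc _ ≤ C₀ * (Mm * (t * (τ * t ^ β + (r / t) ^ (m + 1 + sW m) * h ^ (1 - e) + κ * t))) :=
          mul_le_mul_of_nonneg_left e2 (by linarith)
      _ = _ := by ring
  · have hM : 0 ≤ M := by
      have h2 := hφ.bd a 0 (Nat.zero_le _) 0
      rw [pow_zero, mul_one] at h2
      exact (norm_nonneg _).trans h2
    refine (hweak φ _ (tstR_up hφ ht htr htρ hM)).trans (le_of_eq ?_)
    ring
  · have e1 : C₀ * (r ^ m * h ^ (1 / 2 - e)) = t ^ m * (C₀ * ((r / t) ^ m * h ^ (1 / 2 - e))) := by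
      rw [div_pow]
      field_simp
    rw [e1]
    have h2 : C₀ * ((r / t) ^ m * h ^ (1 / 2 - e)) ≤ 1 := by
      refine le_trans (mul_le_mul_of_nonneg_right ?_ (by positivity)) hsm
      nlinarith
    calc _ ≤ t ^ m * 1 := mul_le_mul_of_nonneg_left h2 htm.le
      _ = t ^ m := mul_one _

/-- **the reference at the scale `t`** -/
theorem pow_at (E : Type*) [NormedAddCommGroup E] [InnerProductSpace ℝ E]
    [FiniteDimensional ℝ E] [MeasurableSpace E] [BorelSpace E] (m n Q : ℕ) (hQ : 1 ≤ Q) :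
    ∃ C : ℝ, 1 ≤ C ∧ ∀ (T : Submodule ℝ E) (F : Frame m n T) (ν : Measure E)
      (P : E → E →L[ℝ] E) (β τ : ℝ) (u u' : Fin n → REF.E m → ℝ) (r ρ h e t κ : ℝ),
      LocB m Q T ν P β τ → 0 ≤ β → 0 ≤ τ → τ ≤ 1 → 0 < t → t ≤ ρ → ρ ≤ r → r ≤ 3 / 16 → 0 ≤ h →
      0 ≤ κ → (∀ a, ContDiff ℝ ∞ (u a)) → (∀ a, ContDiff ℝ ∞ (u' a)) →
      (∀ a x, ‖x‖ < t → ‖iteratedFDeriv ℝ 2 (u' a) x‖ ≤ κ) →
      (∀ (φ : Fin n → REF.E m → ℝ) (M : ℝ), TstR (sW m) r ρ M φ →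
        |∫ y, ∑ a, φ a (F.xc y) * F.ht u' a y ∂ν| ≤ r ^ (m + 1) * h ^ (1 - e) * M) →
      (∀ (ψ : REF.E m → ℝ) (M : ℝ), Continuous ψ → (∀ x, ρ ≤ ‖x‖ → ψ x = 0) →
        (∀ x, |ψ x| ≤ M) → |∫ y, ψ (F.xc y) ∂ν - Q * ∫ x, ψ x * √(REF.gm u x).det ∂μH[m]|
          ≤ r ^ m * h ^ (1 / 2 - e) * M) →
      C * ((r / t) ^ m * h ^ (1 / 2 - e)) ≤ 1 →
      (∀ a, |u' a 0| + t * ‖fderiv ℝ (u' a) 0‖
        ≤ C * t * (τ * t ^ β + (r / t) ^ (m + 1 + sW m) * h ^ (1 - e) + κ * t)) ∧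
      hN m T (F.lift u') ν t
        ≤ C * (τ * t ^ β + (r / t) ^ (m + 1 + sW m) * h ^ (1 - e) + κ * t) ^ 2 := by
  obtain ⟨C₁, hC₁, hval⟩ := pow_an E m n Q hQ
  set Mm : ℝ := Q * Skel.om m + 1 with hMm
  have hom : 0 ≤ Skel.om m := ENNReal.toReal_nonneg
  have hMm1 : 0 ≤ Mm := by
    have : (0:ℝ) ≤ Q * Skel.om m := by positivity
    rw [hMm]; linarith
  set C₂ : ℝ := 1 + n * (C₁ + 1) with hC₂
  have hMC : 0 ≤ Mm * C₂ ^ 2 := by positivity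
  refine ⟨C₁ + Mm * C₂ ^ 2, by linarith, ?_⟩
  intro T F ν P β τ u u' r ρ h e t κ hL hβ hτ hτ1 ht htρ hρr hr hh hκ0 hu hu' hκ hweak hmass hsm
  have ht38 : t ≤ 3 / 8 := by linarith
  haveI : IsFiniteMeasure ν := (hL.int t ht ht38).cyl.fin
  have hr0 : 0 < r := ht.trans_le (htρ.trans hρr)
  have htβ : 0 ≤ t ^ β := Real.rpow_nonneg ht.le _
  have hσ : 0 ≤ τ * t * t ^ β := by positivity
  have hp1 : 0 ≤ h ^ (1 - e) := Real.rpow_nonneg hh _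
  have hp2 : 0 ≤ h ^ (1 / 2 - e) := Real.rpow_nonneg hh _
  have hsm' : C₁ * ((r / t) ^ m * h ^ (1 / 2 - e)) ≤ 1 := by
    refine le_trans (mul_le_mul_of_nonneg_right ?_ (by positivity)) hsm
    linarith
  have hA := hval T F ν P β τ u u' r ρ h e t κ hL hβ hτ hτ1 ht htρ hρr hr hh hκ0 hu hu' hκ hweak
    hmass hsm'
  set X : ℝ := τ * t ^ β + (r / t) ^ (m + 1 + sW m) * h ^ (1 - e) + κ * t with hX
  have hX0 : 0 ≤ X := by rw [hX]; positivity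
  have hCX : 0 ≤ C₁ * t * X := mul_nonneg (mul_nonneg (by linarith) ht.le) hX0
  refine ⟨fun a => ?_, ?_⟩
  · have h1 := hA a
    unfold an at h1
    refine h1.trans ?_
    have h2 : 0 ≤ t * X := mul_nonneg ht.le hX0
    nlinarith
  · have h1 := hN_le_val F ht hσ hCX hu' hκ (hL.slab_lt ht ht38) (hL.mass_le hβ hτ hτ1 ht ht38) hA
    refine h1.trans ?_
    have h2 := pow_num (N := n) ht (mul_nonneg hτ htβ) (mul_nonneg (by positivity) hp1) hκ0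
      (Nat.cast_nonneg n) hX (by linarith : 0 ≤ C₁) hMm1 hC₂
    have e1 : τ * t * t ^ β = τ * t ^ β * t := by ring
    rw [e1]
    exact h2

end

end Vale.Agent.P214.BSEQ
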