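import Vale.Agent.P214.BSEQ.Stop
import Vale.Agent.P214.BSEQ.Props
import Vale.Agent.P214.WSEQ.Seq

/-! # P214, target B, block [B1]: the recursion

`NextStmt`: the invariant and one step (helper641).  `windows_of_next`: the sequence. -/

open Set Filter Topology MeasureTheory Metric
open scoped RealInnerProductSpace ENNReal ContDiff

set_option linter.all false

namespace Vale.Agent.P214.BSEQ

open WIN STR WSEQ

variable {m n : ℕ} {E : Type*} [NormedAddCommGroup E] [InnerProductSpace ℝ E]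
  [FiniteDimensional ℝ E] [MeasurableSpace E] [BorelSpace E]
  {Q : ℕ} {T : Submodule ℝ E} {ν : Measure E} {P : E → E →L[ℝ] E} {F : Frame m n T}

/-- bounds for the new reference which are fields of `WSeq` -/
structure Cen (X : Exps) (C : ℝ) (u' : Fin n → REF.E m → ℝ) (r r' : ℝ) : Prop where
  pw : ∀ a k, 2 ≤ k → k ≤ sW m → ∀ x,
    ‖iteratedFDeriv ℝ k (u' a) x‖ ≤ 2 * (r * r⁻¹ ^ k * r ^ (X.β / 4))
  cen : ∀ a, |u' a 0| ≤ C * (r' * r' ^ (X.β / 4))
  cen' : ∀ a, ‖fderiv ℝ (u' a) 0‖ ≤ C * r' ^ (X.β / 4)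

/-- what every state of the recursion satisfies -/
structure Basic (m n : ℕ) (T : Submodule ℝ E) (F : Frame m n T) (ν : Measure E) (X : Exps)
    (ε : ℝ) (u : Fin n → REF.E m → ℝ) (r h : ℝ) : Prop where
  r_pos : 0 < r
  r_le : r ≤ 3 / 16
  h_eq : h = hN m T (F.lift u) ν r
  h_pos : 0 < h
  h_le : h ≤ ε
  h_pow : h ≤ r ^ X.β
  th_pos : 0 < th h
  th_le : th h ≤ 1 / 120
  refe : RefS ε r u

/-- **one step of the recursion**: `I` is the invariant -/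
def NextStmt (E : Type*) [NormedAddCommGroup E] [InnerProductSpace ℝ E] [FiniteDimensional ℝ E]
    [MeasurableSpace E] [BorelSpace E] (m n Q : ℕ) (X : Exps) : Prop :=
  ∃ C ε₀ : ℝ, 1 ≤ C ∧ 0 < ε₀ ∧ ∀ ε : ℝ, 0 < ε → ε ≤ ε₀ → ∃ τ : ℝ, 0 < τ ∧ τ ≤ ε ∧
    ∀ (T : Submodule ℝ E) (F : Frame m n T) (ν : Measure E) (P : E → E →L[ℝ] E),
      LocB m Q T ν P X.β τ → ∃ I : (Fin n → REF.E m → ℝ) → ℝ → ℝ → Prop,
        (0 < hN m T (F.lift (0 : Fin n → REF.E m → ℝ)) ν (3 / 16) →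
          I 0 (3 / 16) (hN m T (F.lift (0 : Fin n → REF.E m → ℝ)) ν (3 / 16))) ∧
        (∀ u r h, I u r h → Basic m n T F ν X ε u r h) ∧
        ∀ u r h, I u r h → ∃ (u' : Fin n → REF.E m → ℝ) (r' : ℝ),
          Nxt m n Q T F ν X ε u r h u' r' ∧ 0 < r' ∧ Cen X C u' r r' ∧
          (hN m T (F.lift u') ν r' = 0 ∨ I u' r' (hN m T (F.lift u') ν r'))

lemma RefS.weaken' {ε ε' r : ℝ} {u : Fin n → REF.E m → ℝ} (hu : RefS ε r u) (hr : 0 < r)
    (h : ε ≤ ε') : RefS ε' r u :=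
  ⟨hu.smooth, hu.supp, fun a => (hu.val a).trans (mul_le_mul_of_nonneg_right h hr.le),
    fun a k h1 h2 x => (hu.small a k h1 h2 x).trans (mul_le_mul_of_nonneg_right h (by positivity)),
    hu.exact⟩

lemma Nxt.mono {X : Exps} {ε ε' : ℝ} {u u' : Fin n → REF.E m → ℝ} {r h r' : ℝ}
    (hN : Nxt m n Q T F ν X ε u r h u' r') (hr : 0 < r) (hε : ε ≤ ε') :
    Nxt m n Q T F ν X ε' u r h u' r' :=
  { hN with
    val := fun a => (hN.val a).trans (mul_le_mul_of_nonneg_right hε hr.le)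
    small := fun a k h1 h2 x =>
      (hN.small a k h1 h2 x).trans (mul_le_mul_of_nonneg_right hε (by positivity)) }

/-- the new reference vanishes far away -/
lemma Nxt.supp {X : Exps} {ε : ℝ} {u u' : Fin n → REF.E m → ℝ} {r h r' : ℝ}
    (hN : Nxt m n Q T F ν X ε u r h u' r') (hr : r ≤ 3 / 16)
    (hu : ∀ a x, 3 / 8 ≤ ‖x‖ → u a x = 0) (a : Fin n) (x : REF.E m) (hx : 3 / 8 ≤ ‖x‖) :
    u' a x = 0 := by
  rw [hN.outside a x (by linarith), hu a x hx]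

/-- superexponential decrease in the form of `WSeq.grow` -/
lemma grow_exp {b c c₅ : ℝ} (hb : 0 < b) (hc : 0 < c) (hc1 : c ≤ 1) (h5 : 0 < c₅)
    {r h : ℕ → ℝ} (hr : ∀ j, 0 < r j) (hr1 : ∀ j, r j ≤ 1)
    (hh : ∀ j, 0 < h j) (hpow : ∀ j, h j ≤ r j ^ b) (hrr : ∀ j, r (j + 1) ≤ r j)
    (hstep : ∀ j, h (j + 1) ≤ h j ^ (1 + c) ∨ r (j + 1) ≤ r j * h j ^ c₅)
    (h0 : h 0 ≤ Real.exp (-1)) :
    ∃ g > 0, ∀ j : ℕ, h j ≤ Real.exp (-(g * (1 + g) ^ j)) := by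
  have hg2 := g2_pos hb hc h5
  have hg3 := g3_pos hb h5
  refine ⟨min (g3 b c₅) (g2 b c c₅), lt_min hg3 hg2, fun j => ?_⟩
  have h1 := grow hb hc hc1 h5 (N := j) (fun i _ => hr i) (fun i _ => hr1 i) (fun i _ => hh i)
    (fun i _ => hpow i) (fun i _ => hrr i) (fun i _ => hstep i) j le_rfl
  refine h1.trans ?_
  set g := min (g3 b c₅) (g2 b c c₅) with hg
  have hgpos : 0 < g := lt_min hg3 hg2
  have h2 : g * (1 + g) ^ j ≤ g3 b c₅ * (1 + g2 b c c₅) ^ j := by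
    have e1 : g ≤ g3 b c₅ := min_le_left _ _
    have e2 : g ≤ g2 b c c₅ := min_le_right _ _
    gcongr
  have h3 : 0 ≤ g3 b c₅ * (1 + g2 b c c₅) ^ j := by positivity
  calc h 0 ^ (g3 b c₅ * (1 + g2 b c c₅) ^ j)
      ≤ Real.exp (-1) ^ (g3 b c₅ * (1 + g2 b c c₅) ^ j) := Real.rpow_le_rpow (hh 0).le h0 h3
    _ = Real.exp (-(g3 b c₅ * (1 + g2 b c c₅) ^ j)) := by
        rw [← Real.exp_mul]; congr 1; ring
    _ ≤ Real.exp (-(g * (1 + g) ^ j)) := Real.exp_le_exp.2 (by linarith)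

/-- the powers of the heights are summable and the heights tend to zero -/
lemma summable_pow {b c c₅ γ : ℝ} (hb : 0 < b) (hc : 0 < c) (hc1 : c ≤ 1) (h5 : 0 < c₅)
    (hγ : 0 < γ) {r h : ℕ → ℝ} (hr : ∀ j, 0 < r j) (hr1 : ∀ j, r j ≤ 1)
    (hh : ∀ j, 0 < h j) (hpow : ∀ j, h j ≤ r j ^ b) (hrr : ∀ j, r (j + 1) ≤ r j)
    (hstep : ∀ j, h (j + 1) ≤ h j ^ (1 + c) ∨ r (j + 1) ≤ r j * h j ^ c₅)
    (h0 : h 0 < 1) : Summable (fun j => h j ^ γ) ∧ Tendsto h atTop (𝓝 0) := by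
  have hg2 := g2_pos hb hc h5
  have hg3 := g3_pos hb h5
  set q : ℝ := h 0 ^ (g3 b c₅ * g2 b c c₅) with hq
  have hq0 : 0 < q := Real.rpow_pos_of_pos (hh 0) _
  have hq1 : q < 1 := Real.rpow_lt_one (hh 0).le h0 (by positivity)
  have hA : h 0 ^ g3 b c₅ ≤ 1 := Real.rpow_le_one (hh 0).le h0.le hg3.le
  have hgeo : ∀ j, h j ≤ q ^ j := by
    intro j
    have h1 := grow_geom hb hc hc1 h5 (N := j) (fun i _ => hr i) (fun i _ => hr1 i)
      (fun i _ => hh i) (fun i _ => hpow i) (fun i _ => hrr i) (fun i _ => hstep i) j le_rfl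
    refine h1.trans ?_
    calc h 0 ^ g3 b c₅ * q ^ j ≤ 1 * q ^ j := by gcongr
      _ = _ := one_mul _
  constructor
  · have hqs : q ^ γ < 1 := Real.rpow_lt_one hq0.le hq1 hγ
    refine Summable.of_nonneg_of_le (fun j => Real.rpow_nonneg (hh j).le _) (fun j => ?_)
      (summable_geometric_of_lt_one (Real.rpow_nonneg hq0.le γ) hqs)
    calc h j ^ γ ≤ (q ^ j) ^ γ := Real.rpow_le_rpow (hh j).le (hgeo j) hγ.le
      _ = (q ^ γ) ^ j := by
        rw [← Real.rpow_natCast, ← Real.rpow_natCast, ← Real.rpow_mul hq0.le,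
          ← Real.rpow_mul hq0.le, mul_comm]
  · exact squeeze_zero (fun j => (hh j).le) hgeo (tendsto_pow_atTop_nhds_zero_of_lt_one hq0.le hq1)

/-- **the sequence of windows from one step and the accuracy** -/
theorem windows_of_next (E : Type*) [NormedAddCommGroup E] [InnerProductSpace ℝ E]
    [FiniteDimensional ℝ E] [MeasurableSpace E] [BorelSpace E] {m n Q : ℕ} {X : Exps}
    (hX : X.OK m) (hnext : NextStmt E m n Q X) (hacc : AccStmt E m n Q X) :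
    ∃ C : ℝ, 1 ≤ C ∧ ∀ ε : ℝ, 0 < ε → ∃ τ : ℝ, 0 < τ ∧ τ ≤ ε ∧
    ∀ (T : Submodule ℝ E) (F : Frame m n T) (ν : Measure E) (P : E → E →L[ℝ] E),
      LocB m Q T ν P X.β τ →
      (∃ ρ > 0, ∃ w : E → E, ALL.OnGraph T ν ρ w) ∨ Nonempty (WSeq m n Q T F ν X C ε) := by
  obtain ⟨C, ε₀, hC, hε₀, hnext⟩ := hnext
  refine ⟨C, hC, fun ε hε => ?_⟩
  obtain ⟨εa, hεa, hacc⟩ := hacc
  obtain ⟨εs, hεs, hstop⟩ := onGraph_of_radii E m n
  obtain ⟨ε', hε'0, e1, e2, e3, e4, e5⟩ : ∃ ε' : ℝ, 0 < ε' ∧ ε' ≤ ε ∧ ε' ≤ εa ∧ ε' ≤ εs ∧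
      ε' ≤ Real.exp (-1) ∧ ε' ≤ ε₀ :=
    ⟨min (min (min ε ε₀) εa) (min εs (Real.exp (-1))), by positivity,
      (min_le_left _ _).trans ((min_le_left _ _).trans (min_le_left _ _)),
      (min_le_left _ _).trans (min_le_right _ _), (min_le_right _ _).trans (min_le_left _ _),
      (min_le_right _ _).trans (min_le_right _ _),
      (min_le_left _ _).trans ((min_le_left _ _).trans (min_le_right _ _))⟩
  obtain ⟨τ, hτ, hτε, hmain⟩ := hnext ε' hε'0 e5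
  refine ⟨τ, hτ, hτε.trans e1, fun T F ν P hL => ?_⟩
  by_cases hG : ∃ ρ > 0, ∃ w : E → E, ALL.OnGraph T ν ρ w
  · exact Or.inl hG
  right
  have hI38 := hL.int (3 / 8) (by norm_num) le_rfl
  obtain ⟨I, hI0, hIb, hIn⟩ := hmain T F ν P hL
  -- the first state
  have hnn0 : 0 ≤ hN m T (F.lift (0 : Fin n → REF.E m → ℝ)) ν (3 / 16) := hN_nonneg (by norm_num)
  have hpos0 : 0 < hN m T (F.lift (0 : Fin n → REF.E m → ℝ)) ν (3 / 16) := by
    refine lt_of_le_of_ne hnn0 fun h0 => hG ⟨3 / 16, by norm_num, _,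
      onGraph_of_hN_zero F hI38.cyl (by norm_num) (ball_subset_ball (by norm_num))
        (fun a => contDiff_const) (fun a x _ => rfl) h0.symm⟩
  have hInv0 := hI0 hpos0
  -- the recursion
  have key : ∀ s : {p : (Fin n → REF.E m → ℝ) × ℝ × ℝ // I p.1 p.2.1 p.2.2},
      ∃ s' : {p : (Fin n → REF.E m → ℝ) × ℝ × ℝ // I p.1 p.2.1 p.2.2},
        Nxt m n Q T F ν X ε' s.1.1 s.1.2.1 s.1.2.2 s'.1.1 s'.1.2.1 ∧
        Cen X C s'.1.1 s.1.2.1 s'.1.2.1 := by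
    rintro ⟨⟨u, r, h⟩, hs⟩
    obtain ⟨u', r', h1, h2, h3, h4⟩ := hIn u r h hs
    have hb := hIb u r h hs
    rcases h4 with h4 | h4
    · exfalso
      have hr'3 : r' ≤ 3 / 16 := by
        have a1 := h1.r_le
        have a2 := hb.r_le
        have a3 := hb.r_pos
        have a4 := hb.th_pos
        have a5 : r * (1 - 12 * th h) ≤ r := by nlinarith
        linarith
      exact hG ⟨r', h2, _, onGraph_of_hN_zero F hI38.cyl h2 (ball_subset_ball (by linarith))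
        h1.smooth (h1.supp hb.r_le hb.refe.supp) h4⟩
    · exact ⟨⟨⟨u', r', _⟩, h4⟩, h1, h3⟩
  choose g hfg using key
  set S : ℕ → {p : (Fin n → REF.E m → ℝ) × ℝ × ℝ // I p.1 p.2.1 p.2.2} :=
    fun j => Nat.rec ⟨⟨0, 3 / 16, _⟩, hInv0⟩ (fun _ s => g s) j with hSdef
  have hB : ∀ j, Basic m n T F ν X ε' (S j).1.1 (S j).1.2.1 (S j).1.2.2 :=
    fun j => hIb _ _ _ (S j).2
  have hnx : ∀ j, Nxt m n Q T F ν X ε' (S j).1.1 (S j).1.2.1 (S j).1.2.2
      (S (j + 1)).1.1 (S (j + 1)).1.2.1 := fun j => (hfg (S j)).1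
  have hcn : ∀ j, Cen X C (S (j + 1)).1.1 (S j).1.2.1 (S (j + 1)).1.2.1 :=
    fun j => (hfg (S j)).2
  have hanti : ∀ j, (S (j + 1)).1.2.1 ≤ (S j).1.2.1 := fun j => by
    have a1 := (hnx j).r_le
    have a3 := (hB j).r_pos
    have a4 := (hB j).th_pos
    nlinarith
  have hr1 : ∀ j, (S j).1.2.1 ≤ 1 := fun j => by linarith [(hB j).r_le]
  have hstep : ∀ j, (S (j + 1)).1.2.2 ≤ (S j).1.2.2 ^ (1 + X.c) ∨
      (S (j + 1)).1.2.1 ≤ (S j).1.2.1 * (S j).1.2.2 ^ X.c₅ := fun j => by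
    rcases (hnx j).h_next with h | h
    · left; rw [(hB (j + 1)).h_eq]; exact h
    · right; exact h.le
  have hc1 : X.c ≤ 1 := by linarith [hX.c_le]
  have he : 0 < 1 / 2 - X.e := by
    have h1 := hX.c₅_small
    have h2 := hX.c₅_pos
    have h3 : 0 ≤ (5 * m + 20) * X.c₅ := by positivity
    linarith
  have h01 : (S 0).1.2.2 < 1 := by
    have h1 := (hB 0).h_le.trans e4
    have h2 : Real.exp (-1) < 1 := by
      rw [← Real.exp_zero]; exact Real.exp_lt_exp.2 (by norm_num)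
    linarith
  obtain ⟨hsum, hhlim⟩ := summable_pow hX.β_pos hX.c_pos hc1 hX.c₅_pos he
    (r := fun j => (S j).1.2.1) (h := fun j => (S j).1.2.2) (fun j => (hB j).r_pos) hr1
    (fun j => (hB j).h_pos) (fun j => (hB j).h_pow) hanti hstep h01
  have hlim : Tendsto (fun j => (S j).1.2.1) atTop (𝓝 0) := by
    rcases tendsto_zero_or (fun j => (hB j).r_pos) hanti with h | ⟨ρ, hρ, hρr⟩
    · exact h
    · refine absurd (hstop (Q := Q) F (P := P) (fun r hr hr3 => ⟨_, _, hL.int r hr hr3⟩)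
        (u := fun j => (S j).1.1) (r := fun j => (S j).1.2.1) (hh := fun j => (S j).1.2.2)
        (b := fun j => (S j).1.2.2 ^ (1 / 2 - X.e)) hρ hρr hanti (fun j => (hB j).r_le)
        (fun j => (hB j).refe.weaken' (hB j).r_pos e3) (fun j => (hB j).h_eq) hhlim hsum
        fun j a x => ?_) hG
      have h1 := (hnx j).size a 0 (Nat.zero_le _) x
      rw [norm_iteratedFDeriv_zero, Real.norm_eq_abs, pow_zero, mul_one] at h1
      have h2 : 0 ≤ (S j).1.2.2 ^ (1 / 2 - X.e) := Real.rpow_nonneg (hB j).h_pos.le _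
      calc _ ≤ (S j).1.2.1 * (S j).1.2.2 ^ (1 / 2 - X.e) := h1
        _ ≤ 1 * (S j).1.2.2 ^ (1 / 2 - X.e) := by gcongr; exact hr1 j
        _ = _ := one_mul _
  exact ⟨{
    u := fun j => (S j).1.1
    r := fun j => (S j).1.2.1
    h := fun j => (S j).1.2.2
    u_zero := rfl
    r_zero := rfl
    r_pos := fun j => (hB j).r_pos
    h_eq := fun j => (hB j).h_eq
    h_pos := fun j => (hB j).h_pos
    h_le := fun j => (hB j).h_le.trans e1
    h_pow := fun j => (hB j).h_pow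
    th_le := fun j => (hB j).th_le
    refe := fun j => (hB j).refe.weaken' (hB j).r_pos e1
    nxt := fun j => (hnx j).mono (hB j).r_pos e1
    pw := fun j => (hcn j).pw
    cen := fun j => (hcn j).cen
    cen' := fun j => (hcn j).cen'
    acc := fun j => by
      refine hacc T F ν P ε' (S j).1.1 (S (j + 1)).1.1 (S (j + 2)).1.1 (S j).1.2.1 (S j).1.2.2
        (S (j + 1)).1.2.1 (S (j + 1)).1.2.2 (S (j + 2)).1.2.1 ⟨_, _, hI38⟩ e2 (hB j).r_pos
        (hB j).r_le (hB j).h_pos ((hB j).h_le.trans e2) (hB (j + 1)).h_pos ?_ (hB j).refe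
        (hnx j) (hnx (j + 1))
      rw [(hB (j + 1)).h_eq]
      refine (hnx j).top _ (hnx j).r_ge ((hnx j).r_le.trans ?_)
      have a3 := (hB j).r_pos
      have a4 := (hB j).th_pos
      exact mul_le_mul_of_nonneg_left (by linarith) a3.le
    grow := grow_exp hX.β_pos hX.c_pos hc1 hX.c₅_pos
      (r := fun j => (S j).1.2.1) (h := fun j => (S j).1.2.2) (fun j => (hB j).r_pos) hr1
      (fun j => (hB j).h_pos) (fun j => (hB j).h_pow) hanti hstep ((hB 0).h_le.trans e4)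
    r_lim := hlim }⟩

end Vale.Agent.P214.BSEQ
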