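import Vale.Agent.P214.BSEQ.Seq
import Vale.Agent.P214.BSEQ.Inv
import Vale.Agent.P214.BSEQ.Fine

/-! # P214, target B, block [B1]: from one step (`OneStmt`) to the windows sequence -/

open Set Filter Topology MeasureTheory Metric
open scoped RealInnerProductSpace ENNReal ContDiff

set_option linter.all false

namespace Vale.Agent.P214.BSEQ

open WIN STR WSEQ

variable {m n : ℕ} {E : Type*} [NormedAddCommGroup E] [InnerProductSpace ℝ E]
  [FiniteDimensional ℝ E] [MeasurableSpace E] [BorelSpace E]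
  {Q : ℕ} {T : Submodule ℝ E} {ν : Measure E} {P : E → E →L[ℝ] E} {F : Frame m n T}

lemma LocB.mono {β τ τ' : ℝ} (hL : LocB m Q T ν P β τ) (h : τ ≤ τ') : LocB m Q T ν P β τ' :=
  { hL with
    int := fun r hr hr3 => intCyl_mono (hL.int r hr hr3) (by gcongr) (by gcongr)
    exc := fun r hr hr3 => (hL.exc r hr hr3).trans (by gcongr) }

/-- the initial height -/
lemma init_height {H δ : ℝ} (hI : Skel.IntCyl m Q T 0 (3 / 16) (H * (3 / 16)) δ ν P)
    (F : Frame m n T) (hH : 0 ≤ H) (hδ1 : δ ≤ 1) :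
    hN m T (F.lift (0 : Fin n → REF.E m → ℝ)) ν (3 / 16) ≤ H ^ 2 * (Q * Skel.om m + 1) := by
  have hfin := hI.cyl.fin
  have hlift : ∀ y : E, F.lift (0 : Fin n → REF.E m → ℝ) y = 0 := fun y => by
    unfold Frame.lift; simp
  have h1 : hE T (F.lift (0 : Fin n → REF.E m → ℝ)) ν (3 / 16)
      ≤ (H * (3 / 16)) ^ 2 * ν.real (Skel.cylSet T 0 (3 / 16)) := by
    unfold hE
    refine (le_abs_self _).trans ?_
    rw [← Real.norm_eq_abs]
    refine norm_setIntegral_le_of_norm_le_const_ae' (measure_lt_top _ _) ?_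
    filter_upwards [hI.cyl.slab] with y hy hyC
    have h2 := hy hyC
    rw [Real.norm_of_nonneg (sq_nonneg _)]
    unfold KMS.rel
    rw [hlift, sub_zero, FV.co_apply]
    gcongr
  have h2 : ν.real (Skel.cylSet T 0 (3 / 16)) ≤ (Q * Skel.om m + 1) * (3 / 16) ^ m := by
    have h3 := (abs_le.1 hI.mass).2
    have h4 : δ * (3 / 16 : ℝ) ^ m ≤ 1 * (3 / 16) ^ m := by gcongr
    linarith
  unfold hN
  rw [inv_mul_le_iff₀ (by positivity)]
  calc hE T (F.lift (0 : Fin n → REF.E m → ℝ)) ν (3 / 16)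
      ≤ (H * (3 / 16)) ^ 2 * ((Q * Skel.om m + 1) * (3 / 16) ^ m) := h1.trans (by gcongr)
    _ = _ := by ring

lemma Exps.OK.p_bounds {X : Exps} (hX : X.OK m) :
    1 / 4 ≤ 1 / 2 - 2 * X.e ∧ 1 / 2 - 2 * X.e ≤ 1 / 2 := by
  have h1 := hX.c₅_small
  have h2 := hX.c₅_pos
  have h3 : 0 ≤ (5 * m + 20) * X.c₅ := by positivity
  have h4 := hX.e_pos
  constructor <;> linarith

/-- what (H) gives -/
lemma Inv.h_bounds {X : Exps} (hX : X.OK m) {η ε : ℝ} {u : Fin n → REF.E m → ℝ} {r h : ℝ}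
    (hI : Inv m n T F ν X η ε u r h) (hη : 0 < η) (hη2 : η ≤ 1 / 2) : h ≤ η ∧ h ≤ r ^ X.β := by
  obtain ⟨hp4, hp2⟩ := hX.p_bounds
  set p : ℝ := 1 / 2 - 2 * X.e with hp
  have hp0 : 0 < p := by linarith
  have hr := hI.r_pos
  have hh := hI.h_pos
  have hr1 : r ≤ 1 := by linarith [hI.r_le]
  have hb2 : 0 ≤ X.b₂ := by
    have := hX.β_pos
    show 0 ≤ X.β * p
    positivity
  have hrb : r ^ X.b₂ ≤ 1 := Real.rpow_le_one hr.le hr1 hb2
  have hrb0 : 0 < r ^ X.b₂ := Real.rpow_pos_of_pos hr _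
  have h1 : h ^ p ≤ η * r ^ X.b₂ := hI.h_small
  have h2 : h ^ p ≤ η := h1.trans (by nlinarith)
  have h3 : h ^ p ≤ r ^ X.b₂ := h1.trans (by nlinarith)
  have hh1 : h ≤ 1 := by
    by_contra hcon
    push Not at hcon
    have : 1 < h ^ p := Real.one_lt_rpow hcon hp0
    linarith
  constructor
  · calc h = h ^ (1:ℝ) := (Real.rpow_one h).symm
      _ ≤ h ^ p := Real.rpow_le_rpow_of_exponent_ge hh hh1 (by linarith)
      _ ≤ η := h2
  · have h4 : (h ^ p) ^ p⁻¹ ≤ (r ^ X.b₂) ^ p⁻¹ :=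
      Real.rpow_le_rpow (Real.rpow_nonneg hh.le _) h3 (by positivity)
    rw [← Real.rpow_mul hh.le, mul_inv_cancel₀ hp0.ne', Real.rpow_one, ← Real.rpow_mul hr.le] at h4
    have h5 : X.b₂ * p⁻¹ = X.β := by
      show X.β * p * p⁻¹ = X.β
      field_simp
    rwa [h5] at h4

/-- the zero reference satisfies the invariant if the first height is small -/
lemma inv_zero {X : Exps} {η ε h : ℝ} (hη : 0 ≤ η) (hε : 0 ≤ ε)
    (hh : h = hN m T (F.lift (0 : Fin n → REF.E m → ℝ)) ν (3 / 16)) (hh0 : 0 < h)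
    (hs : h ^ (1 / 2 - 2 * X.e) ≤ η * (3 / 16) ^ X.b₂) :
    Inv m n T F ν X η ε 0 (3 / 16) h where
  smooth a := contDiff_const
  supp a x hx := rfl
  exact a x hx := Mop_zero a x
  r_pos := by norm_num
  r_le := le_rfl
  h_eq := hh
  h_pos := hh0
  h_small := hs
  curv a k h2 hk x := by
    have h1 : iteratedFDeriv ℝ k ((0 : Fin n → REF.E m → ℝ) a) = 0 := by
      rw [Pi.zero_apply]; exact iteratedFDeriv_zero_fun
    rw [h1, Pi.zero_apply, norm_zero]; positivity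
  slope a x := by
    have h1 : fderiv ℝ ((0 : Fin n → REF.E m → ℝ) a) x = 0 := by
      rw [Pi.zero_apply]; exact (hasFDerivAt_const (0:ℝ) x).fderiv
    rw [h1, norm_zero]; exact hε
  val a := by
    have h1 : (0 : Fin n → REF.E m → ℝ) a 0 = 0 := rfl
    rw [h1, abs_zero]; positivity

/-- **`OneStmt` gives `NextStmt`** -/
theorem nextStmt_of_one {X : Exps} (hX : X.OK m) (h1 : OneStmt E m n Q X) :
    NextStmt E m n Q X := by
  obtain ⟨C, ε₀, hC, hε₀, hone⟩ := h1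
  refine ⟨C, ε₀, hC, hε₀, fun ε hε hεε => ?_⟩
  obtain ⟨η, τ, hη, hη2, -, hτ, hτε, hsma, hmain⟩ := hone ε hε hεε
  obtain ⟨hp4, hp2⟩ := hX.p_bounds
  set p : ℝ := 1 / 2 - 2 * X.e with hp
  have hp0 : 0 < p := by linarith
  have hom : (0:ℝ) < Q * Skel.om m + 1 := by
    have := W5.om_pos m; positivity
  -- the first height
  set a : ℝ := (η * (3 / 16) ^ X.b₂) ^ p⁻¹ with ha
  have ha0 : 0 < a := by positivity
  obtain ⟨τ', hτ'0, s1, s2, s3⟩ : ∃ τ' : ℝ, 0 < τ' ∧ τ' ≤ τ ∧ τ' ≤ 1 ∧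
      τ' ≤ a / (Q * Skel.om m + 1) :=
    ⟨min τ (min 1 (a / (Q * Skel.om m + 1))), by positivity, min_le_left _ _,
      (min_le_right _ _).trans (min_le_left _ _), (min_le_right _ _).trans (min_le_right _ _)⟩
  refine ⟨τ', hτ'0, s1.trans hτε, fun T F ν P hL => ⟨Inv m n T F ν X η ε, fun hpos => ?_,
    fun u r h hI => ?_, fun u r h hI => ?_⟩⟩
  · refine inv_zero hη.le hε.le rfl hpos ?_
    have hβ := hX.β_pos
    have hI := hL.int (3 / 16) (by norm_num) (by norm_num)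
    have hb1 : (3 / 16 : ℝ) ^ X.β ≤ 1 := Real.rpow_le_one (by norm_num) (by norm_num) hβ.le
    have hI' : Skel.IntCyl m Q T 0 (3 / 16) (τ' * (3 / 16)) 1 ν P :=
      intCyl_mono hI (by nlinarith) (by nlinarith)
    have h2 : hN m T (F.lift (0 : Fin n → REF.E m → ℝ)) ν (3 / 16) ≤ a := by
      refine (init_height hI' F hτ'0.le le_rfl).trans ?_
      have h3 : τ' * (Q * Skel.om m + 1) ≤ a := by rwa [le_div_iff₀ hom] at s3
      calc τ' ^ 2 * (Q * Skel.om m + 1) = τ' * (τ' * (Q * Skel.om m + 1)) := by ring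
        _ ≤ 1 * a := mul_le_mul s2 h3 (by positivity) zero_le_one
        _ = a := one_mul a
    have h4 := Real.rpow_le_rpow hpos.le h2 hp0.le
    rw [ha, ← Real.rpow_mul (by positivity), inv_mul_cancel₀ hp0.ne', Real.rpow_one] at h4
    exact h4
  · obtain ⟨b1, b2⟩ := hI.h_bounds hX hη hη2
    have hs := hsma h hI.h_pos b1
    exact ⟨hI.r_pos, hI.r_le, hI.h_eq, hI.h_pos, hs.le_ε, b2, hs.th_pos, hs.th_le,
      (hmain T F ν P (hL.mono s1) u r h hI).1⟩
  · obtain ⟨-, u', r', k1, k2, k3, -, k4⟩ := hmain T F ν P (hL.mono s1) u r h hI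
    exact ⟨u', r', k1, k2, ⟨k3.pw, k3.cen, k3.cen'⟩, k4⟩

/-- **[B-WINDOWS]** from the one step statement and the accuracy -/
theorem windowsStmt_of (E : Type*) [NormedAddCommGroup E] [InnerProductSpace ℝ E]
    [FiniteDimensional ℝ E] [MeasurableSpace E] [BorelSpace E] {m n Q : ℕ}
    (h : ∀ β : ℝ, 0 < β → β ≤ 1 / 2 → ∃ X : Exps, X.OK m ∧ X.β = β ∧ OneStmt E m n Q X ∧
      AccStmt E m n Q X) : WindowsStmt E m n Q := by
  intro β hβ hβ2
  obtain ⟨X, hX, rfl, h1, h2⟩ := h β hβ hβ2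
  exact ⟨X, hX, rfl, windows_of_next E hX (nextStmt_of_one hX h1) h2⟩

end Vale.Agent.P214.BSEQ
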