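import Vale.Agent.P214.BSEQ.StepS
import Vale.Agent.P214.WIN.StepFin

/-!
# P214, target B, block BSEQ: STEP-R for scaled-small references, unconditionally
-/

open MeasureTheory

namespace Vale.Agent.P214.BSEQ

/-- **STEP at every radius, scaled norms, unconditionally** -/
theorem stepS_all (E : Type*) [NormedAddCommGroup E] [InnerProductSpace ℝ E]
    [FiniteDimensional ℝ E] [MeasurableSpace E] [BorelSpace E] {m : ℕ} (n : ℕ) (hm : 1 ≤ m)
    {Q : ℕ} (hQ : 1 ≤ Q) : StepSStmt E m n Q :=
  stepS (WIN.step_all E n hm hQ)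

end Vale.Agent.P214.BSEQ
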