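import Vale.Agent.P214.BSEQ.StepS
import Vale.Agent.P214.BSEQ.Grow
import Vale.Agent.P214.WSEQ.Stop

/-!
# P214, target B, block BSEQ: the two stop alternatives for references which are small in scaled
norms
-/

open Set Filter Topology MeasureTheory Metric
open scoped RealInnerProductSpace ENNReal ContDiff

set_option linter.all false

namespace Vale.Agent.P214.BSEQ

open WIN STR

variable {m n : ℕ} {E : Type*} [NormedAddCommGroup E] [InnerProductSpace ℝ E]
  [FiniteDimensional ℝ E] [MeasurableSpace E] [BorelSpace E]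

/-- **(S1)** vanishing height: the measure sits on the graph of the reference -/
theorem onGraph_of_hN_zero {T : Submodule ℝ E} (F : Frame m n T) {G : Set E} {H : ℝ}
    {ν : Measure E} {P : E → E →L[ℝ] E} (hC : FV.CylStat m T G H ν P) {r : ℝ} (hr0 : 0 < r)
    (hG : ball 0 r ⊆ G) {u : Fin n → REF.E m → ℝ} (hsm : ∀ a, ContDiff ℝ ∞ (u a))
    (hsupp : ∀ a x, 3 / 8 ≤ ‖x‖ → u a x = 0)
    (h0 : hN m T (F.lift u) ν r = 0) : ALL.OnGraph T ν r (F.lift u) := by
  have hE0 : hE T (F.lift u) ν r = 0 := by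
    unfold hN at h0
    rcases mul_eq_zero.1 h0 with h1 | h1
    · exact absurd (inv_eq_zero.1 h1) (by positivity)
    · exact h1
  refine ⟨?_, fun y _ => F.star_lift u _, ?_⟩
  · have h1 : (fun y => F.lift u (T.starProjection y)) = F.lift u := by
      funext y; exact F.lift_base u y
    rw [h1]
    exact (F.contDiff_lift hsm).contDiffOn
  · refine ALL.ae_graph_of_tendsto (w := fun _ => F.lift u) (w₀ := F.lift u) ?_ ?_
      (ALL.measurableSet_cyl T 0 r) ?_
    · exact Metric.tendstoUniformlyOn_iff.2 fun δ hδ =>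
        Eventually.of_forall fun _ y _ => by simpa using hδ
    · have h3 := ALL.lintegral_eq_hE hC F (fun a => (hsm a).continuous) hsupp hG
      have h4 : ∫⁻ y in T.starProjection ⁻¹' ball 0 r,
          ‖y - T.starProjection y - F.lift u (T.starProjection y)‖ₑ ^ 2 ∂ν = 0 := by
        rw [h3, hE0, ENNReal.ofReal_zero]
      simp only [h4]
      exact tendsto_const_nhds
    · intro j
      have hc : Continuous fun y => F.lift u (T.starProjection y) :=
        (F.continuous_lift fun a => (hsm a).continuous).comp T.starProjection.continuous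
      exact hc.measurable.aemeasurable

/-- a reference at the radius `r`, seen from a comparable smaller radius -/
lemma RefS.shrink {ε r ρ : ℝ} {u : Fin n → REF.E m → ℝ} (hu : RefS ε r u) (hε : 0 ≤ ε)
    (hρ : 0 < ρ) (hρr : ρ ≤ r) (hr : r ≤ 2 * ρ) : RefS (2 * ε) ρ u := by
  have hr0 : 0 < r := hρ.trans_le hρr
  refine ⟨hu.smooth, hu.supp, fun a => (hu.val a).trans (by nlinarith), fun a k hk hk' x => ?_,
    fun a x hx => hu.exact a x (hx.trans_le hρr)⟩
  refine (hu.small a k hk hk' x).trans ?_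
  have h1 : r * r⁻¹ ^ k ≤ ρ * ρ⁻¹ ^ k := by
    obtain ⟨j, rfl⟩ : ∃ j, k = j + 1 := ⟨k - 1, by omega⟩
    rw [pow_succ, pow_succ, mul_comm (r⁻¹ ^ j), mul_comm (ρ⁻¹ ^ j), ← mul_assoc, ← mul_assoc,
      mul_inv_cancel₀ hr0.ne', mul_inv_cancel₀ hρ.ne', one_mul, one_mul]
    exact pow_le_pow_left₀ (by positivity) (inv_anti₀ hρ hρr) j
  have h2 : 0 ≤ r * r⁻¹ ^ k := by positivity
  calc ε * (r * r⁻¹ ^ k) ≤ ε * (ρ * ρ⁻¹ ^ k) := by gcongr
    _ ≤ 2 * ε * (ρ * ρ⁻¹ ^ k) := by
      have : 0 ≤ ε * (ρ * ρ⁻¹ ^ k) := by positivity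
      linarith

/-- **(S2)** the radii stay away from zero: the limit of the references carries the measure -/
theorem onGraph_of_radii (E : Type*) [NormedAddCommGroup E] [InnerProductSpace ℝ E]
    [FiniteDimensional ℝ E] [MeasurableSpace E] [BorelSpace E] (m n : ℕ) : ∃ ε₁ : ℝ, 0 < ε₁ ∧
    ∀ {Q : ℕ} {T : Submodule ℝ E} (F : Frame m n T) {ν : Measure E} {P : E → E →L[ℝ] E},
      (∀ r : ℝ, 0 < r → r ≤ 3 / 8 → ∃ H δ : ℝ, Skel.IntCyl m Q T 0 r H δ ν P) →
      ∀ {u : ℕ → Fin n → REF.E m → ℝ} {r hh b : ℕ → ℝ} {ρ : ℝ}, 0 < ρ → (∀ j, ρ ≤ r j) →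
      (∀ j, r (j + 1) ≤ r j) → (∀ j, r j ≤ 3 / 16) → (∀ j, RefS ε₁ (r j) (u j)) →
      (∀ j, hh j = hN m T (F.lift (u j)) ν (r j)) → Tendsto hh atTop (𝓝 0) → Summable b →
      (∀ j a x, |u (j + 1) a x - u j a x| ≤ b j) →
      ∃ ρ' > 0, ∃ w : E → E, ALL.OnGraph T ν ρ' w := by
  obtain ⟨ε, hε, hmain⟩ := ALL.onGraph_of_seq (E := E) m n
  obtain ⟨K, hK1, hK⟩ := refe_scS m n
  have hKpos : 0 < K := by linarith
  refine ⟨ε / (2 * K), by positivity, ?_⟩
  intro Q T F ν P hI u r hh b ρ₀ hρ₀ hρr hanti hr1 hu hheq hhlim hsum hd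
  -- the limit radius
  have hbdd : BddBelow (range r) := ⟨ρ₀, by rintro _ ⟨j, rfl⟩; exact hρr j⟩
  have hA : Antitone r := antitone_nat_of_succ_le hanti
  set ρ : ℝ := ⨅ j, r j with hρdef
  have hρge : ρ₀ ≤ ρ := le_ciInf hρr
  have hρ : 0 < ρ := hρ₀.trans_le hρge
  have hρle : ∀ j, ρ ≤ r j := fun j => ciInf_le hbdd j
  have hlim : Tendsto r atTop (𝓝 ρ) := tendsto_atTop_ciInf hA hbdd
  obtain ⟨N, hNr⟩ : ∃ N, ∀ j ≥ N, r j ≤ 2 * ρ := by
    have h1 : ∀ᶠ j in atTop, r j < 2 * ρ := hlim.eventually (gt_mem_nhds (by linarith))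
    obtain ⟨N, hN⟩ := eventually_atTop.1 h1
    exact ⟨N, fun j hj => (hN j hj).le⟩
  -- the dilation
  set t : ℝ := 16 / 3 * ρ with ht
  have ht0 : 0 < t := by positivity
  have htr : t * (3 / 16) = ρ := by rw [ht]; ring
  have htr2 : t * (3 / 8) = 2 * ρ := by rw [ht]; ring
  have hρ3 : ρ ≤ 3 / 16 := (hρle 0).trans (hr1 0)
  obtain ⟨H, δ, hI2⟩ := hI (2 * ρ) (by positivity) (by linarith)
  have hIb : Skel.IntCyl m Q T 0 (3 / 8) (t⁻¹ * H) δ (bu m t ν) (buP t P) := by
    refine intCyl_bu ht0 ?_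
    rw [htr2, ← mul_assoc, mul_inv_cancel₀ ht0.ne', one_mul]
    exact hI2
  set v : ℕ → Fin n → REF.E m → ℝ := fun j a x => bc m x * sc t (u (j + N) a) x with hv
  have hvR : ∀ j, Refe ε (3 / 16) (v j) := by
    intro j
    have h1 : RefS (2 * (ε / (2 * K))) (t * (3 / 16)) (u (j + N)) := by
      rw [htr]
      exact (hu (j + N)).shrink (by positivity) hρ (hρle _) (hNr _ (by omega))
    have h2 := hK (u (j + N)) t _ ht0 (by positivity) h1
    have h3 : K * (2 * (ε / (2 * K))) = ε := by field_simp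
    rwa [h3] at h2
  have hveq : ∀ j a x, ‖x‖ < 3 / 16 → v j a x = sc t (u (j + N) a) x := fun j a x hx => by
    simp only [hv]; rw [bc_one (by linarith), one_mul]
  have hinc : ∀ j a x, |v (j + 1) a x - v j a x| ≤ t⁻¹ * b (j + N) := by
    intro j a x
    have h1 : v (j + 1) a x - v j a x = bc m x *
        (t⁻¹ * (u (j + N + 1) a (t • x) - u (j + N) a (t • x))) := by
      simp only [hv, sc]
      rw [show j + 1 + N = j + N + 1 by ring]
      ring
    rw [h1, abs_mul, abs_mul, abs_of_pos (inv_pos.2 ht0)]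
    have h2 : |bc m x| ≤ 1 := by
      rw [abs_of_nonneg (bc m).nonneg]; exact (bc m).le_one
    have h3 := hd (j + N) a (t • x)
    calc |bc m x| * (t⁻¹ * |u (j + N + 1) a (t • x) - u (j + N) a (t • x)|)
        ≤ 1 * (t⁻¹ * b (j + N)) := by
          refine mul_le_mul h2 (mul_le_mul_of_nonneg_left h3 (inv_pos.2 ht0).le)
            (by positivity) zero_le_one
      _ = _ := one_mul _
  have hht : Tendsto (fun j => hE T (F.lift (v j)) (bu m t ν) (3 / 16)) atTop (𝓝 0) := by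
    -- heights
    have hC := (hI (3 / 8) (by norm_num) le_rfl)
    obtain ⟨H', δ', hC⟩ := hC
    have h1 : ∀ j, hE T (F.lift (v j)) (bu m t ν) (3 / 16) ≤ t⁻¹ ^ (m + 2) * hh (j + N) := by
      intro j
      rw [hE_bu F ht0 (u (j + N)) (v j) ν (hveq j), htr]
      refine mul_le_mul_of_nonneg_left ?_ (by positivity)
      have hrj : 0 < r (j + N) := hρ.trans_le (hρle _)
      have h2 : hE T (F.lift (u (j + N))) ν ρ ≤ hE T (F.lift (u (j + N))) ν (r (j + N)) :=
        ALL.hE_mono hC.cyl F (fun a => ((hu _).smooth a).continuous) (hu _).supp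
          (ball_subset_ball (by linarith [hr1 (j + N)])) (hρle _)
      have h3 : hE T (F.lift (u (j + N))) ν (r (j + N)) = r (j + N) ^ (m + 2) * hh (j + N) := by
        rw [hheq, hN]
        field_simp
      have h4 : r (j + N) ^ (m + 2) ≤ 1 := pow_le_one₀ hrj.le (by linarith [hr1 (j + N)])
      have h5 : 0 ≤ hh (j + N) := by
        rw [hheq, hN]
        exact mul_nonneg (by positivity) (ALL.hE_nonneg _ _ _ _)
      calc _ ≤ r (j + N) ^ (m + 2) * hh (j + N) := h2.trans h3.le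
        _ ≤ 1 * hh (j + N) := by gcongr
        _ = _ := one_mul _
    refine squeeze_zero (fun j => ALL.hE_nonneg _ _ _ _) h1 ?_
    have h6 : Tendsto (fun j => hh (j + N)) atTop (𝓝 0) := (tendsto_add_atTop_iff_nat N).2 hhlim
    simpa using h6.const_mul (t⁻¹ ^ (m + 2))
  obtain ⟨w, -, hw⟩ := hmain F hIb.cyl (r := 3 / 16) (by norm_num) le_rfl
    (ball_subset_ball (by norm_num)) (u := v) (b := fun j => t⁻¹ * b (j + N))
    (((summable_nat_add_iff N).2 hsum).mul_left _) hvR hinc hht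
  exact ⟨(t⁻¹)⁻¹ * (3 / 16), by positivity, _, hw.of_dil (m := m) (inv_pos.2 ht0)⟩

end Vale.Agent.P214.BSEQ
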