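import Vale.Agent.P214.BSEQ.SeqFin
import Vale.Agent.P214.BSEQ.AccB
import Vale.Agent.P214.BSEQ.StepSFin

/-! # P214, target B, block [B1]: `WindowsStmt` from the one step statement -/

set_option linter.all false

namespace Vale.Agent.P214.BSEQ

open MeasureTheory

/-- **[B-WINDOWS]** from `oneStmt` -/
theorem windowsStmt_of_one (E : Type*) [NormedAddCommGroup E] [InnerProductSpace ℝ E]
    [FiniteDimensional ℝ E] [MeasurableSpace E] [BorelSpace E] {m : ℕ} (n : ℕ) {Q : ℕ}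
    (hm : 1 ≤ m) (hQ : 1 ≤ Q)
    (hone : ∀ X : Exps, X.Fine m → StepAt E m n Q X.c₀ X.c₁ → OneStmt E m n Q X) :
    WindowsStmt E m n Q := by
  obtain ⟨c₀, hc₀, hc₀8, hS⟩ := stepS_all E n hm hQ
  refine windowsStmt_of E fun β hβ hβ2 => ?_
  obtain ⟨X, hX, rfl, hXβ⟩ := exists_fine m hc₀ hc₀8 hβ hβ2
  exact ⟨X, hX.ok, hXβ, hone X hX fun τ hτ => hS X.c₁ hX.ok.c₁_pos hX.ok.c₁_le τ hτ,
    accStmt hQ hX⟩

end Vale.Agent.P214.BSEQ
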